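import Vale.Agent.Lib.P321.FarOL

/-!
P321: the weighted overlap bound outside the zone, with the weight `ρ + η`, `η = 1/δ + ε`.
-/

namespace Vale.Agent.Lib.P321B

open Finset Vale.Agent.Lib.P321

/-- The convolution of the weights. -/
theorem harm_rho_far {d X : ℤ} (hdX : d ≤ X) {𝓕 η : ℝ} (h𝓕 : 1 ≤ 𝓕) (hη : 0 ≤ η)
    (hh : ∑ j ∈ range ((X - d).toNat + 3), 1 / ((j : ℝ) + 1) ≤ 𝓕)
    (hηL : η ^ 2 * (((X - d).toNat : ℝ) + 1) ≤ 𝓕) :
    ∑ i ∈ Ico d X, (rhoL (i - d) + η) * (rhoL (X - i) + η) ^ 2 ≤ 12 * 𝓕 * (rhoL (X - d) + η) := by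
  obtain ⟨L, hL⟩ : ∃ L : ℕ, (L : ℤ) = X - d := ⟨(X - d).toNat, by omega⟩
  have hLt : (X - d).toNat = L := by omega
  rw [hLt] at hh hηL
  have hmain := harm_rho hdX h𝓕 (by rw [hLt]; exact hh)
  -- the sum of `ρ`
  have hs1 : ∑ i ∈ Ico d X, rhoL (i - d) ≤ 2 * √(L : ℝ) := by
    refine le_trans (le_of_eq ?_) (sum_inv_sqrt_le L)
    apply sum_nbij' (fun i => (i - d).toNat) (fun u => d + (u : ℤ))
    · intro i hi
      simp only [mem_Ico, mem_range] at hi ⊢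
      omega
    · intro u hu
      simp only [mem_Ico, mem_range] at hu ⊢
      omega
    · intro i hi
      simp only [mem_Ico] at hi
      have : ((i - d).toNat : ℤ) = i - d := by omega
      rw [this]
      ring
    · intro u _
      simp
    · intro i hi
      simp only [mem_Ico] at hi
      have e0 : (((i - d).toNat : ℕ) : ℤ) = i - d := Int.toNat_of_nonneg (by omega)
      have e1 : ((((i - d).toNat : ℕ) : ℝ)) = ((i - d : ℤ) : ℝ) := by exact_mod_cast e0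
      simp only [rhoL]
      rw [e1]
  -- the sum of `ρ²` on the right
  have hs2 : ∑ i ∈ Ico d X, rhoL (X - i) ^ 2 ≤ 𝓕 := by
    refine le_trans ?_ hh
    have e : ∑ i ∈ Ico d X, rhoL (X - i) ^ 2 =
        ∑ j ∈ (range L).image (fun u : ℕ => u + 1), 1 / ((j : ℝ) + 1) := by
      rw [sum_image (fun a _ b _ h => by simpa using h)]
      apply sum_nbij' (fun i => (X - i - 1).toNat) (fun u => X - 1 - (u : ℤ))
      · intro i hi
        simp only [mem_Ico, mem_range] at hi ⊢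
        omega
      · intro u hu
        simp only [mem_Ico, mem_range] at hu ⊢
        omega
      · intro i hi
        simp only [mem_Ico] at hi
        have : ((X - i - 1).toNat : ℤ) = X - i - 1 := by omega
        rw [this]
        ring
      · intro u hu
        simp only [mem_range] at hu
        omega
      · intro i hi
        simp only [mem_Ico] at hi
        simp only [rhoL]
        have hpos : (0 : ℝ) ≤ ((X - i : ℤ) : ℝ) + 1 := by
          have : (0 : ℤ) ≤ X - i := by omega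
          have : (0 : ℝ) ≤ ((X - i : ℤ) : ℝ) := by exact_mod_cast this
          linarith
        rw [div_pow, one_pow, Real.sq_sqrt hpos]
        congr 1
        have e1 : (((X - i - 1).toNat : ℤ) : ℝ) = ((X - i - 1 : ℤ) : ℝ) := by
          congr 1
          omega
        have e2 : (((X - i - 1).toNat : ℕ) : ℝ) = ((X - i - 1 : ℤ) : ℝ) := by simpa using e1
        push_cast at e2 ⊢
        rw [e2]
        ring
    rw [e]
    apply sum_le_sum_of_subset_of_nonneg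
    · intro j hj
      obtain ⟨u, hu, rfl⟩ := mem_image.mp hj
      simp only [mem_range] at hu ⊢
      omega
    · intros
      positivity
  have hs2' : ∑ i ∈ Ico d X, (2 * η) * rhoL (X - i) ^ 2 ≤ 2 * η * 𝓕 := by
    rw [← mul_sum]
    exact mul_le_mul_of_nonneg_left hs2 (by positivity)
  -- the sum of constants
  have hcard : ∑ _i ∈ Ico d X, (2 * η ^ 3) ≤ 2 * η * 𝓕 := by
    rw [sum_const, Int.card_Ico, nsmul_eq_mul, hLt]
    have hLr : (0 : ℝ) ≤ L := by positivity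
    have : (L : ℝ) * (2 * η ^ 3) = 2 * η * (η ^ 2 * L) := by ring
    rw [this]
    apply mul_le_mul_of_nonneg_left _ (by positivity)
    have h3 : 0 ≤ η ^ 2 := by positivity
    nlinarith
  have hs1' : ∑ i ∈ Ico d X, (2 * η ^ 2) * rhoL (i - d) ≤ 4 * η * 𝓕 := by
    rw [← mul_sum]
    have h3 : (2 * η ^ 2) * ∑ i ∈ Ico d X, rhoL (i - d) ≤ (2 * η ^ 2) * (2 * √(L : ℝ)) :=
      mul_le_mul_of_nonneg_left hs1 (by positivity)
    refine h3.trans ?_
    have hLr : (0 : ℝ) ≤ L := by positivity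
    set v := √(L : ℝ) with hv
    have hv0 : 0 ≤ v := Real.sqrt_nonneg _
    have hv2 : v * v = (L : ℝ) := Real.mul_self_sqrt hLr
    have h5 : η * v ≤ 𝓕 := by
      have h6 : (η * v) ^ 2 ≤ 𝓕 := by
        have : (η * v) ^ 2 = η ^ 2 * (v * v) := by ring
        rw [this, hv2]
        have h3 : 0 ≤ η ^ 2 := by positivity
        nlinarith
      by_contra hc
      push Not at hc
      have h7 : 𝓕 * 𝓕 < (η * v) * (η * v) := by
        have h1' : 0 ≤ 𝓕 := by linarith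
        nlinarith
      nlinarith
    have e : 2 * η ^ 2 * (2 * v) = 4 * η * (η * v) := by ring
    rw [e]
    exact mul_le_mul_of_nonneg_left h5 (by positivity)
  have hpt : ∀ i ∈ Ico d X, (rhoL (i - d) + η) * (rhoL (X - i) + η) ^ 2 ≤
      2 * (rhoL (i - d) * rhoL (X - i) ^ 2) + (2 * η ^ 2) * rhoL (i - d) +
        (2 * η) * rhoL (X - i) ^ 2 + 2 * η ^ 3 := by
    intro i _
    have h1' := rhoL_nonneg (i - d)
    have h2' := rhoL_nonneg (X - i)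
    set a := rhoL (i - d)
    set b := rhoL (X - i)
    have h3 : (b + η) ^ 2 ≤ 2 * b ^ 2 + 2 * η ^ 2 := by nlinarith [sq_nonneg (b - η)]
    have h4 := mul_le_mul_of_nonneg_left h3 (add_nonneg h1' hη)
    refine h4.trans (le_of_eq ?_)
    ring
  refine (sum_le_sum hpt).trans ?_
  rw [sum_add_distrib, sum_add_distrib, sum_add_distrib, ← mul_sum (a := (2 : ℝ))]
  have hη𝓕 : 0 ≤ η * 𝓕 := by positivity
  nlinarith [rhoL_nonneg (X - d)]

set_option maxHeartbeats 400000 in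
/-- One step of the weighted bound outside the zone. -/
theorem weighted_step_far {q θ₀ θ₁ : ℝ} (h0 : 0 < q) (h1 : q < 1) (hθ₀ : 0 < θ₀) (hθ₁ : θ₁ < 1) :
    ∃ C₅ C₆ : ℝ, 0 < C₅ ∧ 0 < C₆ ∧ ∀ θ ∈ Set.Icc θ₀ θ₁,
      ∀ (δ : ℕ) (η : ℝ) (S : Finset ℤ) (f : ℤ → Word → ℝ) (B₀ : ℕ) (I₀ : ℤ),
        1 ≤ δ → 1 / (δ : ℝ) ≤ η → |θ - q ^ 2| ≤ η →
        Spaced S δ → (∀ d ∈ S, I₀ ≤ d) → (∀ d ∈ S, ∀ w, f d w ≠ 0 → w.length ≤ B₀) →
        ∀ X : ℤ, (∀ d ∈ S, 2 * (X - d) ≤ (B₀ : ℤ)) → ∀ g : ℝ, 0 < g →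
          nsq q B₀ (Yk θ (NB θ) S f X) ≤
            C₆ * (1 + g) * ∑ d ∈ S.filter (· ≤ X), nsq q B₀ (f d) * (rhoL (X - d) + η) +
            (C₅ / g) * ∑ i ∈ Icc I₀ X, nsq q B₀ (Yb θ S f i) * (rhoL (X - i) + η) ^ 2 := by
  obtain ⟨Cb, hCb, hbb⟩ := NB_hbb hθ₀ hθ₁
  obtain ⟨CD, hCD, hDG⟩ := NB_DG h0 h1 hθ₀ hθ₁ Cb hCb
  obtain ⟨CO, hCO, hOF⟩ := NB_OF h0 h1 hθ₀ hθ₁
  obtain ⟨CQ, hCQ, hQb⟩ := NB_Qbar h0 h1 hθ₀ hθ₁
  have hCnu := Cnu_pos (q := q) h0 hθ₀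
  refine ⟨2 * CQ, 10 * Cnu q θ₀ * CD + 2 * CO, by positivity, by positivity, ?_⟩
  intro θ hθ δ η S f B₀ I₀ hδ hη1 hη2 hS hI hf X hXd g hg
  have hθ1 : θ < 1 := lt_of_le_of_lt hθ.2 hθ₁
  have hθ0 : 0 < θ := lt_of_lt_of_le hθ₀ hθ.1
  have hθ₀1 : θ₀ ≤ 1 := by linarith [hθ.1]
  have hδ0 : (0 : ℝ) < δ := by exact_mod_cast hδ
  have hinv : (0 : ℝ) ≤ 1 / δ := by positivity
  have hε : 0 ≤ |θ - q ^ 2| := abs_nonneg _
  have hη0 : 0 ≤ η := hε.trans hη2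
  have hcore := OL_core (q := q) (θ := θ) (θ₀ := θ₀) h0 h1 hθ₀ hθ.1 hθ1 hθ₀1 (isBlk_NB θ) S f X hI
    (B := 2 * B₀ + 2) (B₁ := B₀) (B₂ := B₀) (by omega) hf hXd (bbK Cb 1 0 δ)
    (fun r c hr => hbb θ hθ δ hδ S hS r c hr)
  have hmono := nsq_mono (q := q) h0 h1 (by omega : B₀ ≤ 2 * B₀ + 2) (Yk θ (NB θ) S f X)
  refine hmono.trans (hcore.trans ?_)
  set Sg := ∑ d ∈ S.filter (· ≤ X), nsq q B₀ (f d) * (rhoL (X - d) + η) with hSg
  have hSg0 : 0 ≤ Sg := sum_nonneg fun d _ => mul_nonneg (nsq_nonneg h0 h1 _ _) (add_nonneg (rhoL_nonneg _) hη0)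
  -- diagonal
  have hdiag : ∑ d ∈ S, nsq q (2 * B₀ + 2) (f d) * DGv q (NB θ) (bbK Cb 1 0 δ) (2 * B₀ + 2) (X - d) ≤
      CD * Sg := by
    have e1 : ∑ d ∈ S, nsq q (2 * B₀ + 2) (f d) * DGv q (NB θ) (bbK Cb 1 0 δ) (2 * B₀ + 2) (X - d) =
        ∑ d ∈ S.filter (· ≤ X), nsq q (2 * B₀ + 2) (f d) *
          DGv q (NB θ) (bbK Cb 1 0 δ) (2 * B₀ + 2) (X - d) := by
      symm
      apply sum_subset (filter_subset _ _)
      intro d hd hnd
      have : X - d < 0 := by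
        simp only [mem_filter, not_and, not_le] at hnd
        have := hnd hd
        omega
      have h2 := DGv_of_neg (q := q) (θ := θ) [] (bbK Cb 1 0 δ) (2 * B₀ + 2) this
      rw [ker_nil_fun] at h2
      rw [h2]
      ring
    rw [e1, hSg, mul_sum]
    apply sum_le_sum
    intro d hd
    obtain ⟨hdS, hdX⟩ := mem_filter.mp hd
    rw [nsq_eq_of_supp (by omega : B₀ ≤ 2 * B₀ + 2) (hf d hdS)]
    have h := hDG θ hθ δ (2 * B₀ + 2) (X - d) hδ (by omega)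
    have hn := nsq_nonneg (q := q) h0 h1 B₀ (f d)
    have hr := rhoL_nonneg (X - d)
    calc nsq q B₀ (f d) * DGv q (NB θ) (bbK Cb 1 0 δ) (2 * B₀ + 2) (X - d)
        ≤ nsq q B₀ (f d) * (CD * (1 / δ + rhoL (X - d))) := mul_le_mul_of_nonneg_left h hn
      _ ≤ nsq q B₀ (f d) * (CD * (rhoL (X - d) + η)) := by
          apply mul_le_mul_of_nonneg_left _ hn
          apply mul_le_mul_of_nonneg_left _ hCD.le
          linarith
      _ = _ := by ring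
  -- off-diagonal
  have hsplit := off_split (q := q) h0 h1 S f B₀ X I₀ (fun d i => Qv q θ (NB θ) B₀ X d i)
    (fun d i => Qv_nonneg h0 h1 _ _ _ _ _) hg (Yb θ S f)
  have hA : ∑ d' ∈ S, nsq q B₀ (f d') * ∑ i ∈ Icc I₀ X, Qv q θ (NB θ) B₀ X d' i ≤ CO * Sg := by
    have e1 : ∑ d' ∈ S, nsq q B₀ (f d') * ∑ i ∈ Icc I₀ X, Qv q θ (NB θ) B₀ X d' i =
        ∑ d' ∈ S.filter (· ≤ X), nsq q B₀ (f d') * ∑ i ∈ Icc I₀ X, Qv q θ (NB θ) B₀ X d' i := by
      symm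
      apply sum_subset (filter_subset _ _)
      intro d hd hnd
      have : X - d < 0 := by
        simp only [mem_filter, not_and, not_le] at hnd
        have := hnd hd
        omega
      have h3 : ∑ i ∈ Icc I₀ X, Qv q θ (NB θ) B₀ X d i = 0 := by
        apply sum_eq_zero
        intro i _
        have h2 := Qv_of_neg (q := q) (θ := θ) [] B₀ i this
        rwa [ker_nil_fun] at h2
      rw [h3]
      ring
    rw [e1, hSg, mul_sum]
    apply sum_le_sum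
    intro d hd
    obtain ⟨hdS, hdX⟩ := mem_filter.mp hd
    have h := hOF θ hθ B₀ X d I₀ (by omega)
    have hn := nsq_nonneg (q := q) h0 h1 B₀ (f d)
    have hr := rhoL_nonneg (X - d)
    calc nsq q B₀ (f d) * ∑ i ∈ Icc I₀ X, Qv q θ (NB θ) B₀ X d i
        ≤ nsq q B₀ (f d) * (CO * (rhoL (X - d) + |θ - q ^ 2|)) := mul_le_mul_of_nonneg_left h hn
      _ ≤ nsq q B₀ (f d) * (CO * (rhoL (X - d) + η)) := by
          apply mul_le_mul_of_nonneg_left _ hn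
          apply mul_le_mul_of_nonneg_left _ hCO.le
          linarith
      _ = _ := by ring
  have hB : ∑ i ∈ Icc I₀ X, nsq q B₀ (Yb θ S f i) * ∑ d' ∈ S, Qv q θ (NB θ) B₀ X d' i ≤
      CQ * ∑ i ∈ Icc I₀ X, nsq q B₀ (Yb θ S f i) * (rhoL (X - i) + η) ^ 2 := by
    rw [mul_sum]
    apply sum_le_sum
    intro i hi
    have hi' := mem_Icc.mp hi
    have h := hQb θ hθ δ S hδ hS B₀ X i (by omega)
    have hr := rhoL_nonneg (X - i)
    have hn := nsq_nonneg (q := q) h0 h1 B₀ (Yb θ S f i)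
    calc nsq q B₀ (Yb θ S f i) * ∑ d' ∈ S, Qv q θ (NB θ) B₀ X d' i
        ≤ nsq q B₀ (Yb θ S f i) * (CQ * ((rhoL (X - i) + 1 / δ) * (rhoL (X - i) + |θ - q ^ 2|))) :=
          mul_le_mul_of_nonneg_left h hn
      _ ≤ nsq q B₀ (Yb θ S f i) * (CQ * ((rhoL (X - i) + η) * (rhoL (X - i) + η))) := by
          apply mul_le_mul_of_nonneg_left _ hn
          apply mul_le_mul_of_nonneg_left _ hCQ.le
          apply mul_le_mul <;> first | linarith | positivity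
      _ = _ := by ring
  set Off := ∑ i ∈ Icc I₀ X, ∑ d' ∈ S, Qv q θ (NB θ) B₀ X d' i *
        (√(nsq q B₀ (f d')) * √(nsq q B₀ (Yb θ S f i))) with hOff
  have hOff0 : 0 ≤ Off := by
    apply sum_nonneg
    intro i _
    apply sum_nonneg
    intro d _
    exact mul_nonneg (Qv_nonneg h0 h1 _ _ _ _ _) (by positivity)
  set Mm := ∑ i ∈ Icc I₀ X, nsq q B₀ (Yb θ S f i) * (rhoL (X - i) + η) ^ 2 with hMm
  have hOffle : Off ≤ (g / 2) * (CO * Sg) + (1 / (2 * g)) * (CQ * Mm) := by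
    refine hsplit.trans ?_
    apply add_le_add
    · exact mul_le_mul_of_nonneg_left hA (by positivity)
    · exact mul_le_mul_of_nonneg_left hB (by positivity)
  have hkap0 := kapT_nonneg (q := q) (θ := θ) h1 h0 hθ1
  have hkap1 := kapT_le_one (q := q) h1 h0 hθ0 hθ1
  have hk : kapT q θ * Off ≤ Off := by
    have := mul_le_mul_of_nonneg_right hkap1 hOff0
    linarith
  have hmul := mul_le_mul_of_nonneg_left hdiag hCnu.le
  have e5 : (g / 2) * (CO * Sg) = g * (CO * Sg) / 2 := by ring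
  have e6 : (1 / (2 * g)) * (CQ * Mm) = (CQ / g) * Mm / 2 := by
    field_simp
  have e7 : (2 * CQ / g) * Mm = 2 * ((CQ / g) * Mm) := by
    field_simp
  rw [e7]
  rw [e5, e6] at hOffle
  have hMm0 : 0 ≤ Mm := sum_nonneg fun i _ => mul_nonneg (nsq_nonneg h0 h1 _ _) (sq_nonneg _)
  have t0 : 0 ≤ (CQ / g) * Mm := mul_nonneg (div_pos hCQ hg).le hMm0
  have t1 : 0 ≤ Cnu q θ₀ * CD * Sg := mul_nonneg (mul_pos hCnu hCD).le hSg0
  have t2 : 0 ≤ g * (Cnu q θ₀ * CD * Sg) := mul_nonneg hg.le t1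
  have t3 : 0 ≤ CO * Sg := mul_nonneg hCO.le hSg0
  have t4 : 0 ≤ g * (CO * Sg) := mul_nonneg hg.le t3
  have e8 : (10 * Cnu q θ₀ * CD + 2 * CO) * (1 + g) * Sg =
      10 * (Cnu q θ₀ * CD * Sg) + 2 * (CO * Sg) + 10 * (g * (Cnu q θ₀ * CD * Sg)) + 2 * (g * (CO * Sg)) := by
    ring
  rw [e8]
  have e9 : Cnu q θ₀ * (CD * Sg) = (Cnu q θ₀ * CD * Sg) := by ring
  rw [e9] at hmul
  linarith

/-- Summing the induction hypothesis against `(ρ + η)²`. -/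
theorem weighted_sum_bound_far {q : ℝ} (h0 : 0 < q) (h1 : q < 1) (S : Finset ℤ) (f : ℤ → Word → ℝ) (B₀ : ℕ)
    {I₀ X : ℤ} (hI : ∀ d ∈ S, I₀ ≤ d) {𝓕 η : ℝ} (h𝓕 : 1 ≤ 𝓕) (hη : 0 ≤ η)
    (hh : ∀ d ∈ S, d ≤ X → ∑ j ∈ range ((X - d).toNat + 3), 1 / ((j : ℝ) + 1) ≤ 𝓕)
    (hηL : ∀ d ∈ S, d ≤ X → η ^ 2 * (((X - d).toNat : ℝ) + 1) ≤ 𝓕)
    (Y : ℤ → ℝ) {G : ℝ} (hG : 0 ≤ G)
    (hY : ∀ i ∈ Ico I₀ X, Y i ≤ G * ∑ d ∈ S.filter (· ≤ i), nsq q B₀ (f d) * (rhoL (i - d) + η)) :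
    ∑ i ∈ Ico I₀ X, Y i * (rhoL (X - i) + η) ^ 2 ≤
      G * (12 * 𝓕) * ∑ d ∈ S.filter (· ≤ X), nsq q B₀ (f d) * (rhoL (X - d) + η) := by
  calc ∑ i ∈ Ico I₀ X, Y i * (rhoL (X - i) + η) ^ 2
      ≤ ∑ i ∈ Ico I₀ X, (G * ∑ d ∈ S.filter (· ≤ i), nsq q B₀ (f d) * (rhoL (i - d) + η)) * (rhoL (X - i) + η) ^ 2 :=
        sum_le_sum fun i hi => mul_le_mul_of_nonneg_right (hY i hi) (sq_nonneg _)
    _ = G * ∑ i ∈ Ico I₀ X, ∑ d ∈ S.filter (· ≤ i),
          nsq q B₀ (f d) * ((rhoL (i - d) + η) * (rhoL (X - i) + η) ^ 2) := by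
        rw [mul_sum]
        apply sum_congr rfl
        intro i _
        rw [mul_assoc, sum_mul]
        congr 1
        apply sum_congr rfl
        intro d _
        ring
    _ = G * ∑ d ∈ S.filter (· ≤ X), nsq q B₀ (f d) * ∑ i ∈ Ico d X, (rhoL (i - d) + η) * (rhoL (X - i) + η) ^ 2 := by
        congr 1
        simp only [mul_sum]
        apply sum_comm'
        intro i d
        simp only [mem_Ico, mem_filter]
        constructor
        · rintro ⟨⟨h2, h3⟩, h4, h5⟩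
          exact ⟨⟨h5, h3⟩, h4, by omega⟩
        · rintro ⟨⟨h2, h3⟩, h4, h5⟩
          exact ⟨⟨by have := hI d h4; omega, h3⟩, h4, h2⟩
    _ ≤ G * ∑ d ∈ S.filter (· ≤ X), nsq q B₀ (f d) * (12 * 𝓕 * (rhoL (X - d) + η)) := by
        apply mul_le_mul_of_nonneg_left _ hG
        apply sum_le_sum
        intro d hd
        obtain ⟨hdS, hdX⟩ := mem_filter.mp hd
        exact mul_le_mul_of_nonneg_left (harm_rho_far hdX h𝓕 hη (hh d hdS hdX) (hηL d hdS hdX)) (nsq_nonneg h0 h1 _ _)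
    _ = _ := by
        rw [mul_assoc G, mul_sum (S.filter (· ≤ X)) _ (12 * 𝓕)]
        congr 1
        apply sum_congr rfl
        intro d _
        ring

set_option maxHeartbeats 600000 in
/-- The weighted bound outside the zone. -/
theorem OL_weighted_far {q θ₀ θ₁ : ℝ} (h0 : 0 < q) (h1 : q < 1) (hθ₀ : 0 < θ₀) (hθ₁ : θ₁ < 1) :
    ∃ C : ℝ, 0 < C ∧ ∀ θ ∈ Set.Icc θ₀ θ₁,
      ∀ (δ : ℕ) (η : ℝ) (S : Finset ℤ) (f : ℤ → Word → ℝ) (B₀ : ℕ) (I₀ : ℤ) (Lf : ℕ) (𝓕 : ℝ),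
        1 ≤ δ → 1 / (δ : ℝ) ≤ η → |θ - q ^ 2| ≤ η → Spaced S δ → (∀ d ∈ S, I₀ ≤ d) →
        (∀ d ∈ S, ∀ w, f d w ≠ 0 → w.length ≤ B₀) →
        1 ≤ 𝓕 → (∑ j ∈ range (Lf + 3), 1 / ((j : ℝ) + 1) ≤ 𝓕) →
        η ^ 2 * ((Lf : ℝ) + 1) ≤ 𝓕 → η ≤ 1 →
        ∀ X : ℤ, X - I₀ ≤ Lf → (∀ d ∈ S, 2 * (X - d) ≤ (B₀ : ℤ)) →
          nsq q B₀ (Yk θ (NB θ) S f X) ≤
            C * 𝓕 * ∑ d ∈ S.filter (· ≤ X), nsq q B₀ (f d) * (rhoL (X - d) + η) := by
  obtain ⟨C₅, C₆, hC₅, hC₆, hstep⟩ := weighted_step_far h0 h1 hθ₀ hθ₁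
  obtain ⟨Cd, hCd, hdg⟩ := NB_diag h0 h1 hθ₀ hθ₁
  set C₇ : ℝ := 2 * C₆ + 4 * Cd with hC₇
  have hC₇0 : 0 < C₇ := by positivity
  refine ⟨5 * C₇ * (1 + 96 * C₅), by positivity, ?_⟩
  intro θ hθ δ η S f B₀ I₀ Lf 𝓕 hδ hηδ hηε hS hI hf h𝓕 hh hηL hη1 X hXL hXd
  have h𝓕0 : 0 < 𝓕 := by linarith
  set g : ℝ := 96 * C₅ * 𝓕 with hgdef
  have hg : 0 < g := by positivity
  set G : ℝ := 4 * C₇ * (1 + g) with hGdef
  have hG0 : 0 < G := by positivity
  have hδ0 : (0 : ℝ) < δ := by exact_mod_cast hδ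
  have hη0 : 0 ≤ η := (abs_nonneg _).trans hηε
  let Sg : ℤ → ℝ := fun X' => ∑ d ∈ S.filter (· ≤ X'), nsq q B₀ (f d) * (rhoL (X' - d) + η)
  have hSg0 : ∀ X', 0 ≤ Sg X' := fun X' =>
    sum_nonneg fun d _ => mul_nonneg (nsq_nonneg h0 h1 _ _) (add_nonneg (rhoL_nonneg _) hη0)
  let Y : ℤ → ℝ := fun i => nsq q B₀ (Yb θ S f i)
  have hY0 : ∀ i, 0 ≤ Y i := fun i => nsq_nonneg h0 h1 _ _
  -- the basic inequality
  have hbase : ∀ X', X' ≤ X → nsq q B₀ (Yk θ (NB θ) S f X') ≤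
      C₆ * (1 + g) * Sg X' + (C₅ / g) * ∑ i ∈ Icc I₀ X', Y i * (rhoL (X' - i) + η) ^ 2 := by
    intro X' hX'
    exact hstep θ hθ δ η S f B₀ I₀ hδ hηδ hηε hS hI hf X'
      (fun d hd => by have := hXd d hd; omega) g hg
  have hquad : ∀ X', ∑ s ∈ Quad B₀, piT q (joinS s) * Atok θ (NB θ) S f X' s ^ 2 ≤ Cd * Sg X' := by
    intro X'
    refine (hdg θ hθ δ S f B₀ X' hδ hS).trans ?_
    apply mul_le_mul_of_nonneg_left _ hCd.le
    change _ ≤ ∑ d ∈ S.filter (· ≤ X'), nsq q B₀ (f d) * (rhoL (X' - d) + η)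
    apply sum_le_sum
    intro d _
    have hn := nsq_nonneg (q := q) h0 h1 B₀ (f d)
    have hε : 0 ≤ |θ - q ^ 2| := abs_nonneg _
    apply mul_le_mul_of_nonneg_left _ hn
    linarith
  have hhh : ∀ X', X' ≤ X → ∀ d ∈ S, d ≤ X' → ∑ j ∈ range ((X' - d).toNat + 3), 1 / ((j : ℝ) + 1) ≤ 𝓕 := by
    intro X' hX' d hd _
    have := hI d hd
    exact harm_restrict (by omega) hh
  have hhη : ∀ X', X' ≤ X → ∀ d ∈ S, d ≤ X' → η ^ 2 * (((X' - d).toNat : ℝ) + 1) ≤ 𝓕 := by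
    intro X' hX' d hd _
    have := hI d hd
    refine le_trans ?_ hηL
    apply mul_le_mul_of_nonneg_left _ (sq_nonneg _)
    have : (X' - d).toNat ≤ Lf := by omega
    have : (((X' - d).toNat : ℕ) : ℝ) ≤ Lf := by exact_mod_cast this
    linarith
  have hgg : 2 * C₅ / g = 1 / (48 * 𝓕) := by
    rw [hgdef]
    field_simp
    ring
  have hgg2 : C₅ / g = 1 / (96 * 𝓕) := by
    rw [hgdef]
    field_simp
  have hw0 : (rhoL 0 + η) ^ 2 ≤ 4 := by
    rw [rhoL_zero]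
    nlinarith
  -- the induction
  have hind : ∀ n : ℕ, I₀ + n ≤ X → Y (I₀ + n) ≤ G * Sg (I₀ + n) := by
    intro n
    induction n using Nat.strong_induction_on with
    | _ n ih =>
      intro hn
      set X' : ℤ := I₀ + n with hX'
      have hle : X' ≤ X := hn
      have hI' : I₀ ≤ X' := by omega
      have hIco : ∀ i ∈ Ico I₀ X', Y i ≤ G * Sg i := by
        intro i hi
        have hi' := mem_Ico.mp hi
        have := ih (i - I₀).toNat (by omega) (by omega)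
        have e : I₀ + ((i - I₀).toNat : ℤ) = i := by omega
        rwa [e] at this
      have hsum := weighted_sum_bound_far h0 h1 S f B₀ (X := X') hI h𝓕 hη0 (hhh X' hle) (hhη X' hle) Y hG0.le hIco
      have hyb := Yb_le (q := q) h0 h1 θ S f X' B₀
      have hb1 := hbase X' hle
      have hq1 := hquad X'
      have hYX := hY0 X'
      have hIcc : ∑ i ∈ Icc I₀ X', Y i * (rhoL (X' - i) + η) ^ 2 ≤
          4 * Y X' + ∑ i ∈ Ico I₀ X', Y i * (rhoL (X' - i) + η) ^ 2 := by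
        rw [← Ico_insert_right hI', sum_insert (by simp)]
        simp only [sub_self]
        have := mul_le_mul_of_nonneg_left hw0 hYX
        linarith
      set A := ∑ i ∈ Ico I₀ X', Y i * (rhoL (X' - i) + η) ^ 2 with hA
      have hb2 : (C₅ / g) * ∑ i ∈ Icc I₀ X', Y i * (rhoL (X' - i) + η) ^ 2 ≤ (C₅ / g) * (4 * Y X' + A) :=
        mul_le_mul_of_nonneg_left hIcc (by positivity)
      set s := Sg X' with hs
      have hs0 : 0 ≤ s := hSg0 X'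
      -- combine
      have e1 : Y X' ≤ 2 * (C₆ * (1 + g) * s + (C₅ / g) * (4 * Y X' + A)) + 2 * (Cd * s) := by
        have : Y X' = nsq q B₀ (Yb θ S f X') := rfl
        linarith
      have e2 : 2 * (C₆ * (1 + g) * s + (C₅ / g) * (4 * Y X' + A)) + 2 * (Cd * s) ≤
          C₇ * (1 + g) * s + (2 * C₅ / g) * (4 * Y X' + A) := by
        have h5 : 2 * (C₅ / g) = 2 * C₅ / g := by ring
        have h6 : 0 ≤ Cd * (g * s) := by positivity
        rw [hC₇, ← h5]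
        nlinarith
      have e3 := e1.trans e2
      rw [hgg] at e3
      have h𝓕inv : 1 / (48 * 𝓕) * 4 ≤ 1 / 2 := by
        have : 1 / (48 * 𝓕) ≤ 1 / 48 := by
          apply one_div_le_one_div_of_le (by norm_num)
          linarith
        linarith
      have h𝓕pos : 0 < 1 / (48 * 𝓕) := by positivity
      have e4 : 1 / (48 * 𝓕) * 4 * Y X' ≤ 1 / 2 * Y X' := mul_le_mul_of_nonneg_right h𝓕inv hYX
      have e5 : 1 / (48 * 𝓕) * A ≤ 1 / (48 * 𝓕) * (G * (12 * 𝓕) * s) :=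
        mul_le_mul_of_nonneg_left hsum h𝓕pos.le
      have e6 : 1 / (48 * 𝓕) * (G * (12 * 𝓕) * s) = G * s / 4 := by
        field_simp
        ring
      have e7 : C₇ * (1 + g) * s = G * s / 4 := by
        rw [hGdef]
        ring
      have e8 : 1 / (48 * 𝓕) * (4 * Y X' + A) = 1 / (48 * 𝓕) * 4 * Y X' + 1 / (48 * 𝓕) * A := by ring
      rw [e8, e7] at e3
      linarith
  have hYall : ∀ i ∈ Icc I₀ X, Y i ≤ G * Sg i := by
    intro i hi
    have hi' := mem_Icc.mp hi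
    have := hind (i - I₀).toNat (by omega)
    have e : I₀ + ((i - I₀).toNat : ℤ) = i := by omega
    rwa [e] at this
  have hfinal := hbase X le_rfl
  have hs0 := hSg0 X
  have hgI : (1 + g) ≤ (1 + 96 * C₅) * 𝓕 := by
    rw [hgdef]
    nlinarith
  have hIccB : ∑ i ∈ Icc I₀ X, Y i * (rhoL (X - i) + η) ^ 2 ≤ G * (16 * 𝓕) * Sg X := by
    by_cases hX : I₀ ≤ X
    · have hIcc : ∑ i ∈ Icc I₀ X, Y i * (rhoL (X - i) + η) ^ 2 ≤
          4 * Y X + ∑ i ∈ Ico I₀ X, Y i * (rhoL (X - i) + η) ^ 2 := by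
        rw [← Ico_insert_right hX, sum_insert (by simp)]
        simp only [sub_self]
        have := mul_le_mul_of_nonneg_left hw0 (hY0 X)
        linarith
      have hsum := weighted_sum_bound_far h0 h1 S f B₀ (X := X) hI h𝓕 hη0 (hhh X le_rfl) (hhη X le_rfl) Y hG0.le
        (fun i hi => hYall i (by
          have := mem_Ico.mp hi
          exact mem_Icc.mpr ⟨this.1, by omega⟩))
      have hyx := hYall X (mem_Icc.mpr ⟨hX, le_rfl⟩)
      have h5 : G * Sg X ≤ G * 𝓕 * Sg X := by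
        have : 0 ≤ G * Sg X := by positivity
        nlinarith
      have e : G * (16 * 𝓕) * Sg X = 4 * (G * 𝓕 * Sg X) + G * (12 * 𝓕) * Sg X := by ring
      linarith
    · rw [Icc_eq_empty hX]
      simp only [sum_empty]
      positivity
  have h7 : (C₅ / g) * ∑ i ∈ Icc I₀ X, Y i * (rhoL (X - i) + η) ^ 2 ≤ G * Sg X := by
    rw [hgg2]
    have h8 : 1 / (96 * 𝓕) * ∑ i ∈ Icc I₀ X, Y i * (rhoL (X - i) + η) ^ 2 ≤ 1 / (96 * 𝓕) * (G * (16 * 𝓕) * Sg X) :=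
      mul_le_mul_of_nonneg_left hIccB (by positivity)
    have h9 : 1 / (96 * 𝓕) * (G * (16 * 𝓕) * Sg X) = (16 / 96) * (G * Sg X) := by
      field_simp
    have h10 : 0 ≤ G * Sg X := by positivity
    linarith
  have h11 : C₆ * (1 + g) * Sg X ≤ C₇ * (1 + g) * Sg X := by
    apply mul_le_mul_of_nonneg_right _ hs0
    apply mul_le_mul_of_nonneg_right _ (by positivity)
    rw [hC₇]
    linarith
  have h12 : C₇ * (1 + g) * Sg X + G * Sg X = 5 * C₇ * (1 + g) * Sg X := by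
    rw [hGdef]
    ring
  have h13 : 5 * C₇ * (1 + g) * Sg X ≤ 5 * C₇ * (1 + 96 * C₅) * 𝓕 * Sg X := by
    have : 0 ≤ 5 * C₇ * Sg X := by positivity
    calc 5 * C₇ * (1 + g) * Sg X = 5 * C₇ * Sg X * (1 + g) := by ring
      _ ≤ 5 * C₇ * Sg X * ((1 + 96 * C₅) * 𝓕) := mul_le_mul_of_nonneg_left hgI this
      _ = _ := by ring
  linarith

end Vale.Agent.Lib.P321B
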