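import Vale.Agent.Lib.P321.Levels
import Vale.Agent.Lib.P321B.Weighted

/-!
P321: norm estimates for the expansions, for site sets of size up to `δ` (with a weight `√k` in place of `k`).
-/

namespace Vale.Agent.Lib.P321B

open Finset Vale.Agent.Lib.P321

/-- The uniform bound on the sum of weights. -/
theorem E_bound {S : Finset ℤ} {δ k : ℕ} {ε : ℝ} (hδ : 1 ≤ δ) (hS : Spaced S δ) (hk : S.card ≤ k)
    (hkδ : (k : ℝ) ≤ (δ : ℝ)) (hε : 0 ≤ ε) (hεδ : ε ≤ 1 / δ) (i : ℤ) :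
    ∑ d ∈ S.filter (· ≤ i), (rhoL (i - d) + 1 / δ + ε) ≤ 5 := by
  have hδ0 : (0 : ℝ) < δ := by exact_mod_cast hδ
  have hδ1 : (1 : ℝ) ≤ δ := by exact_mod_cast hδ
  set T := S.filter (· ≤ i) with hT
  have hTsub : T ⊆ S := filter_subset _ _
  have hTcard : T.card ≤ k := (card_le_card hTsub).trans hk
  have hsδ1 : 1 ≤ √(δ : ℝ) := by
    rw [Real.one_le_sqrt]
    exact hδ1
  by_cases hne : T.Nonempty
  · set d₁ := T.max' hne with hd₁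
    have hmem : d₁ ∈ T := T.max'_mem hne
    have hle : d₁ ≤ i := (mem_filter.mp hmem).2
    have hE : ∀ d ∈ T.erase d₁, (δ : ℤ) ≤ i - d + 1 := by
      intro d hd
      obtain ⟨hne', hdT⟩ := mem_erase.mp hd
      have h1 := hS d (hTsub hdT) d₁ (hTsub hmem) hne'
      have h2 := T.le_max' d hdT
      have h3 : d - d₁ ≤ 0 := by omega
      rw [abs_of_nonpos h3] at h1
      omega
    have h1 := spaced_rho1 hδ (hS.mono (Finset.erase_subset d₁ T |>.trans hTsub)) (k := k)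
      ((card_le_card (Finset.erase_subset d₁ T)).trans hTcard) hE
    have h2 : rhoL (i - d₁) ≤ 1 := rhoL_le_one (by omega)
    have h3 : ∑ d ∈ T, rhoL (i - d) ≤ 3 := by
      rw [← add_sum_erase T _ hmem]
      have h4 : 2 * √(k : ℝ) * (1 / √(δ : ℝ)) ≤ 2 := by
        have hk0 : (0:ℝ) ≤ k := by positivity
        have : √(k : ℝ) ≤ √(δ : ℝ) := Real.sqrt_le_sqrt hkδ
        have h5 : √(k : ℝ) * (1 / √(δ : ℝ)) ≤ 1 := by
          rw [mul_one_div, div_le_one (by positivity)]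
          exact this
        linarith
      linarith
    rw [sum_add_distrib, sum_add_distrib, sum_const]
    have h6 : (T.card : ℝ) ≤ k := by exact_mod_cast hTcard
    have h7 : (T.card : ℝ) • (1 / (δ : ℝ)) ≤ 1 := by
      rw [smul_eq_mul, mul_one_div, div_le_one hδ0]
      linarith
    have h8 : ∑ _d ∈ T, ε ≤ 1 := by
      rw [sum_const]
      rw [nsmul_eq_mul]
      have h9 : (T.card : ℝ) * ε ≤ T.card * (1 / (δ : ℝ)) :=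
        mul_le_mul_of_nonneg_left hεδ (by positivity)
      have h10 : (T.card : ℝ) * (1 / (δ : ℝ)) ≤ 1 := by simpa using h7
      linarith
    simp only [nsmul_eq_mul] at h7 ⊢
    have h11 : (T.card : ℝ) * (1 / (δ : ℝ)) ≤ 1 := by simpa using h7
    linarith
  · rw [not_nonempty_iff_eq_empty] at hne
    rw [hne]
    simp


/-- The overlap estimate with a uniform bound for the left functions. -/
theorem OL_unif {q θ₀ θ₁ : ℝ} (h0 : 0 < q) (h1 : q < 1) (hθ₀ : 0 < θ₀) (hθ₁ : θ₁ < 1) (t : ℕ) :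
    ∃ C : ℝ, 0 < C ∧ ∀ θ ∈ Set.Icc θ₀ θ₁, ∀ as : List ℕ, as.length = t → (∀ a ∈ as, 1 ≤ a) →
      ∀ (δ k : ℕ) (S : Finset ℤ) (f : ℤ → Word → ℝ) (B₀ : ℕ) (X I₀ : ℤ) (ψ : ℝ),
        1 ≤ δ → Spaced S δ → S.card ≤ k → (k : ℝ) ≤ (δ : ℝ) → |θ - q ^ 2| ≤ 1 / δ →
        (∀ d ∈ S, I₀ ≤ d) → (∀ d ∈ S, ∀ w, f d w ≠ 0 → w.length ≤ B₀) →
        (∀ d ∈ S, 2 * (X - d) ≤ (B₀ : ℤ)) →
        (∀ d ∈ S, d ≤ X → ((as.sum : ℤ) * 4 ≤ X - d + 1 ∨ X - d + 1 ≤ 8)) →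
        0 ≤ ψ → (∀ d ∈ S, nsq q B₀ (f d) ≤ ψ ^ 2) →
        nsq q B₀ (Yk θ (ker θ as) S f X) ≤ C * (as.prod : ℝ) ^ 2 * ψ ^ 2 *
          ∑ d ∈ S.filter (· ≤ X), (rhoL (X - d) ^ (2 * t) / δ + rhoL (X - d) ^ (2 * t + 1) +
            |θ - q ^ 2| * rhoL (X - d) ^ (2 * t)) := by
  obtain ⟨Cf, hCf, hfar⟩ := OL_far (θ₀ := θ₀) (θ₁ := θ₁) h0 h1 hθ₀ hθ₁ t
  obtain ⟨Cs, hCs, hsup⟩ := OL_sup (θ₀ := θ₀) (θ₁ := θ₁) h0 h1 hθ₀ hθ₁
  refine ⟨Cf * (1 + √(Cs * 25)), by positivity, ?_⟩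
  intro θ hθ as has hpos δ k S f B₀ X I₀ ψ hδ hS hk hkδ hε hI hf hB hcond hψ hfψ
  have hδ0 : (0 : ℝ) < δ := by exact_mod_cast hδ
  have hs := hsup θ hθ δ S f B₀ X I₀ ψ 5 hδ hS hI hf hB hψ hfψ (by norm_num) (fun i _ =>
    E_bound hδ hS hk hkδ (abs_nonneg _) hε i)
  set ybar : ℝ := √(Cs * 25) * ψ with hybar
  have hy0 : 0 ≤ ybar := by positivity
  have hyb : ∀ i ∈ Icc I₀ X, √(nsq q B₀ (Yb θ S f i)) ≤ ybar := by
    intro i hi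
    apply Real.sqrt_le_iff.mpr
    refine ⟨hy0, ?_⟩
    rw [hybar, mul_pow, Real.sq_sqrt (by positivity)]
    have := hs i hi
    nlinarith
  have hfr := hfar θ hθ as has hpos δ S f B₀ X I₀ ybar hδ hS hI hf hB hcond hy0 hyb
  refine hfr.trans ?_
  set T := S.filter (· ≤ X) with hT
  set c : ℤ → ℝ := fun d => rhoL (X - d) ^ (2 * t) / δ + rhoL (X - d) ^ (2 * t + 1) +
      |θ - q ^ 2| * rhoL (X - d) ^ (2 * t) with hc
  have hr : ∀ d, 0 ≤ rhoL d := rhoL_nonneg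
  have h1' : ∑ d ∈ T, nsq q B₀ (f d) * (rhoL (X - d) ^ (2 * t) / δ + rhoL (X - d) ^ (2 * t + 1)) ≤
      ψ ^ 2 * ∑ d ∈ T, c d := by
    rw [mul_sum]
    apply sum_le_sum
    intro d hd
    have hd' := (mem_filter.mp hd).1
    apply mul_le_mul (hfψ d hd') _ (by have := hr (X - d); positivity) (by positivity)
    simp only [hc]
    have : 0 ≤ |θ - q ^ 2| * rhoL (X - d) ^ (2 * t) := by have := hr (X - d); positivity
    linarith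
  have h2' : ∑ d ∈ T, √(nsq q B₀ (f d)) * (rhoL (X - d) ^ (2 * t + 1) + |θ - q ^ 2| * rhoL (X - d) ^ (2 * t)) ≤
      ψ * ∑ d ∈ T, c d := by
    rw [mul_sum]
    apply sum_le_sum
    intro d hd
    have hd' := (mem_filter.mp hd).1
    have hsq : √(nsq q B₀ (f d)) ≤ ψ := by
      apply Real.sqrt_le_iff.mpr
      exact ⟨hψ, hfψ d hd'⟩
    apply mul_le_mul hsq _ (by have := hr (X - d); positivity) hψ
    simp only [hc]
    have : 0 ≤ rhoL (X - d) ^ (2 * t) / δ := by have := hr (X - d); positivity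
    linarith
  have hsumc : 0 ≤ ∑ d ∈ T, c d := by
    apply sum_nonneg
    intro d _
    have := hr (X - d)
    simp only [hc]
    positivity
  have hP : (0 : ℝ) ≤ (as.prod : ℝ) ^ 2 := by positivity
  have h3 : ybar * ∑ d ∈ T, √(nsq q B₀ (f d)) * (rhoL (X - d) ^ (2 * t + 1) + |θ - q ^ 2| * rhoL (X - d) ^ (2 * t)) ≤
      ybar * (ψ * ∑ d ∈ T, c d) := mul_le_mul_of_nonneg_left h2' hy0
  have h4 : ∑ d ∈ T, nsq q B₀ (f d) * (rhoL (X - d) ^ (2 * t) / δ + rhoL (X - d) ^ (2 * t + 1)) +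
      ybar * ∑ d ∈ T, √(nsq q B₀ (f d)) * (rhoL (X - d) ^ (2 * t + 1) + |θ - q ^ 2| * rhoL (X - d) ^ (2 * t)) ≤
      (1 + √(Cs * 25)) * ψ ^ 2 * ∑ d ∈ T, c d := by
    have e : ybar * (ψ * ∑ d ∈ T, c d) = √(Cs * 25) * ψ ^ 2 * ∑ d ∈ T, c d := by
      rw [hybar]
      ring
    have e2 : (1 + √(Cs * 25)) * ψ ^ 2 * ∑ d ∈ T, c d = ψ ^ 2 * ∑ d ∈ T, c d + √(Cs * 25) * ψ ^ 2 * ∑ d ∈ T, c d := by
      ring
    linarith
  calc Cf * (as.prod : ℝ) ^ 2 * (∑ d ∈ T, nsq q B₀ (f d) * (rhoL (X - d) ^ (2 * t) / δ + rhoL (X - d) ^ (2 * t + 1)) +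
      ybar * ∑ d ∈ T, √(nsq q B₀ (f d)) * (rhoL (X - d) ^ (2 * t + 1) + |θ - q ^ 2| * rhoL (X - d) ^ (2 * t)))
      ≤ Cf * (as.prod : ℝ) ^ 2 * ((1 + √(Cs * 25)) * ψ ^ 2 * ∑ d ∈ T, c d) :=
        mul_le_mul_of_nonneg_left h4 (by positivity)
    _ = _ := by ring

/-- The parameters of the estimates. -/
structure Par (q θ : ℝ) (δ k Lmax : ℕ) (𝓛 Cs : ℝ) : Prop where
  hδ : 2 ≤ δ
  hk : 1 ≤ k
  h𝓛 : 1 ≤ 𝓛
  harm : ∑ j ∈ range (Lmax + 3), 1 / ((j : ℝ) + 1) ≤ 𝓛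
  zone : (1 / (δ : ℝ) + |θ - q ^ 2|) * √((Lmax : ℝ) + 1) ≤ 1
  eps : |θ - q ^ 2| ≤ 1 / δ
  small1 : Cs * 𝓛 * √(k : ℝ) ≤ √(δ : ℝ)
  hkL : k ≤ Lmax

theorem Par.mono {q θ : ℝ} {δ k Lmax : ℕ} {𝓛 Cs Cs' : ℝ} (h : Par q θ δ k Lmax 𝓛 Cs) (hc : Cs' ≤ Cs) :
    Par q θ δ k Lmax 𝓛 Cs' := by
  have h𝓛 := h.h𝓛
  have hk0 : (0 : ℝ) ≤ √(k : ℝ) := Real.sqrt_nonneg _
  have h𝓛0 : (0 : ℝ) ≤ 𝓛 := by linarith
  refine ⟨h.hδ, h.hk, h.h𝓛, h.harm, h.zone, h.eps, ?_, h.hkL⟩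
  refine le_trans ?_ h.small1
  exact mul_le_mul_of_nonneg_right (mul_le_mul_of_nonneg_right hc h𝓛0) hk0

theorem Par.δ_pos {q θ : ℝ} {δ k Lmax : ℕ} {𝓛 Cs : ℝ} (h : Par q θ δ k Lmax 𝓛 Cs) : (0 : ℝ) < δ := by
  have := h.hδ
  have : 0 < δ := by omega
  exact_mod_cast this

theorem Par.sqrtk_ge {q θ : ℝ} {δ k Lmax : ℕ} {𝓛 Cs : ℝ} (h : Par q θ δ k Lmax 𝓛 Cs) : 1 ≤ √(k : ℝ) := by
  rw [Real.one_le_sqrt]
  exact_mod_cast h.hk

theorem Par.sqrtk_le {q θ : ℝ} {δ k Lmax : ℕ} {𝓛 Cs : ℝ} (h : Par q θ δ k Lmax 𝓛 Cs) (hc : 1 ≤ Cs) :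
    √(k : ℝ) ≤ √(δ : ℝ) := by
  have h1 := h.small1
  have h𝓛 := h.h𝓛
  have hk0 : (0 : ℝ) ≤ √(k : ℝ) := Real.sqrt_nonneg _
  have : (1 : ℝ) ≤ Cs * 𝓛 := by nlinarith
  nlinarith

theorem Par.k_le {q θ : ℝ} {δ k Lmax : ℕ} {𝓛 Cs : ℝ} (h : Par q θ δ k Lmax 𝓛 Cs) (hc : 1 ≤ Cs) :
    (k : ℝ) ≤ (δ : ℝ) := by
  have h1 := h.sqrtk_le hc
  exact (Real.sqrt_le_sqrt_iff h.δ_pos.le).mp h1

/-- Weight on the sites in terms of the scale. -/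
theorem Par.factor {q θ : ℝ} {δ k Lmax : ℕ} {𝓛 Cs : ℝ} (h : Par q θ δ k Lmax 𝓛 Cs) (hc : 0 < Cs) :
    𝓛 * (√(k : ℝ) * (1 / √(δ : ℝ))) ≤ 1 / Cs := by
  have h1 := h.small1
  have hδ := h.δ_pos
  have hs : 0 < √(δ : ℝ) := Real.sqrt_pos.mpr hδ
  rw [mul_one_div, ← mul_div_assoc, div_le_div_iff₀ hs hc]
  linarith

theorem Par.La {q θ : ℝ} {δ k Lmax : ℕ} {𝓛 Cs : ℝ} (h : Par q θ δ k Lmax 𝓛 Cs) (hc : 1 ≤ Cs) :
    𝓛 * (1 / √(δ : ℝ)) ≤ 1 := by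
  have h1 := h.factor (by linarith)
  have hk := h.sqrtk_ge
  have hδ := h.δ_pos
  have hs : 0 < √(δ : ℝ) := Real.sqrt_pos.mpr hδ
  have h𝓛 := h.h𝓛
  have h2 : 1 / Cs ≤ 1 := by
    rw [div_le_one (by linarith)]
    exact hc
  have h3 : 0 ≤ 𝓛 * (1 / √(δ : ℝ)) := by positivity
  have h4 : 𝓛 * (1 / √(δ : ℝ)) ≤ 𝓛 * (√(k : ℝ) * (1 / √(δ : ℝ))) := by
    have : 𝓛 * (√(k : ℝ) * (1 / √(δ : ℝ))) = (𝓛 * (1 / √(δ : ℝ))) * √(k : ℝ) := by ring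
    rw [this]
    nlinarith
  linarith

theorem Par.ska {q θ : ℝ} {δ k Lmax : ℕ} {𝓛 Cs : ℝ} (h : Par q θ δ k Lmax 𝓛 Cs) (hc : 1 ≤ Cs) :
    √(k : ℝ) * (1 / √(δ : ℝ)) ≤ 1 := by
  have hδ := h.δ_pos
  have hs : 0 < √(δ : ℝ) := Real.sqrt_pos.mpr hδ
  rw [mul_one_div, div_le_one hs]
  exact h.sqrtk_le hc

/-- Sum of weights for the kernel of length one. -/
theorem sum_c1 {T : Finset ℤ} {δ k Lmax : ℕ} {ε 𝓛 : ℝ} (hδ : 1 ≤ δ) (hT : Spaced T δ) (hk : T.card ≤ k)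
    (hkL : k ≤ Lmax) (harm : ∑ j ∈ range (Lmax + 3), 1 / ((j : ℝ) + 1) ≤ 𝓛) (hLa : 𝓛 * (1 / √(δ : ℝ)) ≤ 1)
    (hε0 : 0 ≤ ε) (hε : ε ≤ 1 / δ) {X : ℤ} (hX : ∀ d ∈ T, (δ : ℤ) ≤ X - d + 1) :
    ∑ d ∈ T, (rhoL (X - d) ^ 2 / δ + rhoL (X - d) ^ 3 + ε * rhoL (X - d) ^ 2) ≤ 5 * (1 / √(δ : ℝ)) ^ 3 := by
  have hδ0 : (0 : ℝ) < δ := by exact_mod_cast hδ
  set a : ℝ := 1 / √(δ : ℝ) with ha
  have hs : 0 < √(δ : ℝ) := Real.sqrt_pos.mpr hδ0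
  have ha0 : 0 < a := by positivity
  have ha2 : a ^ 2 = 1 / δ := by
    rw [ha, div_pow, one_pow, Real.sq_sqrt hδ0.le]
  have h3 := spaced_rho3 hδ hT hX
  have hsq : ∑ d ∈ T, rhoL (X - d) ^ 2 ≤ 𝓛 * a ^ 2 := by
    have h := spaced_rho_pow hδ hT hX 2
    refine h.trans ?_
    have e : ∀ j ∈ range T.card, (1 / √(((j : ℝ) + 1) * δ)) ^ 2 = (1 / ((j : ℝ) + 1)) * a ^ 2 := by
      intro j _
      rw [ha2, div_pow, one_pow, Real.sq_sqrt (by positivity), one_div_mul_one_div]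
    rw [sum_congr rfl e, ← sum_mul]
    apply mul_le_mul_of_nonneg_right _ (by positivity)
    refine le_trans ?_ harm
    apply sum_le_sum_of_subset_of_nonneg
    · intro j hj
      simp only [mem_range] at hj ⊢
      omega
    · intros
      positivity
  have hsn : 0 ≤ ∑ d ∈ T, rhoL (X - d) ^ 2 := sum_nonneg fun _ _ => by positivity
  rw [sum_add_distrib, sum_add_distrib, ← sum_div, ← mul_sum]
  have b1 : (∑ d ∈ T, rhoL (X - d) ^ 2) / δ ≤ (𝓛 * a ^ 2) * a ^ 2 := by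
    rw [div_eq_mul_one_div, ← ha2]
    exact mul_le_mul_of_nonneg_right hsq (by positivity)
  have b2 : ε * ∑ d ∈ T, rhoL (X - d) ^ 2 ≤ a ^ 2 * (𝓛 * a ^ 2) := by
    rw [← ha2] at hε
    exact mul_le_mul hε hsq hsn (by positivity)
  have b3 : (𝓛 * a ^ 2) * a ^ 2 = (𝓛 * a) * a ^ 3 := by ring
  have b4 : a ^ 2 * (𝓛 * a ^ 2) = (𝓛 * a) * a ^ 3 := by ring
  have b5 : (𝓛 * a) * a ^ 3 ≤ 1 * a ^ 3 := mul_le_mul_of_nonneg_right hLa (by positivity)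
  linarith


/-- First level: the norm along the sites of an expansion with a kernel in the first block. -/
theorem level0_sup {q θ₀ θ₁ : ℝ} (h0 : 0 < q) (h1 : q < 1) (hθ₀ : 0 < θ₀) (hθ₁ : θ₁ < 1) (t : ℕ) :
    ∃ Cs C : ℝ, 1 ≤ Cs ∧ 0 < C ∧ ∀ θ ∈ Set.Icc θ₀ θ₁, ∀ as : List ℕ, as.length = t → (∀ a ∈ as, 1 ≤ a) →
      ∀ (δ k Lmax B₀ n₁ : ℕ) (𝓛 : ℝ) (s I₀ : ℤ) (M : List ℤ), Par q θ δ k Lmax 𝓛 Cs →
        M.Pairwise (· > ·) → Spaced M.toFinset δ → M.length ≤ k → s ≤ I₀ →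
        (∀ r ∈ M, I₀ ≤ r ∧ r - 1 - I₀ ≤ Lmax ∧ s + n₁ + 1 ≤ r ∧ 2 * (r - 1 - s) ≤ (B₀ : ℤ)) →
        (as.sum : ℤ) * 4 ≤ n₁ + 1 →
        ∀ r ∈ M, nsq q B₀ (VV θ (Fk θ as s) M (r - 1)) ≤
          C * (as.prod : ℝ) ^ 2 * rhoL n₁ ^ (2 * t + 1) := by
  obtain ⟨Cw, hCw, hV⟩ := volterra_bound (θ₀ := θ₀) (θ₁ := θ₁) h0 h1 hθ₀ hθ₁
  obtain ⟨Cn, hCn, hN⟩ := kerF_norm (θ₀ := θ₀) (θ₁ := θ₁) h0 h1 hθ₀ hθ₁ t
  refine ⟨1 + 8 * Cw, 4 * Cn, by nlinarith, by positivity, ?_⟩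
  intro θ hθ as has hpos δ k Lmax B₀ n₁ 𝓛 s I₀ M hP hpw hsp hlen hsI hM hsum r hr
  have hδ1 : 1 ≤ δ := by have := hP.hδ; omega
  have hCs : (0 : ℝ) < 1 + 8 * Cw := by positivity
  set S := M.toFinset with hS
  have hcard : S.card ≤ k := (List.toFinset_card_le M).trans hlen
  set Φ0 : ℝ := Cn * (as.prod : ℝ) ^ 2 * rhoL n₁ ^ (2 * t + 1) with hΦ0
  have hΦ0n : 0 ≤ Φ0 := by
    have := rhoL_nonneg n₁
    positivity
  have hres := hV θ hθ δ S (Fk θ as s) (VV θ (Fk θ as s) M) B₀ I₀ Lmax 𝓛 (fun _ => Φ0) hδ1 hsp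
    (fun d hd => (hM d (List.mem_toFinset.mp hd)).1)
    (by
      intro d hd w hw
      have h2 := VV_supp (θ := θ) (Fk_supp θ as s) M (d - 1) w hw
      have h3 := (hM d (List.mem_toFinset.mp hd)).2.2.2
      omega)
    hP.h𝓛 hP.harm hP.zone (fun d hd => (hM d (List.mem_toFinset.mp hd)).2.1)
    (fun d hd => by
      have h3 := (hM d (List.mem_toFinset.mp hd)).2.2.2
      omega)
    (fun X w => VV_volterra θ (Fk θ as s) M hpw X w)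
    (by
      intro d hd
      have h3 := (hM d (List.mem_toFinset.mp hd)).2.2.1
      have hL : 0 ≤ d - 1 - s := by omega
      have hN' := hN θ hθ as has hpos B₀ s (d - 1) hL (Or.inl (by omega))
      refine hN'.trans ?_
      apply mul_le_mul_of_nonneg_left _ (by positivity)
      apply pow_le_pow_left₀ (rhoL_nonneg _)
      apply rhoL_anti (by positivity)
      omega)
    (fun _ _ => hΦ0n)
    (by
      intro d hd
      set T := S.filter (· < d) with hT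
      have hTsp : Spaced T δ := hsp.mono (filter_subset _ _)
      have hTc : T.card ≤ k := (card_le_card (filter_subset _ _)).trans hcard
      have hsum' : ∑ d' ∈ T, rhoL (d - 1 - d') ≤ 2 * √(k : ℝ) * (1 / √(δ : ℝ)) := by
        apply spaced_rho1 hδ1 hTsp hTc
        intro d' hd'
        obtain ⟨h3, h4⟩ := mem_filter.mp hd'
        have h5 := hsp d hd d' h3 (by omega)
        rw [abs_of_pos (by omega)] at h5
        omega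
      have hf := hP.factor hCs
      rw [← mul_sum]
      have hsn : 0 ≤ ∑ d' ∈ T, rhoL (d - 1 - d') := sum_nonneg fun _ _ => rhoL_nonneg _
      have h𝓛 := hP.h𝓛
      have hx : 4 * Cw * 𝓛 * ∑ d' ∈ T, rhoL (d - 1 - d') ≤ 1 := by
        have h6 : 4 * Cw * 𝓛 * ∑ d' ∈ T, rhoL (d - 1 - d') ≤ 4 * Cw * 𝓛 * (2 * √(k : ℝ) * (1 / √(δ : ℝ))) :=
          mul_le_mul_of_nonneg_left hsum' (by positivity)
        have h7 : 4 * Cw * 𝓛 * (2 * √(k : ℝ) * (1 / √(δ : ℝ))) =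
            8 * Cw * (𝓛 * (√(k : ℝ) * (1 / √(δ : ℝ)))) := by ring
        have h8 : 8 * Cw * (𝓛 * (√(k : ℝ) * (1 / √(δ : ℝ)))) ≤ 8 * Cw * (1 / (1 + 8 * Cw)) :=
          mul_le_mul_of_nonneg_left hf (by positivity)
        have h9 : 8 * Cw * (1 / (1 + 8 * Cw)) ≤ 1 := by
          rw [mul_one_div, div_le_one hCs]
          linarith
        linarith
      calc 4 * Cw * 𝓛 * (Φ0 * ∑ d' ∈ T, rhoL (d - 1 - d'))
          = Φ0 * (4 * Cw * 𝓛 * ∑ d' ∈ T, rhoL (d - 1 - d')) := by ring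
        _ ≤ Φ0 * 1 := mul_le_mul_of_nonneg_left hx hΦ0n
        _ = Φ0 := mul_one _)
    r (List.mem_toFinset.mpr hr)
  refine hres.trans (le_of_eq ?_)
  rw [hΦ0]
  ring

/-- The first level: difference in the end point. -/
theorem level0_step {q θ₀ θ₁ : ℝ} (h0 : 0 < q) (h1 : q < 1) (hθ₀ : 0 < θ₀) (hθ₁ : θ₁ < 1) :
    ∃ Cs C : ℝ, 1 ≤ Cs ∧ 0 < C ∧ ∀ θ ∈ Set.Icc θ₀ θ₁,
      ∀ (δ k Lmax B₀ n₁ : ℕ) (𝓛 : ℝ) (s I₀ d : ℤ) (M : List ℤ), Par q θ δ k Lmax 𝓛 Cs →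
        M.Pairwise (· > ·) → Spaced M.toFinset δ → M.length ≤ k → s ≤ I₀ →
        (∀ r ∈ M, I₀ ≤ r ∧ r - 1 - I₀ ≤ Lmax ∧ s + n₁ + 1 ≤ r ∧ 2 * (r - 1 - s) ≤ (B₀ : ℤ) ∧ (δ : ℤ) ≤ d - r) →
        s + n₁ + 1 ≤ d → 2 * (d - s) ≤ (B₀ : ℤ) →
        nsq q B₀ (fun w => VV θ (F0 θ s) M d w - VV θ (F0 θ s) M (d - 1) w) ≤
          C * (rhoL n₁ * (rhoL n₁ ^ 2 + (1 / √(δ : ℝ)) ^ 3)) := by
  obtain ⟨Cs₀, C₀, hCs₀, hC₀, hL0⟩ := level0_sup (θ₀ := θ₀) (θ₁ := θ₁) h0 h1 hθ₀ hθ₁ 0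
  obtain ⟨Cu, hCu, hU⟩ := OL_unif (θ₀ := θ₀) (θ₁ := θ₁) h0 h1 hθ₀ hθ₁ 1
  obtain ⟨Cn, hCn, hN⟩ := kerF_norm (θ₀ := θ₀) (θ₁ := θ₁) h0 h1 hθ₀ hθ₁ 1
  refine ⟨Cs₀, 2 * Cn + 10 * Cu * C₀, hCs₀, by positivity, ?_⟩
  intro θ hθ δ k Lmax B₀ n₁ 𝓛 s I₀ d M hP hpw hsp hlen hsI hM hsd hBd
  have hδ1 : 1 ≤ δ := by have := hP.hδ; omega
  set S := M.toFinset with hS
  have hcard : S.card ≤ k := (List.toFinset_card_le M).trans hlen
  have hkδ := hP.k_le hCs₀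
  have hstep : (fun w => VV θ (F0 θ s) M d w - VV θ (F0 θ s) M (d - 1) w) =
      fun w => Fk θ [1] s d w + Yk θ (ker θ [1]) S (fun d' => VV θ (F0 θ s) M (d' - 1)) d w := by
    funext w
    rw [VV_step θ (F0 θ s) M hpw d w]
    congr 1
    simp only [F0, Fk, ker_cons, ker_nil, Nat.cast_one]
    congr 2
    ring
  rw [hstep]
  refine (nsq_add_le h0 h1 B₀ _ _).trans ?_
  -- source
  have hF : nsq q B₀ (Fk θ [1] s d) ≤ Cn * rhoL n₁ ^ 3 := by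
    have hL : 0 ≤ d - s := by omega
    have := hN θ hθ [1] rfl (by simp) B₀ s d hL (by simp; omega)
    simp only [List.prod_cons, List.prod_nil, mul_one, Nat.cast_one, one_pow] at this
    refine this.trans ?_
    apply mul_le_mul_of_nonneg_left _ hCn.le
    apply pow_le_pow_left₀ (rhoL_nonneg _)
    apply rhoL_anti (by positivity)
    omega
  -- the sum
  have hψ : ∀ d' ∈ S, nsq q B₀ (VV θ (F0 θ s) M (d' - 1)) ≤ (√(C₀ * rhoL n₁)) ^ 2 := by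
    intro d' hd'
    have hd'M := List.mem_toFinset.mp hd'
    rw [Real.sq_sqrt (by have := rhoL_nonneg n₁; positivity)]
    have := hL0 θ hθ [] rfl (by simp) δ k Lmax B₀ n₁ 𝓛 s I₀ M hP hpw hsp hlen hsI
      (fun r hr => ⟨(hM r hr).1, (hM r hr).2.1, (hM r hr).2.2.1, (hM r hr).2.2.2.1⟩) (by simp; omega) d' hd'M
    simpa [Fk_nil] using this
  have hU' := hU θ hθ [1] rfl (by simp) δ k S (fun d' => VV θ (F0 θ s) M (d' - 1)) B₀ d I₀ (√(C₀ * rhoL n₁))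
    hδ1 hsp hcard hkδ hP.eps (fun d' hd' => (hM d' (List.mem_toFinset.mp hd')).1)
    (by
      intro d' hd' w hw
      have h2 := VV_supp (θ := θ) (Fk_supp θ [] s) M (d' - 1) w hw
      have h3 := (hM d' (List.mem_toFinset.mp hd')).2.2.2.1
      omega)
    (by
      intro d' hd'
      have h3 := hM d' (List.mem_toFinset.mp hd')
      omega)
    (by
      intro d' _ _
      simp
      omega)
    (by positivity) hψ
  simp only [List.prod_cons, List.prod_nil, mul_one, Nat.cast_one, one_pow] at hU'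
  rw [Real.sq_sqrt (by have := rhoL_nonneg n₁; positivity)] at hU'
  have hT := sum_c1 (T := S.filter (· ≤ d)) (X := d) hδ1 (hsp.mono (filter_subset _ _))
    ((card_le_card (filter_subset _ _)).trans hcard) hP.hkL hP.harm (hP.La hCs₀) (abs_nonneg (θ - q ^ 2)) hP.eps
    (by
      intro d' hd'
      have h3 := hM d' (List.mem_toFinset.mp (mem_filter.mp hd').1)
      omega)
  have hU'' : nsq q B₀ (Yk θ (ker θ [1]) S (fun d' => VV θ (F0 θ s) M (d' - 1)) d) ≤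
      Cu * (C₀ * rhoL n₁) * (5 * (1 / √(δ : ℝ)) ^ 3) := by
    refine hU'.trans ?_
    apply mul_le_mul_of_nonneg_left hT
    have := rhoL_nonneg n₁
    positivity
  have hr := rhoL_nonneg n₁
  have ha : 0 ≤ (1 / √(δ : ℝ)) ^ 3 := by positivity
  set r := rhoL n₁ with hrdef
  set a3 := (1 / √(δ : ℝ)) ^ 3 with ha3
  have key : 2 * (Cn * r ^ 3) + 2 * (Cu * (C₀ * r) * (5 * a3)) ≤ (2 * Cn + 10 * Cu * C₀) * (r * (r ^ 2 + a3)) := by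
    have t1 : 0 ≤ Cn * (r * a3) := by positivity
    have t2 : 0 ≤ Cu * C₀ * (r * r ^ 2) := by positivity
    nlinarith
  linarith

set_option maxHeartbeats 1000000 in
/-- Second level: norm at the sites of the expansion with a displacement source. -/
theorem level1 {q θ₀ θ₁ : ℝ} (h0 : 0 < q) (h1 : q < 1) (hθ₀ : 0 < θ₀) (hθ₁ : θ₁ < 1) :
    ∃ Cs C : ℝ, 1 ≤ Cs ∧ 0 < C ∧ ∀ θ ∈ Set.Icc θ₀ θ₁,
      ∀ (δ k Lmax B₀ : ℕ) (𝓛 A₀ A₁ : ℝ) (g : ℤ → Word → ℝ) (s d : ℤ) (R : List ℤ),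
        Par q θ δ k Lmax 𝓛 Cs → SuppS g s → s ≤ d → R.Pairwise (· > ·) → Spaced R.toFinset δ → R.length ≤ k →
        (∀ r ∈ R, d + δ ≤ r ∧ r - 1 - d ≤ Lmax ∧ 2 * (r - 1 - s) ≤ (B₀ : ℤ)) →
        0 ≤ A₀ → 0 ≤ A₁ → nsq q B₀ (g (d - 1)) ≤ A₀ → nsq q B₀ (fun w => g d w - g (d - 1) w) ≤ A₁ →
        ∀ r ∈ R, nsq q B₀ (VV θ (Disp θ g d) R (r - 1)) ≤
          C * ((A₁ + 𝓛 * A₀ * (1 / √(δ : ℝ)) ^ 3) * rhoL (r - 1 - d) + A₀ * rhoL (r - 1 - d) ^ 3) := by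
  obtain ⟨Cw, hCw, hV⟩ := volterra_bound (θ₀ := θ₀) (θ₁ := θ₁) h0 h1 hθ₀ hθ₁
  obtain ⟨Cd, hCd, hD⟩ := disp_far (θ₀ := θ₀) (θ₁ := θ₁) h0 h1 hθ₀ hθ₁
  refine ⟨1 + 48 * Cw, 12 * Cd * (1 + 48 * Cw), by nlinarith, by positivity, ?_⟩
  intro θ hθ δ k Lmax B₀ 𝓛 A₀ A₁ g s d R hP hg hsd hpw hsp hlen hR hA₀ hA₁ hgA₀ hgA₁ r hr
  have hδ2 := hP.hδ
  have hδ1 : 1 ≤ δ := by omega
  have hδ0 := hP.δ_pos
  have hCs : (0 : ℝ) < 1 + 48 * Cw := by positivity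
  set S := R.toFinset with hS
  have hcard : S.card ≤ k := (List.toFinset_card_le R).trans hlen
  set ε := |θ - q ^ 2| with hε
  have hε0 : 0 ≤ ε := abs_nonneg _
  have h𝓛₀ := hP.h𝓛
  set Ab : ℝ := A₁ + 48 * Cw * 𝓛 * A₀ * (1 / √(δ : ℝ)) ^ 3 with hAb
  have hAb0 : 0 ≤ Ab := by positivity
  have hA₁Ab : A₁ ≤ Ab := by
    have : 0 ≤ 48 * Cw * 𝓛 * A₀ * (1 / √(δ : ℝ)) ^ 3 := by positivity
    rw [hAb]
    linarith
  set Φ : ℤ → ℝ := fun r => 3 * Cd * (Ab * rhoL (r - 1 - d) + A₀ * rhoL (r - 1 - d) ^ 3) with hΦ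
  have hΦn : ∀ r, 0 ≤ Φ r := by
    intro r
    have := rhoL_nonneg (r - 1 - d)
    simp only [hΦ]
    positivity
  have hSupp : SuppS (VV θ (Disp θ g d) R) s := VV_supp (Disp_supp hg d) R
  -- zone consequences
  have hzone := hP.zone
  have hLm0 : (0 : ℝ) < √((Lmax : ℝ) + 1) := Real.sqrt_pos.mpr (by positivity)
  have hεa : ∀ r ∈ S, ε ≤ rhoL (r - 1 - d) := by
    intro r hr'
    have hr2 := hR r (List.mem_toFinset.mp hr')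
    have h3 : 1 / √((Lmax : ℝ) + 1) ≤ rhoL (r - 1 - d) := by
      unfold rhoL
      apply one_div_le_one_div_of_le
      · apply Real.sqrt_pos.mpr
        have : ((d + δ : ℤ) : ℝ) ≤ r := by exact_mod_cast hr2.1
        push_cast at this ⊢
        have h4 : (2 : ℝ) ≤ δ := by exact_mod_cast hδ2
        linarith
      · apply Real.sqrt_le_sqrt
        have : ((r - 1 - d : ℤ) : ℝ) ≤ (Lmax : ℝ) := by exact_mod_cast hr2.2.1
        linarith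
    have h4 : ε * √((Lmax : ℝ) + 1) ≤ 1 := by
      have h5 : 0 ≤ (1 / (δ : ℝ)) * √((Lmax : ℝ) + 1) := by positivity
      nlinarith
    have h5 : ε ≤ 1 / √((Lmax : ℝ) + 1) := by
      rw [le_div_iff₀ hLm0]
      exact h4
    linarith
  have hres := hV θ hθ δ S (Disp θ g d) (VV θ (Disp θ g d) R) B₀ d Lmax 𝓛 Φ hδ1 hsp
    (fun r hr' => by have := (hR r (List.mem_toFinset.mp hr')).1; omega)
    (by
      intro r hr' w hw
      have h2 := hSupp (r - 1) w hw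
      have h3 := (hR r (List.mem_toFinset.mp hr')).2.2
      omega)
    hP.h𝓛 hP.harm hP.zone (fun r hr' => (hR r (List.mem_toFinset.mp hr')).2.1)
    (fun r hr' => by
      have h3 := (hR r (List.mem_toFinset.mp hr')).2.2
      omega)
    (fun X w => VV_volterra θ (Disp θ g d) R hpw X w)
    (by
      intro r hr'
      have hr2 := hR r (List.mem_toFinset.mp hr')
      have hrd : d + 2 ≤ r := by omega
      have hDD := hD θ hθ g s d (r - 1) B₀ hg hsd (by omega) (by omega)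
      refine hDD.trans ?_
      have ha := rhoL_nonneg (r - 1 - d)
      have ha1 := rhoL_nonneg (r - 1 - d - 1)
      have hεa' := hεa r hr'
      have h2a : rhoL (r - 1 - d - 1) ≤ 2 * rhoL (r - 1 - d) := by
        apply abs_le_of_sq_le_sq' _ (by positivity) |>.2
        rw [rhoL_sq (by omega), mul_pow, rhoL_sq (by omega)]
        push_cast
        have hr3 : ((d + 2 : ℤ) : ℝ) ≤ r := by exact_mod_cast hrd
        push_cast at hr3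
        have e1 : (r : ℝ) - 1 - d - 1 + 1 = r - d - 1 := by ring
        have e2 : (r : ℝ) - 1 - d + 1 = r - d := by ring
        rw [e1, e2]
        have h5 : (0 : ℝ) < r - d - 1 := by linarith
        have h6 : (0 : ℝ) < r - d := by linarith
        rw [div_le_iff₀ h5]
        have : (2 : ℝ) ^ 2 * (1 / (r - d)) * (r - d - 1) = 4 * ((r - d - 1) / (r - d)) := by ring
        rw [this]
        have h7 : (r - d - 1 : ℝ) / (r - d) ≥ 1 / 2 := by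
          rw [ge_iff_le, div_le_div_iff₀ (by norm_num) h6]
          linarith
        linarith
      have hs1 : (rhoL (r - 1 - d - 1) + ε) * nsq q B₀ (fun w => g d w - g (d - 1) w) ≤
          (3 * rhoL (r - 1 - d)) * Ab := by
        apply mul_le_mul (by linarith) (hgA₁.trans hA₁Ab) (nsq_nonneg h0 h1 _ _) (by positivity)
      have hs2 : (rhoL (r - 1 - d) ^ 3 + ε * rhoL (r - 1 - d) ^ 2) * nsq q B₀ (g (d - 1)) ≤
          (2 * rhoL (r - 1 - d) ^ 3) * A₀ := by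
        apply mul_le_mul _ hgA₀ (nsq_nonneg h0 h1 _ _) (by positivity)
        have : ε * rhoL (r - 1 - d) ^ 2 ≤ rhoL (r - 1 - d) * rhoL (r - 1 - d) ^ 2 :=
          mul_le_mul_of_nonneg_right hεa' (by positivity)
        nlinarith
      simp only [hΦ]
      have hp1 : 0 ≤ Ab * rhoL (r - 1 - d) := by positivity
      have hp2 : 0 ≤ A₀ * rhoL (r - 1 - d) ^ 3 := by positivity
      have hfin : (rhoL (r - 1 - d - 1) + ε) * nsq q B₀ (fun w => g d w - g (d - 1) w) +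
          (rhoL (r - 1 - d) ^ 3 + ε * rhoL (r - 1 - d) ^ 2) * nsq q B₀ (g (d - 1)) ≤
          3 * (Ab * rhoL (r - 1 - d) + A₀ * rhoL (r - 1 - d) ^ 3) := by nlinarith
      calc Cd * ((rhoL (r - 1 - d - 1) + ε) * nsq q B₀ (fun w => g d w - g (d - 1) w) +
          (rhoL (r - 1 - d) ^ 3 + ε * rhoL (r - 1 - d) ^ 2) * nsq q B₀ (g (d - 1)))
          ≤ Cd * (3 * (Ab * rhoL (r - 1 - d) + A₀ * rhoL (r - 1 - d) ^ 3)) :=
            mul_le_mul_of_nonneg_left hfin hCd.le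
        _ = _ := by ring)
    (fun r _ => hΦn r)
    (by
      intro r hr'
      have hr2 := hR r (List.mem_toFinset.mp hr')
      set T := S.filter (· < r) with hT
      have hTsp : Spaced T δ := hsp.mono (filter_subset _ _)
      have hTc : T.card ≤ k := (card_le_card (filter_subset _ _)).trans hcard
      set a := rhoL (r - 1 - d) with ha
      have ha0 : 0 ≤ a := rhoL_nonneg _
      set aδ : ℝ := 1 / √(δ : ℝ) with haδ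
      have haδ0 : 0 ≤ aδ := by positivity
      have hsk : 0 ≤ √(k : ℝ) := Real.sqrt_nonneg _
      -- the spaced sums
      have hspb : ∑ r' ∈ T, rhoL (r - 1 - r') ≤ 2 * √(k : ℝ) * aδ := by
        apply spaced_rho1 hδ1 hTsp hTc
        intro r' hr''
        obtain ⟨h3, h4⟩ := mem_filter.mp hr''
        have h5 := hsp r hr' r' h3 (by omega)
        rw [abs_of_pos (by omega)] at h5
        omega
      have hspa : ∑ r' ∈ T, rhoL (r' - 1 - d) ≤ 2 * √(k : ℝ) * aδ := by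
        have := spaced_rho1_right (S := T) (Y := d + 1) (k := k) hδ1 hTsp hTc (by
          intro r' hr''
          have h3 := (hR r' (List.mem_toFinset.mp (mem_filter.mp hr'').1)).1
          omega)
        refine le_trans (le_of_eq ?_) this
        apply sum_congr rfl
        intro r' _
        congr 1
        ring
      have hspa3 : ∑ r' ∈ T, rhoL (r' - 1 - d) ^ 3 ≤ 3 * aδ ^ 3 := by
        have := spaced_rho3_right (S := T) (Y := d + 1) hδ1 hTsp (by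
          intro r' hr''
          have h3 := (hR r' (List.mem_toFinset.mp (mem_filter.mp hr'').1)).1
          omega)
        refine le_trans (le_of_eq ?_) this
        apply sum_congr rfl
        intro r' _
        congr 2
        ring
      -- pointwise
      have hpt : ∀ r' ∈ T, rhoL (r' - 1 - d) * rhoL (r - 1 - r') ≤
          a * (rhoL (r' - 1 - d) + rhoL (r - 1 - r')) := by
        intro r' hr''
        obtain ⟨h3, h4⟩ := mem_filter.mp hr''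
        have h5 := (hR r' (List.mem_toFinset.mp h3)).1
        have := ptw1_rho (u := r' - d) (v := r - r') (by omega) (by omega)
        have e1 : r' - d - 1 = r' - 1 - d := by ring
        have e2 : r - r' - 1 = r - 1 - r' := by ring
        have e3 : r' - d + (r - r') - 1 = r - 1 - d := by ring
        rw [e1, e2, e3] at this
        exact this
      have hpt3 : ∀ r' ∈ T, rhoL (r' - 1 - d) ^ 3 * rhoL (r - 1 - r') ≤
          2 * a * rhoL (r' - 1 - d) ^ 3 + 3 * a ^ 3 * rhoL (r - 1 - r') := by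
        intro r' hr''
        obtain ⟨h3, h4⟩ := mem_filter.mp hr''
        have h5 := (hR r' (List.mem_toFinset.mp h3)).1
        have := ptw3_rho (u := r' - d) (v := r - r') (by omega) (by omega)
        have e1 : r' - d - 1 = r' - 1 - d := by ring
        have e2 : r - r' - 1 = r - 1 - r' := by ring
        have e3 : r' - d + (r - r') - 1 = r - 1 - d := by ring
        rw [e1, e2, e3] at this
        exact this
      have hs1 : ∑ r' ∈ T, rhoL (r' - 1 - d) * rhoL (r - 1 - r') ≤ a * (4 * √(k : ℝ) * aδ) := by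
        calc ∑ r' ∈ T, rhoL (r' - 1 - d) * rhoL (r - 1 - r')
            ≤ ∑ r' ∈ T, a * (rhoL (r' - 1 - d) + rhoL (r - 1 - r')) := sum_le_sum hpt
          _ = a * (∑ r' ∈ T, rhoL (r' - 1 - d) + ∑ r' ∈ T, rhoL (r - 1 - r')) := by
              rw [← mul_sum, sum_add_distrib]
          _ ≤ a * (4 * √(k : ℝ) * aδ) := by
              apply mul_le_mul_of_nonneg_left _ ha0
              linarith
      have hs3 : ∑ r' ∈ T, rhoL (r' - 1 - d) ^ 3 * rhoL (r - 1 - r') ≤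
          6 * a * aδ ^ 3 + a ^ 3 * (6 * (√(k : ℝ) * aδ)) := by
        calc ∑ r' ∈ T, rhoL (r' - 1 - d) ^ 3 * rhoL (r - 1 - r')
            ≤ ∑ r' ∈ T, (2 * a * rhoL (r' - 1 - d) ^ 3 + 3 * a ^ 3 * rhoL (r - 1 - r')) := sum_le_sum hpt3
          _ = 2 * a * ∑ r' ∈ T, rhoL (r' - 1 - d) ^ 3 + 3 * a ^ 3 * ∑ r' ∈ T, rhoL (r - 1 - r') := by
              rw [sum_add_distrib, mul_sum, mul_sum]
          _ ≤ 2 * a * (3 * aδ ^ 3) + 3 * a ^ 3 * (2 * √(k : ℝ) * aδ) := by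
              apply add_le_add
              · exact mul_le_mul_of_nonneg_left hspa3 (by positivity)
              · exact mul_le_mul_of_nonneg_left hspb (by positivity)
          _ = _ := by ring
      -- combine
      have hf1 := hP.factor hCs
      have h𝓛 := hP.h𝓛
      have hcC : 48 * Cw * (1 / (1 + 48 * Cw)) ≤ 1 := by
        rw [mul_one_div, div_le_one hCs]
        linarith
      have hcf : 0 ≤ 1 / (1 + 48 * Cw) := by positivity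
      have hx1 : 4 * Cw * 𝓛 * (4 * √(k : ℝ) * aδ) ≤ 1 / 2 := by
        have : 4 * Cw * 𝓛 * (4 * √(k : ℝ) * aδ) = 16 * Cw * (𝓛 * (√(k : ℝ) * aδ)) := by ring
        rw [this]
        have h3 : 16 * Cw * (𝓛 * (√(k : ℝ) * aδ)) ≤ 16 * Cw * (1 / (1 + 48 * Cw)) :=
          mul_le_mul_of_nonneg_left hf1 (by positivity)
        nlinarith
      have hx2 : 4 * Cw * 𝓛 * (6 * (√(k : ℝ) * aδ)) ≤ 1 := by
        have : 4 * Cw * 𝓛 * (6 * (√(k : ℝ) * aδ)) = 24 * Cw * (𝓛 * (√(k : ℝ) * aδ)) := by ring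
        rw [this]
        have h4 : 24 * Cw * (𝓛 * (√(k : ℝ) * aδ)) ≤ 24 * Cw * (1 / (1 + 48 * Cw)) :=
          mul_le_mul_of_nonneg_left hf1 (by positivity)
        nlinarith
      have hsumΦ : ∑ r' ∈ T, Φ r' * rhoL (r - 1 - r') =
          3 * Cd * (Ab * ∑ r' ∈ T, rhoL (r' - 1 - d) * rhoL (r - 1 - r') +
            A₀ * ∑ r' ∈ T, rhoL (r' - 1 - d) ^ 3 * rhoL (r - 1 - r')) := by
        simp only [hΦ]
        rw [mul_sum, mul_sum, ← sum_add_distrib, mul_sum]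
        apply sum_congr rfl
        intro r' _
        ring
      rw [hsumΦ]
      have hk1 : 4 * Cw * 𝓛 * (Ab * ∑ r' ∈ T, rhoL (r' - 1 - d) * rhoL (r - 1 - r')) ≤ (1 / 2) * (Ab * a) := by
        have h3 : Ab * ∑ r' ∈ T, rhoL (r' - 1 - d) * rhoL (r - 1 - r') ≤ Ab * (a * (4 * √(k : ℝ) * aδ)) :=
          mul_le_mul_of_nonneg_left hs1 hAb0
        have h4 := mul_le_mul_of_nonneg_left h3 (by positivity : 0 ≤ 4 * Cw * 𝓛)
        refine h4.trans ?_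
        have h5 : 0 ≤ Ab * a := by positivity
        calc 4 * Cw * 𝓛 * (Ab * (a * (4 * √(k : ℝ) * aδ))) = (Ab * a) * (4 * Cw * 𝓛 * (4 * √(k : ℝ) * aδ)) := by ring
          _ ≤ (Ab * a) * (1 / 2) := mul_le_mul_of_nonneg_left hx1 h5
          _ = _ := by ring
      have hk2 : 4 * Cw * 𝓛 * (A₀ * ∑ r' ∈ T, rhoL (r' - 1 - d) ^ 3 * rhoL (r - 1 - r')) ≤
          (1 / 2) * (Ab * a) + A₀ * a ^ 3 := by
        have h3 : A₀ * ∑ r' ∈ T, rhoL (r' - 1 - d) ^ 3 * rhoL (r - 1 - r') ≤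
            A₀ * (6 * a * aδ ^ 3 + a ^ 3 * (6 * (√(k : ℝ) * aδ))) :=
          mul_le_mul_of_nonneg_left hs3 hA₀
        have h4 := mul_le_mul_of_nonneg_left h3 (by positivity : 0 ≤ 4 * Cw * 𝓛)
        refine h4.trans ?_
        have h5 : 0 ≤ A₀ * a ^ 3 := by positivity
        have h6 : (A₀ * a ^ 3) * (4 * Cw * 𝓛 * (6 * (√(k : ℝ) * aδ))) ≤ (A₀ * a ^ 3) * 1 :=
          mul_le_mul_of_nonneg_left hx2 h5
        have h7 : 48 * Cw * 𝓛 * A₀ * aδ ^ 3 * a ≤ Ab * a :=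
          mul_le_mul_of_nonneg_right (by rw [hAb]; linarith) ha0
        have e : 4 * Cw * 𝓛 * (A₀ * (6 * a * aδ ^ 3 + a ^ 3 * (6 * (√(k : ℝ) * aδ)))) =
            (1 / 2) * (48 * Cw * 𝓛 * A₀ * aδ ^ 3 * a) + (A₀ * a ^ 3) * (4 * Cw * 𝓛 * (6 * (√(k : ℝ) * aδ))) := by ring
        rw [e]
        linarith
      simp only [hΦ]
      have e5 : 4 * Cw * 𝓛 * (3 * Cd * (Ab * ∑ r' ∈ T, rhoL (r' - 1 - d) * rhoL (r - 1 - r') +
            A₀ * ∑ r' ∈ T, rhoL (r' - 1 - d) ^ 3 * rhoL (r - 1 - r'))) =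
          3 * Cd * (4 * Cw * 𝓛 * (Ab * ∑ r' ∈ T, rhoL (r' - 1 - d) * rhoL (r - 1 - r')) +
            4 * Cw * 𝓛 * (A₀ * ∑ r' ∈ T, rhoL (r' - 1 - d) ^ 3 * rhoL (r - 1 - r'))) := by ring
      rw [e5]
      apply mul_le_mul_of_nonneg_left _ (by positivity)
      linarith)
    r (List.mem_toFinset.mpr hr)
  refine hres.trans ?_
  simp only [hΦ]
  have hρ0 := rhoL_nonneg (r - 1 - d)
  obtain ⟨aa, haa⟩ : ∃ aa, aa = rhoL (r - 1 - d) := ⟨_, rfl⟩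
  rw [← haa] at hρ0 ⊢
  have hb : Ab ≤ (1 + 48 * Cw) * (A₁ + 𝓛 * A₀ * (1 / √(δ : ℝ)) ^ 3) := by
    have t : 0 ≤ 48 * Cw * A₁ := by positivity
    rw [hAb]
    nlinarith
  have hb2 : Ab * aa ≤ (1 + 48 * Cw) * (A₁ + 𝓛 * A₀ * (1 / √(δ : ℝ)) ^ 3) * aa :=
    mul_le_mul_of_nonneg_right hb hρ0
  have hb3 : A₀ * aa ^ 3 ≤ (1 + 48 * Cw) * (A₀ * aa ^ 3) := by
    have : 0 ≤ A₀ * aa ^ 3 := by positivity
    nlinarith
  have hb4 : Ab * aa + A₀ * aa ^ 3 ≤ (1 + 48 * Cw) * ((A₁ + 𝓛 * A₀ * (1 / √(δ : ℝ)) ^ 3) * aa + A₀ * aa ^ 3) := by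
    linarith
  have := mul_le_mul_of_nonneg_left hb4 (by positivity : 0 ≤ 12 * Cd)
  calc 4 * (3 * Cd * (Ab * aa + A₀ * aa ^ 3)) = 12 * Cd * (Ab * aa + A₀ * aa ^ 3) := by ring
    _ ≤ _ := this
    _ = _ := by ring

/-- Second level: the difference in the end point at a new site. -/
theorem level1_step {q θ₀ θ₁ : ℝ} (h0 : 0 < q) (h1 : q < 1) (hθ₀ : 0 < θ₀) (hθ₁ : θ₁ < 1) :
    ∃ Cs C : ℝ, 1 ≤ Cs ∧ 0 < C ∧ ∀ θ ∈ Set.Icc θ₀ θ₁,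
      ∀ (δ k Lmax B₀ : ℕ) (𝓛 A₀ A₁ : ℝ) (g : ℤ → Word → ℝ) (s d d2 : ℤ) (R : List ℤ),
        Par q θ δ k Lmax 𝓛 Cs → SuppS g s → s ≤ d → R.Pairwise (· > ·) → Spaced R.toFinset δ → R.length ≤ k →
        (∀ r ∈ R, d + δ ≤ r ∧ r - 1 - d ≤ Lmax ∧ (δ : ℤ) ≤ d2 - r) →
        d + δ ≤ d2 → 2 * (d2 - s) ≤ (B₀ : ℤ) →
        0 ≤ A₀ → 0 ≤ A₁ → nsq q B₀ (g (d - 1)) ≤ A₀ → nsq q B₀ (fun w => g d w - g (d - 1) w) ≤ A₁ →
        nsq q B₀ (fun w => VV θ (Disp θ g d) R d2 w - VV θ (Disp θ g d) R (d2 - 1) w) ≤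
          C * (A₁ * (1 / √(δ : ℝ)) ^ 3 + A₀ * (1 / √(δ : ℝ)) ^ 5) := by
  obtain ⟨Cs₁, C₁, hCs₁, hC₁, hL1⟩ := level1 (θ₀ := θ₀) (θ₁ := θ₁) h0 h1 hθ₀ hθ₁
  obtain ⟨Cu, hCu, hU⟩ := OL_unif (θ₀ := θ₀) (θ₁ := θ₁) h0 h1 hθ₀ hθ₁ 1
  obtain ⟨Cd, hCd, hD⟩ := disp_step_far (θ₀ := θ₀) (θ₁ := θ₁) h0 h1 hθ₀ hθ₁
  refine ⟨Cs₁, 4 * Cd + 20 * Cu * C₁, hCs₁, by positivity, ?_⟩
  intro θ hθ δ k Lmax B₀ 𝓛 A₀ A₁ g s d d2 R hP hg hsd hpw hsp hlen hR hdd2 hB hA₀ hA₁ hgA₀ hgA₁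
  have hδ2 := hP.hδ
  have hδ1 : 1 ≤ δ := by omega
  have hδ0 := hP.δ_pos
  have hδr1 : (1 : ℝ) ≤ δ := by exact_mod_cast hδ1
  set S := R.toFinset with hS
  have hcard : S.card ≤ k := (List.toFinset_card_le R).trans hlen
  have hkδ := hP.k_le hCs₁
  set ε := |θ - q ^ 2| with hε
  have hε0 : 0 ≤ ε := abs_nonneg _
  set a : ℝ := 1 / √(δ : ℝ) with ha
  have hs0 : 0 < √(δ : ℝ) := Real.sqrt_pos.mpr hδ0
  have ha0 : 0 < a := by positivity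
  have ha1 : a ≤ 1 := by
    rw [ha, div_le_one hs0, Real.one_le_sqrt]
    exact hδr1
  have ha2 : a ^ 2 = 1 / δ := by
    rw [ha, div_pow, one_pow, Real.sq_sqrt hδ0.le]
  have hεa : ε ≤ a := by
    have : ε ≤ a ^ 2 := by rw [ha2]; exact hP.eps
    nlinarith
  have hstep : (fun w => VV θ (Disp θ g d) R d2 w - VV θ (Disp θ g d) R (d2 - 1) w) =
      fun w => (Disp θ g d d2 w - Disp θ g d (d2 - 1) w) +
        Yk θ (ker θ [1]) S (fun r => VV θ (Disp θ g d) R (r - 1)) d2 w := by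
    funext w
    exact VV_step θ (Disp θ g d) R hpw d2 w
  rw [hstep]
  refine (nsq_add_le h0 h1 B₀ _ _).trans ?_
  -- source
  have hF : nsq q B₀ (fun w => Disp θ g d d2 w - Disp θ g d (d2 - 1) w) ≤
      Cd * (2 * a ^ 3 * A₁ + 2 * a ^ 5 * A₀) := by
    have hDD := hD θ hθ g s d d2 B₀ hg hsd (by omega) hB
    refine hDD.trans ?_
    apply mul_le_mul_of_nonneg_left _ hCd.le
    have hr1 : rhoL (d2 - d - 1) ≤ a := rhoL_le_scale hδ1 (by omega)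
    have hr2 : rhoL (d2 - d) ≤ a := rhoL_le_scale hδ1 (by omega)
    have hr10 := rhoL_nonneg (d2 - d - 1)
    have hr20 := rhoL_nonneg (d2 - d)
    apply add_le_add
    · apply mul_le_mul _ hgA₁ (nsq_nonneg h0 h1 _ _) (by positivity)
      have p3 := pow_le_pow_left₀ hr10 hr1 3
      have p2 := pow_le_pow_left₀ hr10 hr1 2
      have : ε * rhoL (d2 - d - 1) ^ 2 ≤ a * a ^ 2 := mul_le_mul hεa p2 (by positivity) ha0.le
      nlinarith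
    · apply mul_le_mul _ hgA₀ (nsq_nonneg h0 h1 _ _) (by positivity)
      have p5 := pow_le_pow_left₀ hr20 hr2 5
      have p4 := pow_le_pow_left₀ hr20 hr2 4
      have : ε * rhoL (d2 - d) ^ 4 ≤ a * a ^ 4 := mul_le_mul hεa p4 (by positivity) ha0.le
      nlinarith
  -- the sum
  have hSupp : SuppS (VV θ (Disp θ g d) R) s := VV_supp (Disp_supp hg d) R
  have hLa := hP.La hCs₁
  have hψ0 : 0 ≤ C₁ * (A₁ * a + 2 * (A₀ * a ^ 3)) := by positivity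
  have hψ : ∀ r ∈ S, nsq q B₀ (VV θ (Disp θ g d) R (r - 1)) ≤ (√(C₁ * (A₁ * a + 2 * (A₀ * a ^ 3)))) ^ 2 := by
    intro r hr
    have hrM := List.mem_toFinset.mp hr
    rw [Real.sq_sqrt hψ0]
    have := hL1 θ hθ δ k Lmax B₀ 𝓛 A₀ A₁ g s d R hP hg hsd hpw hsp hlen
      (fun r' hr' => ⟨(hR r' hr').1, (hR r' hr').2.1, by
        have := hR r' hr'
        omega⟩) hA₀ hA₁ hgA₀ hgA₁ r hrM
    refine this.trans ?_
    apply mul_le_mul_of_nonneg_left _ hC₁.le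
    have hr1 : rhoL (r - 1 - d) ≤ a := rhoL_le_scale hδ1 (by
      have := hR r hrM
      omega)
    have hr10 := rhoL_nonneg (r - 1 - d)
    have p3 := pow_le_pow_left₀ hr10 hr1 3
    have t0 : 0 ≤ A₁ + 𝓛 * A₀ * a ^ 3 := by
      have := hP.h𝓛
      positivity
    have t1 : (A₁ + 𝓛 * A₀ * a ^ 3) * rhoL (r - 1 - d) ≤ (A₁ + 𝓛 * A₀ * a ^ 3) * a :=
      mul_le_mul_of_nonneg_left hr1 t0
    have t2 : A₀ * rhoL (r - 1 - d) ^ 3 ≤ A₀ * a ^ 3 := mul_le_mul_of_nonneg_left p3 hA₀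
    have t3 : (𝓛 * a) * (A₀ * a ^ 3) ≤ 1 * (A₀ * a ^ 3) := mul_le_mul_of_nonneg_right hLa (by positivity)
    have e : (A₁ + 𝓛 * A₀ * a ^ 3) * a = A₁ * a + (𝓛 * a) * (A₀ * a ^ 3) := by ring
    rw [e] at t1
    linarith
  have hU' := hU θ hθ [1] rfl (by simp) δ k S (fun r => VV θ (Disp θ g d) R (r - 1)) B₀ d2 d
    (√(C₁ * (A₁ * a + 2 * (A₀ * a ^ 3)))) hδ1 hsp hcard hkδ hP.eps
    (fun r hr => by
      have := hR r (List.mem_toFinset.mp hr)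
      omega)
    (by
      intro r hr w hw
      have h2 := hSupp (r - 1) w hw
      have h3 := hR r (List.mem_toFinset.mp hr)
      omega)
    (by
      intro r hr
      have h3 := hR r (List.mem_toFinset.mp hr)
      omega)
    (by
      intro r _ _
      simp
      omega)
    (by positivity) hψ
  simp only [List.prod_cons, List.prod_nil, mul_one, Nat.cast_one, one_pow] at hU'
  rw [Real.sq_sqrt hψ0] at hU'
  have hT := sum_c1 (T := S.filter (· ≤ d2)) (X := d2) hδ1 (hsp.mono (filter_subset _ _))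
    ((card_le_card (filter_subset _ _)).trans hcard) hP.hkL hP.harm hLa (abs_nonneg (θ - q ^ 2)) hP.eps
    (by
      intro r hr
      have h3 := hR r (List.mem_toFinset.mp (mem_filter.mp hr).1)
      omega)
  have hU'' : nsq q B₀ (Yk θ (ker θ [1]) S (fun r => VV θ (Disp θ g d) R (r - 1)) d2) ≤
      Cu * (C₁ * (A₁ * a + 2 * (A₀ * a ^ 3))) * (5 * a ^ 3) := by
    refine hU'.trans ?_
    apply mul_le_mul_of_nonneg_left hT
    positivity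
  have hpa4 : a ^ 4 ≤ a ^ 3 := by
    have : 0 ≤ a ^ 3 := by positivity
    nlinarith
  have hpa6 : a ^ 6 ≤ a ^ 5 := by
    have : 0 ≤ a ^ 5 := by positivity
    nlinarith
  have h5 : Cu * (C₁ * (A₁ * a + 2 * (A₀ * a ^ 3))) * (5 * a ^ 3) ≤ 10 * Cu * C₁ * (A₁ * a ^ 3 + A₀ * a ^ 5) := by
    have e : Cu * (C₁ * (A₁ * a + 2 * (A₀ * a ^ 3))) * (5 * a ^ 3) = 10 * Cu * C₁ * ((1 / 2) * (A₁ * a ^ 4) + A₀ * a ^ 6) := by ring
    rw [e]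
    apply mul_le_mul_of_nonneg_left _ (by positivity)
    have t1 := mul_le_mul_of_nonneg_left hpa4 hA₁
    have t2 := mul_le_mul_of_nonneg_left hpa6 hA₀
    have t3 : 0 ≤ A₁ * a ^ 4 := by positivity
    linarith
  have h6 : Cd * (2 * a ^ 3 * A₁ + 2 * a ^ 5 * A₀) = 2 * Cd * (A₁ * a ^ 3 + A₀ * a ^ 5) := by ring
  have h7 : (4 * Cd + 20 * Cu * C₁) * (A₁ * a ^ 3 + A₀ * a ^ 5) =
      2 * (2 * Cd * (A₁ * a ^ 3 + A₀ * a ^ 5)) + 2 * (10 * Cu * C₁ * (A₁ * a ^ 3 + A₀ * a ^ 5)) := by ring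
  rw [h7]
  linarith

/-- Bounds for the left function at a displaced site. -/
theorem left_inputs {q θ₀ θ₁ : ℝ} (h0 : 0 < q) (h1 : q < 1) (hθ₀ : 0 < θ₀) (hθ₁ : θ₁ < 1) :
    ∃ Cs C : ℝ, 1 ≤ Cs ∧ 0 < C ∧ ∀ θ ∈ Set.Icc θ₀ θ₁,
      ∀ (δ k Lmax B₀ n₁ : ℕ) (𝓛 : ℝ) (s I₀ d : ℤ) (M : List ℤ), Par q θ δ k Lmax 𝓛 Cs →
        (d :: M).Pairwise (· > ·) → Spaced (d :: M).toFinset δ → (d :: M).length ≤ k → s ≤ I₀ →
        (∀ r ∈ d :: M, I₀ ≤ r ∧ r - 1 - I₀ ≤ Lmax ∧ s + n₁ + 1 ≤ r ∧ 2 * (r - s) ≤ (B₀ : ℤ)) →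
        rhoL n₁ ^ 2 ≤ (1 / √(δ : ℝ)) ^ 3 →
        nsq q B₀ (VV θ (F0 θ s) M (d - 1)) ≤ C * rhoL n₁ ∧
        nsq q B₀ (fun w => VV θ (F0 θ s) M d w - VV θ (F0 θ s) M (d - 1) w) ≤
          C * (rhoL n₁ * (1 / √(δ : ℝ)) ^ 3) := by
  obtain ⟨Cs₀, C₀, hCs₀, hC₀, hL0⟩ := level0_sup (θ₀ := θ₀) (θ₁ := θ₁) h0 h1 hθ₀ hθ₁ 0
  obtain ⟨Cs₂, C₂, hCs₂, hC₂, hL2⟩ := level0_step (θ₀ := θ₀) (θ₁ := θ₁) h0 h1 hθ₀ hθ₁
  refine ⟨max Cs₀ Cs₂, C₀ + 2 * C₂, le_max_of_le_left hCs₀, by positivity, ?_⟩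
  intro θ hθ δ k Lmax B₀ n₁ 𝓛 s I₀ d M hP hpw hsp hlen hsI hM hρ
  have hPa := hP.mono (le_max_left Cs₀ Cs₂)
  have hPb := hP.mono (le_max_right Cs₀ Cs₂)
  have hr := rhoL_nonneg n₁
  constructor
  · have := hL0 θ hθ [] rfl (by simp) δ k Lmax B₀ n₁ 𝓛 s I₀ (d :: M) hPa hpw hsp hlen hsI
      (fun r hr' => by
        have := hM r hr'
        exact ⟨this.1, this.2.1, this.2.2.1, by omega⟩) (by simp; omega) d (by simp)
    rw [Fk_nil, VV_cons_of_lt_fun θ (F0 θ s) d M (by omega)] at this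
    simp only [List.prod_nil, Nat.cast_one, one_pow, mul_one, mul_zero, zero_add, pow_one] at this
    refine this.trans ?_
    have : 0 ≤ C₂ * rhoL n₁ := by positivity
    nlinarith
  · have hpw' := (List.pairwise_cons.mp hpw)
    have hsp' : Spaced M.toFinset δ := hsp.mono (by
      intro x hx
      simp only [List.toFinset_cons, mem_insert]
      exact Or.inr hx)
    have hb := hL2 θ hθ δ k Lmax B₀ n₁ 𝓛 s I₀ d M hPb hpw'.2 hsp' (by simp at hlen; omega) hsI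
      (by
        intro r hr'
        have h3 := hM r (List.mem_cons_of_mem _ hr')
        have h4 := hpw'.1 r hr'
        have h5 := hsp d (by simp) r (by simp [hr']) (by omega)
        rw [abs_of_pos (by omega)] at h5
        refine ⟨h3.1, h3.2.1, h3.2.2.1, ?_, h5⟩
        have := hM d (by simp)
        omega)
      (hM d (by simp)).2.2.1 (hM d (by simp)).2.2.2
    refine hb.trans ?_
    set a3 := (1 / √(δ : ℝ)) ^ 3
    have ha3 : 0 ≤ a3 := by positivity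
    have h5 : rhoL n₁ * (rhoL n₁ ^ 2 + a3) ≤ 2 * (rhoL n₁ * a3) := by
      have := mul_le_mul_of_nonneg_left hρ hr
      nlinarith
    have h6 : 0 ≤ rhoL n₁ * a3 := by positivity
    nlinarith

/-- Insertion of the last site. -/
theorem final_ins {q θ₀ θ₁ : ℝ} (h0 : 0 < q) (h1 : q < 1) (hθ₀ : 0 < θ₀) (hθ₁ : θ₁ < 1) :
    ∃ Cs C : ℝ, 1 ≤ Cs ∧ 0 < C ∧ ∀ θ ∈ Set.Icc θ₀ θ₁,
      ∀ (δ k Lmax B₀ n₁ : ℕ) (𝓛 : ℝ) (s I₀ d b e : ℤ) (M R : List ℤ), Par q θ δ k Lmax 𝓛 Cs →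
        (d :: M).Pairwise (· > ·) → Spaced (d :: M).toFinset δ → (d :: M).length ≤ k → s ≤ I₀ →
        (∀ r ∈ d :: M, I₀ ≤ r ∧ r - 1 - I₀ ≤ Lmax ∧ s + n₁ + 1 ≤ r ∧ 2 * (r - s) ≤ (B₀ : ℤ)) →
        (b :: R).Pairwise (· > ·) → Spaced (b :: R).toFinset δ → (b :: R).length ≤ k →
        (∀ r ∈ b :: R, d + δ ≤ r ∧ r - 1 - d ≤ Lmax ∧ 2 * (r - 1 - s) ≤ (B₀ : ℤ)) →
        b ≤ e → 2 * (e - s) ≤ (B₀ : ℤ) → rhoL n₁ ^ 2 ≤ (1 / √(δ : ℝ)) ^ 3 →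
        nsq q B₀ (fun t =>
          (VV θ (F0 θ s) (b :: (R ++ (d + 1) :: M)) e t - VV θ (F0 θ s) (R ++ (d + 1) :: M) e t) -
          (VV θ (F0 θ s) (b :: (R ++ d :: M)) e t - VV θ (F0 θ s) (R ++ d :: M) e t)) ≤
          C * (rhoL (e - b) + |θ - q ^ 2|) * rhoL n₁ *
            (𝓛 * (1 / √(δ : ℝ)) ^ 3 * rhoL (b - 1 - d) + rhoL (b - 1 - d) ^ 3) := by
  obtain ⟨Cs₀, C₀, hCs₀, hC₀, hI⟩ := left_inputs (θ₀ := θ₀) (θ₁ := θ₁) h0 h1 hθ₀ hθ₁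
  obtain ⟨Cs₁, C₁, hCs₁, hC₁, hL1⟩ := level1 (θ₀ := θ₀) (θ₁ := θ₁) h0 h1 hθ₀ hθ₁
  obtain ⟨C₂, hC₂, hS⟩ := OL_single (θ₀ := θ₀) (θ₁ := θ₁) h0 h1 hθ₀ hθ₁ 0
  refine ⟨max Cs₀ Cs₁, 2 * (C₂ * (C₁ * C₀)), le_max_of_le_left hCs₀, by positivity, ?_⟩
  intro θ hθ δ k Lmax B₀ n₁ 𝓛 s I₀ d b e M R hP hpw hsp hlen hsI hM hpwR hspR hlenR hR hbe hB hρ
  have hPa := hP.mono (le_max_left Cs₀ Cs₁)
  have hPb := hP.mono (le_max_right Cs₀ Cs₁)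
  have hδ2 := hP.hδ
  set g := VV θ (F0 θ s) M with hg
  have hg' : SuppS g s := VV_supp (Fk_supp θ [] s) M
  have hds : s ≤ d := by
    have := hM d (by simp)
    omega
  set Z := VV θ (Disp θ g d) R with hZ
  have hZs : SuppS Z s := VV_supp (Disp_supp hg' d) R
  have e1 : (fun t =>
          (VV θ (F0 θ s) (b :: (R ++ (d + 1) :: M)) e t - VV θ (F0 θ s) (R ++ (d + 1) :: M) e t) -
          (VV θ (F0 θ s) (b :: (R ++ d :: M)) e t - VV θ (F0 θ s) (R ++ d :: M) e t)) =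
      Tk θ (ker θ []) b e (Z (b - 1)) := by
    funext t
    rw [VV_cons, VV_cons, add_sub_cancel_left, add_sub_cancel_left, ker_nil_fun, ← Tk_sub]
    congr 1
    funext w
    exact VV_disp_mid θ (F0 θ s) R d M (b - 1) w
  rw [e1]
  obtain ⟨ha₀, ha₁⟩ := hI θ hθ δ k Lmax B₀ n₁ 𝓛 s I₀ d M hPa hpw hsp hlen hsI hM hρ
  set a3 := (1 / √(δ : ℝ)) ^ 3 with ha3
  have hr := rhoL_nonneg n₁
  have ha30 : 0 ≤ a3 := by positivity
  have hZb := hL1 θ hθ δ k Lmax B₀ 𝓛 (C₀ * rhoL n₁) (C₀ * (rhoL n₁ * a3)) g s d (b :: R) hPb hg' hds hpwR hspR hlenR hR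
    (by positivity) (by positivity) ha₀ ha₁ b (by simp)
  rw [VV_cons_of_lt_fun θ (Disp θ g d) b R (by omega)] at hZb
  have hb2 : 2 * (b - 1 - s) ≤ (B₀ : ℤ) := (hR b (by simp)).2.2
  have hS' := hS θ hθ [] rfl (by simp) b e (Z (b - 1)) B₀ hbe
    (by
      intro w hw
      have := hZs _ _ hw
      omega)
    (by
      have := hR b (by simp)
      omega)
    (by simp; omega)
  simp only [List.prod_nil, Nat.cast_one, one_pow, mul_one, mul_zero, zero_add, pow_one, pow_zero] at hS'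
  refine hS'.trans ?_
  have hp : 0 ≤ rhoL (e - b) + |θ - q ^ 2| := by
    have := rhoL_nonneg (e - b)
    positivity
  have h𝓛 := hP.h𝓛
  have hbn := rhoL_nonneg (b - 1 - d)
  have hZb2 : C₁ * ((C₀ * (rhoL n₁ * a3) + 𝓛 * (C₀ * rhoL n₁) * a3) * rhoL (b - 1 - d) + C₀ * rhoL n₁ * rhoL (b - 1 - d) ^ 3) ≤
      2 * (C₁ * C₀) * (rhoL n₁ * (𝓛 * a3 * rhoL (b - 1 - d) + rhoL (b - 1 - d) ^ 3)) := by
    have t0 : 0 ≤ C₁ * C₀ * rhoL n₁ := by positivity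
    have t1 : 0 ≤ a3 * rhoL (b - 1 - d) := by positivity
    have t2 : 0 ≤ rhoL (b - 1 - d) ^ 3 := by positivity
    have t3 : a3 * rhoL (b - 1 - d) ≤ 𝓛 * (a3 * rhoL (b - 1 - d)) := by nlinarith
    have e : 2 * (C₁ * C₀) * (rhoL n₁ * (𝓛 * a3 * rhoL (b - 1 - d) + rhoL (b - 1 - d) ^ 3)) =
        (C₁ * C₀ * rhoL n₁) * (2 * (𝓛 * (a3 * rhoL (b - 1 - d))) + 2 * rhoL (b - 1 - d) ^ 3) := by ring
    have e2 : C₁ * ((C₀ * (rhoL n₁ * a3) + 𝓛 * (C₀ * rhoL n₁) * a3) * rhoL (b - 1 - d) + C₀ * rhoL n₁ * rhoL (b - 1 - d) ^ 3) =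
        (C₁ * C₀ * rhoL n₁) * (a3 * rhoL (b - 1 - d) + 𝓛 * (a3 * rhoL (b - 1 - d)) + rhoL (b - 1 - d) ^ 3) := by ring
    rw [e, e2]
    apply mul_le_mul_of_nonneg_left _ t0
    linarith
  have e2 : 2 * (C₂ * (C₁ * C₀)) * (rhoL (e - b) + |θ - q ^ 2|) * rhoL n₁ * (𝓛 * a3 * rhoL (b - 1 - d) + rhoL (b - 1 - d) ^ 3) =
      C₂ * (rhoL (e - b) + |θ - q ^ 2|) *
        (2 * (C₁ * C₀) * (rhoL n₁ * (𝓛 * a3 * rhoL (b - 1 - d) + rhoL (b - 1 - d) ^ 3))) := by ring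
  rw [e2]
  exact mul_le_mul_of_nonneg_left (hZb.trans hZb2) (by positivity)

/-- Inputs at the second displaced site. -/
theorem disp2_inputs {q θ₀ θ₁ : ℝ} (h0 : 0 < q) (h1 : q < 1) (hθ₀ : 0 < θ₀) (hθ₁ : θ₁ < 1) :
    ∃ Cs C : ℝ, 1 ≤ Cs ∧ 0 < C ∧ ∀ θ ∈ Set.Icc θ₀ θ₁,
      ∀ (δ k Lmax B₀ n₁ : ℕ) (𝓛 : ℝ) (s I₀ d d' : ℤ) (M R₁ : List ℤ), Par q θ δ k Lmax 𝓛 Cs →
        (d :: M).Pairwise (· > ·) → Spaced (d :: M).toFinset δ → (d :: M).length ≤ k → s ≤ I₀ →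
        (∀ r ∈ d :: M, I₀ ≤ r ∧ r - 1 - I₀ ≤ Lmax ∧ s + n₁ + 1 ≤ r ∧ 2 * (r - s) ≤ (B₀ : ℤ)) →
        (d' :: R₁).Pairwise (· > ·) → Spaced (d' :: R₁).toFinset δ → (d' :: R₁).length ≤ k →
        (∀ r ∈ d' :: R₁, d + δ ≤ r ∧ r - 1 - d ≤ Lmax ∧ 2 * (r - s) ≤ (B₀ : ℤ)) →
        rhoL n₁ ^ 2 ≤ (1 / √(δ : ℝ)) ^ 3 →
        nsq q B₀ (VV θ (Disp θ (VV θ (F0 θ s) M) d) R₁ (d' - 1)) ≤ C * (rhoL n₁ * (1 / √(δ : ℝ)) ^ 3) ∧
        nsq q B₀ (fun w => VV θ (Disp θ (VV θ (F0 θ s) M) d) R₁ d' w -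
          VV θ (Disp θ (VV θ (F0 θ s) M) d) R₁ (d' - 1) w) ≤ C * (rhoL n₁ * (1 / √(δ : ℝ)) ^ 5) := by
  obtain ⟨Cs₀, C₀, hCs₀, hC₀, hI⟩ := left_inputs (θ₀ := θ₀) (θ₁ := θ₁) h0 h1 hθ₀ hθ₁
  obtain ⟨Cs₁, C₁, hCs₁, hC₁, hL1⟩ := level1 (θ₀ := θ₀) (θ₁ := θ₁) h0 h1 hθ₀ hθ₁
  obtain ⟨Cs₂, C₂, hCs₂, hC₂, hL2⟩ := level1_step (θ₀ := θ₀) (θ₁ := θ₁) h0 h1 hθ₀ hθ₁
  refine ⟨max (max Cs₀ Cs₁) Cs₂, C₁ * (3 * C₀) + C₂ * (2 * C₀), le_max_of_le_left (le_max_of_le_left hCs₀),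
    by positivity, ?_⟩
  intro θ hθ δ k Lmax B₀ n₁ 𝓛 s I₀ d d' M R₁ hP hpw hsp hlen hsI hM hpw1 hsp1 hlen1 hR1 hρ
  have hPa : Par q θ δ k Lmax 𝓛 Cs₀ := hP.mono ((le_max_left _ _).trans (le_max_left _ _))
  have hPb : Par q θ δ k Lmax 𝓛 Cs₁ := hP.mono ((le_max_right _ _).trans (le_max_left _ _))
  have hPc : Par q θ δ k Lmax 𝓛 Cs₂ := hP.mono (le_max_right _ _)
  have hδ2 := hP.hδ
  have hδ1 : 1 ≤ δ := by omega
  have hδ0 := hP.δ_pos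
  have hδr1 : (1 : ℝ) ≤ δ := by exact_mod_cast hδ1
  set g := VV θ (F0 θ s) M with hg
  have hg' : SuppS g s := VV_supp (Fk_supp θ [] s) M
  have hds : s ≤ d := by
    have := hM d (by simp)
    omega
  have hd'mem := hR1 d' (by simp)
  obtain ⟨ha₀, ha₁⟩ := hI θ hθ δ k Lmax B₀ n₁ 𝓛 s I₀ d M hPa hpw hsp hlen hsI hM hρ
  set a : ℝ := 1 / √(δ : ℝ) with ha
  have hs0 : 0 < √(δ : ℝ) := Real.sqrt_pos.mpr hδ0
  have ha0 : 0 < a := by positivity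
  have ha1 : a ≤ 1 := by
    rw [ha, div_le_one hs0, Real.one_le_sqrt]
    exact hδr1
  have hr := rhoL_nonneg n₁
  set r₁ := rhoL n₁ with hr₁
  have hrpos : 0 ≤ r₁ * a ^ 3 := by positivity
  have hrpos5 : 0 ≤ r₁ * a ^ 5 := by positivity
  constructor
  · have := hL1 θ hθ δ k Lmax B₀ 𝓛 (C₀ * r₁) (C₀ * (r₁ * a ^ 3)) g s d (d' :: R₁) hPb hg' hds hpw1 hsp1 hlen1
      (fun r hr' => by
        have := hR1 r hr'
        exact ⟨this.1, this.2.1, by omega⟩)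
      (by positivity) (by positivity) ha₀ ha₁ d' (by simp)
    rw [VV_cons_of_lt_fun θ (Disp θ g d) d' R₁ (by omega)] at this
    refine this.trans ?_
    have hx : rhoL (d' - 1 - d) ≤ a := rhoL_le_scale hδ1 (by omega)
    have hx0 := rhoL_nonneg (d' - 1 - d)
    have p3 := pow_le_pow_left₀ hx0 hx 3
    have hLa := hPb.La hCs₁
    have h𝓛 := hP.h𝓛
    have b1 : C₀ * (r₁ * a ^ 3) * rhoL (d' - 1 - d) ≤ C₀ * (r₁ * a ^ 3) * 1 :=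
      mul_le_mul_of_nonneg_left (hx.trans ha1) (by positivity)
    have b2 : C₀ * r₁ * rhoL (d' - 1 - d) ^ 3 ≤ C₀ * r₁ * a ^ 3 :=
      mul_le_mul_of_nonneg_left p3 (by positivity)
    have b5 : 𝓛 * (C₀ * r₁) * a ^ 3 * rhoL (d' - 1 - d) ≤ C₀ * (r₁ * a ^ 3) * 1 := by
      have t1 : 𝓛 * rhoL (d' - 1 - d) ≤ 1 := le_trans (mul_le_mul_of_nonneg_left hx (by linarith)) hLa
      have t2 : 0 ≤ C₀ * (r₁ * a ^ 3) := by positivity
      calc 𝓛 * (C₀ * r₁) * a ^ 3 * rhoL (d' - 1 - d) = C₀ * (r₁ * a ^ 3) * (𝓛 * rhoL (d' - 1 - d)) := by ring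
        _ ≤ C₀ * (r₁ * a ^ 3) * 1 := mul_le_mul_of_nonneg_left t1 t2
    have b3 : C₁ * ((C₀ * (r₁ * a ^ 3) + 𝓛 * (C₀ * r₁) * a ^ 3) * rhoL (d' - 1 - d) + C₀ * r₁ * rhoL (d' - 1 - d) ^ 3) ≤
        C₁ * (3 * C₀ * (r₁ * a ^ 3)) :=
      mul_le_mul_of_nonneg_left (by nlinarith) hC₁.le
    have b4 : 0 ≤ C₂ * (2 * C₀) * (r₁ * a ^ 3) := by positivity
    nlinarith
  · have hpw1' := List.pairwise_cons.mp hpw1
    have hsp1' : Spaced R₁.toFinset δ := hsp1.mono (by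
      intro x hx
      simp only [List.toFinset_cons, mem_insert]
      exact Or.inr hx)
    have := hL2 θ hθ δ k Lmax B₀ 𝓛 (C₀ * r₁) (C₀ * (r₁ * a ^ 3)) g s d d' R₁ hPc hg' hds hpw1'.2 hsp1'
      (by simp at hlen1; omega)
      (fun r hr' => by
        have h3 := hR1 r (List.mem_cons_of_mem _ hr')
        have h4 := hpw1'.1 r hr'
        have h5 := hsp1 d' (by simp) r (by simp [hr']) (by omega)
        rw [abs_of_pos (by omega)] at h5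
        exact ⟨h3.1, h3.2.1, h5⟩)
      (by omega) (by omega) (by positivity) (by positivity) ha₀ ha₁
    refine this.trans ?_
    have hp6 : a ^ 6 ≤ a ^ 5 := by
      have : 0 ≤ a ^ 5 := by positivity
      nlinarith
    have b1 : C₀ * (r₁ * a ^ 3) * a ^ 3 ≤ C₀ * r₁ * a ^ 5 := by
      have : C₀ * (r₁ * a ^ 3) * a ^ 3 = C₀ * r₁ * a ^ 6 := by ring
      rw [this]
      exact mul_le_mul_of_nonneg_left hp6 (by positivity)
    have b3 : C₂ * (C₀ * (r₁ * a ^ 3) * a ^ 3 + C₀ * r₁ * a ^ 5) ≤ C₂ * (2 * C₀ * (r₁ * a ^ 5)) :=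
      mul_le_mul_of_nonneg_left (by nlinarith) hC₂.le
    have b4 : 0 ≤ C₁ * (3 * C₀) * (r₁ * a ^ 5) := by positivity
    nlinarith

/-- The parameters for the far end of the expansion. -/
structure FarPar (δ Lf : ℕ) (𝓕 : ℝ) : Prop where
  h𝓕 : 1 ≤ 𝓕
  harm : ∑ j ∈ range (Lf + 3), 1 / ((j : ℝ) + 1) ≤ 𝓕
  small : (2 / (δ : ℝ)) ^ 2 * ((Lf : ℝ) + 1) ≤ 𝓕

set_option maxHeartbeats 1500000 in
/-- The expansion from a function with the given inputs, at the far end. -/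
theorem disp2_far {q θ₀ θ₁ : ℝ} (h0 : 0 < q) (h1 : q < 1) (hθ₀ : 0 < θ₀) (hθ₁ : θ₁ < 1) :
    ∃ Cs C : ℝ, 1 ≤ Cs ∧ 0 < C ∧ ∀ θ ∈ Set.Icc θ₀ θ₁,
      ∀ (δ k Lmax B₀ n₂ Lf : ℕ) (𝓛 𝓕 Xa : ℝ) (Z : ℤ → Word → ℝ) (s d' e : ℤ) (R₂ : List ℤ), Par q θ δ k Lmax 𝓛 Cs →
        FarPar δ Lf 𝓕 → SuppS Z s → s ≤ d' → 0 ≤ Xa →
        nsq q B₀ (Z (d' - 1)) ≤ Xa * (1 / √(δ : ℝ)) ^ 3 →
        nsq q B₀ (fun w => Z d' w - Z (d' - 1) w) ≤ Xa * (1 / √(δ : ℝ)) ^ 5 →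
        R₂.Pairwise (· > ·) → Spaced R₂.toFinset δ → R₂.length ≤ k →
        (∀ r ∈ R₂, d' + δ ≤ r ∧ r - 1 - d' ≤ Lmax ∧ 2 * (r - 1 - s) ≤ (B₀ : ℤ) ∧ r + n₂ ≤ e) →
        d' + 1 + n₂ ≤ e → 2 * (e - s) ≤ (B₀ : ℤ) → δ ≤ n₂ + 1 → e - d' ≤ Lf →
        nsq q B₀ (VV θ (Disp θ Z d') R₂ e) ≤
          C * 𝓕 * Xa * ((rhoL n₂ + |θ - q ^ 2|) * (1 / √(δ : ℝ)) ^ 5 + √(k : ℝ) * (1 / √(δ : ℝ)) ^ 8) := by
  obtain ⟨Cs₁, C₁, hCs₁, hC₁, hL1⟩ := level1 (θ₀ := θ₀) (θ₁ := θ₁) h0 h1 hθ₀ hθ₁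
  obtain ⟨Cu, hCu, hU⟩ := OL_weighted_far (θ₀ := θ₀) (θ₁ := θ₁) h0 h1 hθ₀ hθ₁
  obtain ⟨Cd, hCd, hD⟩ := disp_far (θ₀ := θ₀) (θ₁ := θ₁) h0 h1 hθ₀ hθ₁
  refine ⟨Cs₁, 2 * (2 * Cd) + 2 * (Cu * (14 * C₁)), hCs₁, by positivity, ?_⟩
  intro θ hθ δ k Lmax B₀ n₂ Lf 𝓛 𝓕 Xa Z s d' e R₂ hP hFP hZs hd's hX hZ₀ hZ₁ hpw2 hsp2 hlen2 hR2 hde hB hn₂ hLf
  have hδ2 := hP.hδ
  have hδ1 : 1 ≤ δ := by omega
  have hδ0 := hP.δ_pos
  have hδr1 : (1 : ℝ) ≤ δ := by exact_mod_cast hδ1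
  have hδr2 : (2 : ℝ) ≤ δ := by exact_mod_cast hδ2
  have h𝓕 := hFP.h𝓕
  set a : ℝ := 1 / √(δ : ℝ) with ha
  have hs0 : 0 < √(δ : ℝ) := Real.sqrt_pos.mpr hδ0
  have ha0 : 0 < a := by positivity
  have ha1 : a ≤ 1 := by
    rw [ha, div_le_one hs0, Real.one_le_sqrt]
    exact hδr1
  have ha2 : a ^ 2 = 1 / δ := by
    rw [ha, div_pow, one_pow, Real.sq_sqrt hδ0.le]
  have hLa : 𝓛 * a ≤ 1 := hP.La hCs₁
  have hska : √(k : ℝ) * a ≤ 1 := hP.ska hCs₁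
  have hsk1 : 1 ≤ √(k : ℝ) := hP.sqrtk_ge
  have hsk0 : 0 ≤ √(k : ℝ) := by linarith
  set Z2 := VV θ (Disp θ Z d') R₂ with hZ2
  have hZ2s : SuppS Z2 s := VV_supp (Disp_supp hZs d') R₂
  have hS : R₂.toFinset = R₂.toFinset := rfl
  have hψ : ∀ r ∈ R₂.toFinset, nsq q B₀ (Z2 (r - 1)) ≤
      C₁ * Xa * (2 * a ^ 5 * rhoL (r - 1 - d') + a ^ 3 * rhoL (r - 1 - d') ^ 3) := by
    intro r hr'
    have hrM := List.mem_toFinset.mp hr'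
    have := hL1 θ hθ δ k Lmax B₀ 𝓛 (Xa * a ^ 3) (Xa * a ^ 5) Z s d' R₂ hP hZs hd's hpw2 hsp2 hlen2
      (fun r' hr'' => by
        have h3 := hR2 r' hr''
        exact ⟨h3.1, h3.2.1, h3.2.2.1⟩) (by positivity) (by positivity) hZ₀ hZ₁ r hrM
    refine this.trans ?_
    have hx0 := rhoL_nonneg (r - 1 - d')
    have e1 : C₁ * ((Xa * a ^ 5 + 𝓛 * (Xa * a ^ 3) * a ^ 3) * rhoL (r - 1 - d') + Xa * a ^ 3 * rhoL (r - 1 - d') ^ 3) =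
        C₁ * Xa * ((a ^ 5 + (𝓛 * a) * a ^ 5) * rhoL (r - 1 - d') + a ^ 3 * rhoL (r - 1 - d') ^ 3) := by ring
    rw [e1]
    apply mul_le_mul_of_nonneg_left _ (by positivity)
    apply add_le_add _ le_rfl
    apply mul_le_mul_of_nonneg_right _ hx0
    have : (𝓛 * a) * a ^ 5 ≤ 1 * a ^ 5 := mul_le_mul_of_nonneg_right hLa (by positivity)
    linarith
  have hvol : Z2 e = fun t => Disp θ Z d' e t + Yk θ (NB θ) R₂.toFinset (fun r => Z2 (r - 1)) e t := by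
    funext t
    exact VV_volterra θ (Disp θ Z d') R₂ hpw2 e t
  rw [hvol]
  refine (nsq_add_le h0 h1 B₀ _ _).trans ?_
  set ε := |θ - q ^ 2| with hε
  have hε0 : 0 ≤ ε := abs_nonneg _
  set ρf := rhoL n₂ with hρf
  have hρf0 : 0 ≤ ρf := rhoL_nonneg _
  have hρfa : ρf ≤ a := rhoL_le_scale hδ1 (by exact_mod_cast hn₂)
  have hD' := hD θ hθ Z s d' e B₀ hZs hd's (by omega) hB
  have hs1 : rhoL (e - d' - 1) ≤ ρf := rhoL_anti (by positivity) (by omega)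
  have hs2 : rhoL (e - d') ≤ ρf := rhoL_anti (by positivity) (by omega)
  have hs20 := rhoL_nonneg (e - d')
  have hDb : nsq q B₀ (Disp θ Z d' e) ≤ 2 * Cd * ((ρf + ε) * (Xa * a ^ 5)) := by
    refine hD'.trans ?_
    have t1 : (rhoL (e - d' - 1) + ε) * nsq q B₀ (fun w => Z d' w - Z (d' - 1) w) ≤
        (ρf + ε) * (Xa * a ^ 5) :=
      mul_le_mul (by linarith) hZ₁ (nsq_nonneg h0 h1 _ _) (by positivity)
    have t2 : (rhoL (e - d') ^ 3 + ε * rhoL (e - d') ^ 2) * nsq q B₀ (Z (d' - 1)) ≤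
        ((ρf + ε) * a ^ 2) * (Xa * a ^ 3) := by
      apply mul_le_mul _ hZ₀ (nsq_nonneg h0 h1 _ _) (by positivity)
      have p2 := pow_le_pow_left₀ hs20 (hs2.trans hρfa) 2
      have p3' : rhoL (e - d') ^ 3 ≤ ρf * a ^ 2 := by
        calc rhoL (e - d') ^ 3 = rhoL (e - d') * rhoL (e - d') ^ 2 := by ring
          _ ≤ ρf * a ^ 2 := mul_le_mul hs2 p2 (by positivity) hρf0
      have p4 : ε * rhoL (e - d') ^ 2 ≤ ε * a ^ 2 := mul_le_mul_of_nonneg_left p2 hε0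
      linarith [mul_add ρf ε (a ^ 2), add_mul ρf ε (a ^ 2)]
    have e4 : ((ρf + ε) * a ^ 2) * (Xa * a ^ 3) = (ρf + ε) * (Xa * a ^ 5) := by ring
    rw [e4] at t2
    calc Cd * ((rhoL (e - d' - 1) + ε) * nsq q B₀ (fun w => Z d' w - Z (d' - 1) w) +
          (rhoL (e - d') ^ 3 + ε * rhoL (e - d') ^ 2) * nsq q B₀ (Z (d' - 1)))
        ≤ Cd * ((ρf + ε) * (Xa * a ^ 5) + (ρf + ε) * (Xa * a ^ 5)) :=
          mul_le_mul_of_nonneg_left (add_le_add t1 t2) hCd.le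
      _ = _ := by ring
  have hcard2 : R₂.toFinset.card ≤ k := (List.toFinset_card_le R₂).trans hlen2
  -- the weight
  set η : ℝ := 2 * a ^ 2 with hη
  have hη0 : 0 ≤ η := by positivity
  have hηeq : η = 2 / (δ : ℝ) := by
    rw [hη, ha2]
    ring
  have hηδ : 1 / (δ : ℝ) ≤ η := by
    rw [hηeq]
    apply div_le_div_of_nonneg_right _ hδ0.le
    norm_num
  have hηε : ε ≤ η := by
    have := hP.eps
    linarith
  have hη1 : η ≤ 1 := by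
    rw [hηeq, div_le_one hδ0]
    exact hδr2
  have hU' := hU θ hθ δ η R₂.toFinset (fun r => Z2 (r - 1)) B₀ d' Lf 𝓕 hδ1 hηδ hηε hsp2
    (fun r hr' => by
      have := hR2 r (List.mem_toFinset.mp hr')
      omega)
    (by
      intro r hr' w hw
      have h2 := hZ2s (r - 1) w hw
      have h3 := hR2 r (List.mem_toFinset.mp hr')
      omega)
    h𝓕 hFP.harm (by rw [hηeq]; exact hFP.small) hη1 e hLf
    (by
      intro r hr'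
      have h3 := hR2 r (List.mem_toFinset.mp hr')
      omega)
  -- the sum
  have hsum : ∑ r ∈ R₂.toFinset.filter (· ≤ e), nsq q B₀ (Z2 (r - 1)) * (rhoL (e - r) + η) ≤
      (ρf + η) * (7 * C₁ * Xa * (√(k : ℝ) * a ^ 6)) := by
    have hb : ∀ r ∈ R₂.toFinset.filter (· ≤ e), nsq q B₀ (Z2 (r - 1)) * (rhoL (e - r) + η) ≤
        (ρf + η) * (C₁ * Xa * (2 * a ^ 5 * rhoL (r - 1 - d') + a ^ 3 * rhoL (r - 1 - d') ^ 3)) := by
      intro r hr'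
      have hr0 := (mem_filter.mp hr').1
      have h3 := hR2 r (List.mem_toFinset.mp hr0)
      have h4 : rhoL (e - r) ≤ ρf := rhoL_anti (by positivity) (by omega)
      have h5 := hψ r hr0
      have h6 := rhoL_nonneg (e - r)
      have h7 := nsq_nonneg (q := q) h0 h1 B₀ (Z2 (r - 1))
      calc nsq q B₀ (Z2 (r - 1)) * (rhoL (e - r) + η)
          ≤ nsq q B₀ (Z2 (r - 1)) * (ρf + η) := mul_le_mul_of_nonneg_left (by linarith) h7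
        _ ≤ (C₁ * Xa * (2 * a ^ 5 * rhoL (r - 1 - d') + a ^ 3 * rhoL (r - 1 - d') ^ 3)) * (ρf + η) :=
            mul_le_mul_of_nonneg_right h5 (by positivity)
        _ = _ := by ring
    refine (sum_le_sum hb).trans ?_
    rw [← mul_sum, ← mul_sum]
    apply mul_le_mul_of_nonneg_left _ (by positivity)
    -- the two spaced sums
    set T := R₂.toFinset.filter (· ≤ e) with hT
    have hTsp : Spaced T δ := hsp2.mono (filter_subset _ _)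
    have hTc : T.card ≤ k := (card_le_card (filter_subset _ _)).trans hcard2
    have hspa : ∑ r' ∈ T, rhoL (r' - 1 - d') ≤ 2 * √(k : ℝ) * a := by
      have := spaced_rho1_right (S := T) (Y := d' + 1) (k := k) hδ1 hTsp hTc (by
        intro r' hr''
        have h3 := (hR2 r' (List.mem_toFinset.mp (mem_filter.mp hr'').1)).1
        omega)
      refine le_trans (le_of_eq ?_) this
      apply sum_congr rfl
      intro r' _
      congr 1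
      ring
    have hspa3 : ∑ r' ∈ T, rhoL (r' - 1 - d') ^ 3 ≤ 3 * a ^ 3 := by
      have := spaced_rho3_right (S := T) (Y := d' + 1) hδ1 hTsp (by
        intro r' hr''
        have h3 := (hR2 r' (List.mem_toFinset.mp (mem_filter.mp hr'').1)).1
        omega)
      refine le_trans (le_of_eq ?_) this
      apply sum_congr rfl
      intro r' _
      congr 2
      ring
    rw [sum_add_distrib, ← mul_sum, ← mul_sum]
    have t1 : 2 * a ^ 5 * ∑ r' ∈ T, rhoL (r' - 1 - d') ≤ 2 * a ^ 5 * (2 * √(k : ℝ) * a) :=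
      mul_le_mul_of_nonneg_left hspa (by positivity)
    have t2 : a ^ 3 * ∑ r' ∈ T, rhoL (r' - 1 - d') ^ 3 ≤ a ^ 3 * (3 * a ^ 3) :=
      mul_le_mul_of_nonneg_left hspa3 (by positivity)
    have t3 : a ^ 6 ≤ √(k : ℝ) * a ^ 6 := by
      have : 0 ≤ a ^ 6 := by positivity
      nlinarith
    have t4 : 2 * a ^ 5 * ∑ r' ∈ T, rhoL (r' - 1 - d') + a ^ 3 * ∑ r' ∈ T, rhoL (r' - 1 - d') ^ 3 ≤
        7 * (√(k : ℝ) * a ^ 6) := by
      have e1 : 2 * a ^ 5 * (2 * √(k : ℝ) * a) = 4 * (√(k : ℝ) * a ^ 6) := by ring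
      have e2 : a ^ 3 * (3 * a ^ 3) = 3 * a ^ 6 := by ring
      linarith
    have := mul_le_mul_of_nonneg_left t4 (by positivity : 0 ≤ C₁ * Xa)
    refine this.trans (le_of_eq ?_)
    ring
  have hYb : nsq q B₀ (Yk θ (NB θ) R₂.toFinset (fun r => Z2 (r - 1)) e) ≤
      Cu * 𝓕 * ((ρf + η) * (7 * C₁ * Xa * (√(k : ℝ) * a ^ 6))) :=
    hU'.trans (mul_le_mul_of_nonneg_left hsum (by positivity))
  have hka6 : √(k : ℝ) * a ^ 6 ≤ a ^ 5 := by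
    have : √(k : ℝ) * a ^ 6 = (√(k : ℝ) * a) * a ^ 5 := by ring
    rw [this]
    have h5 : 0 ≤ a ^ 5 := by positivity
    exact mul_le_of_le_one_left h5 hska
  set T := (ρf + ε) * a ^ 5 + √(k : ℝ) * a ^ 8 with hT
  have hT0 : 0 ≤ T := by positivity
  have hY2 : Cu * 𝓕 * ((ρf + η) * (7 * C₁ * Xa * (√(k : ℝ) * a ^ 6))) ≤ Cu * (14 * C₁) * 𝓕 * Xa * T := by
    have e5 : Cu * 𝓕 * ((ρf + η) * (7 * C₁ * Xa * (√(k : ℝ) * a ^ 6))) =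
        Cu * (14 * C₁) * 𝓕 * Xa * ((1 / 2) * (ρf * (√(k : ℝ) * a ^ 6)) + √(k : ℝ) * a ^ 8) := by
      rw [hη]
      ring
    rw [e5]
    apply mul_le_mul_of_nonneg_left _ (by positivity)
    have t1 : ρf * (√(k : ℝ) * a ^ 6) ≤ ρf * a ^ 5 := mul_le_mul_of_nonneg_left hka6 hρf0
    have t2 : 0 ≤ ε * a ^ 5 := by positivity
    have t3 : 0 ≤ ρf * (√(k : ℝ) * a ^ 6) := by positivity
    rw [hT]
    nlinarith
  have hD2 : 2 * Cd * ((ρf + ε) * (Xa * a ^ 5)) ≤ 2 * Cd * 𝓕 * Xa * T := by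
    have e6 : 2 * Cd * ((ρf + ε) * (Xa * a ^ 5)) = 2 * Cd * Xa * ((ρf + ε) * a ^ 5) := by ring
    rw [e6]
    have t1 : (ρf + ε) * a ^ 5 ≤ T := by
      have : 0 ≤ √(k : ℝ) * a ^ 8 := by positivity
      rw [hT]
      linarith
    have t2 : 0 ≤ 2 * Cd * Xa := by positivity
    calc 2 * Cd * Xa * ((ρf + ε) * a ^ 5) ≤ 2 * Cd * Xa * T := mul_le_mul_of_nonneg_left t1 t2
      _ = 1 * (2 * Cd * Xa * T) := by ring
      _ ≤ 𝓕 * (2 * Cd * Xa * T) := mul_le_mul_of_nonneg_right h𝓕 (by positivity)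
      _ = _ := by ring
  have hfinal : (2 * (2 * Cd) + 2 * (Cu * (14 * C₁))) * 𝓕 * Xa * T =
      2 * (2 * Cd * 𝓕 * Xa * T) + 2 * (Cu * (14 * C₁) * 𝓕 * Xa * T) := by ring
  rw [hfinal]
  have h8 := hDb.trans hD2
  have h9 := hYb.trans hY2
  linarith

/-- Double displacement. -/
theorem final_disp2 {q θ₀ θ₁ : ℝ} (h0 : 0 < q) (h1 : q < 1) (hθ₀ : 0 < θ₀) (hθ₁ : θ₁ < 1) :
    ∃ Cs C : ℝ, 1 ≤ Cs ∧ 0 < C ∧ ∀ θ ∈ Set.Icc θ₀ θ₁,
      ∀ (δ k Lmax B₀ n₁ n₂ Lf : ℕ) (𝓛 𝓕 : ℝ) (s I₀ d d' e : ℤ) (M R₁ R₂ : List ℤ), Par q θ δ k Lmax 𝓛 Cs →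
        FarPar δ Lf 𝓕 →
        (d :: M).Pairwise (· > ·) → Spaced (d :: M).toFinset δ → (d :: M).length ≤ k → s ≤ I₀ →
        (∀ r ∈ d :: M, I₀ ≤ r ∧ r - 1 - I₀ ≤ Lmax ∧ s + n₁ + 1 ≤ r ∧ 2 * (r - s) ≤ (B₀ : ℤ)) →
        (d' :: R₁).Pairwise (· > ·) → Spaced (d' :: R₁).toFinset δ → (d' :: R₁).length ≤ k →
        (∀ r ∈ d' :: R₁, d + δ ≤ r ∧ r - 1 - d ≤ Lmax ∧ 2 * (r - s) ≤ (B₀ : ℤ)) →
        R₂.Pairwise (· > ·) → Spaced R₂.toFinset δ → R₂.length ≤ k →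
        (∀ r ∈ R₂, d' + δ ≤ r ∧ r - 1 - d' ≤ Lmax ∧ 2 * (r - 1 - s) ≤ (B₀ : ℤ) ∧ r + n₂ ≤ e) →
        d' + 1 + n₂ ≤ e → 2 * (e - s) ≤ (B₀ : ℤ) → rhoL n₁ ^ 2 ≤ (1 / √(δ : ℝ)) ^ 3 → δ ≤ n₂ + 1 → e - d' ≤ Lf →
        nsq q B₀ (fun t =>
          (VV θ (F0 θ s) (R₂ ++ (d' + 1) :: (R₁ ++ (d + 1) :: M)) e t -
            VV θ (F0 θ s) (R₂ ++ d' :: (R₁ ++ (d + 1) :: M)) e t) -
          (VV θ (F0 θ s) (R₂ ++ (d' + 1) :: (R₁ ++ d :: M)) e t -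
            VV θ (F0 θ s) (R₂ ++ d' :: (R₁ ++ d :: M)) e t)) ≤
          C * 𝓕 * rhoL n₁ * ((rhoL n₂ + |θ - q ^ 2|) * (1 / √(δ : ℝ)) ^ 5 + √(k : ℝ) * (1 / √(δ : ℝ)) ^ 8) := by
  obtain ⟨Cs₀, C₀, hCs₀, hC₀, hI⟩ := disp2_inputs (θ₀ := θ₀) (θ₁ := θ₁) h0 h1 hθ₀ hθ₁
  obtain ⟨Cs₁, C₁, hCs₁, hC₁, hF⟩ := disp2_far (θ₀ := θ₀) (θ₁ := θ₁) h0 h1 hθ₀ hθ₁
  refine ⟨max Cs₀ Cs₁, C₁ * C₀, le_max_of_le_left hCs₀, by positivity, ?_⟩
  intro θ hθ δ k Lmax B₀ n₁ n₂ Lf 𝓛 𝓕 s I₀ d d' e M R₁ R₂ hP hFP hpw hsp hlen hsI hM hpw1 hsp1 hlen1 hR1 hpw2 hsp2 hlen2 hR2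
    hde hB hρ hn₂ hLf
  have hPa := hP.mono (le_max_left Cs₀ Cs₁)
  have hPb := hP.mono (le_max_right Cs₀ Cs₁)
  set g := VV θ (F0 θ s) M with hg
  have hg' : SuppS g s := VV_supp (Fk_supp θ [] s) M
  set Z := VV θ (Disp θ g d) R₁ with hZ
  have hZs : SuppS Z s := VV_supp (Disp_supp hg' d) R₁
  have e1 : (fun t =>
          (VV θ (F0 θ s) (R₂ ++ (d' + 1) :: (R₁ ++ (d + 1) :: M)) e t -
            VV θ (F0 θ s) (R₂ ++ d' :: (R₁ ++ (d + 1) :: M)) e t) -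
          (VV θ (F0 θ s) (R₂ ++ (d' + 1) :: (R₁ ++ d :: M)) e t -
            VV θ (F0 θ s) (R₂ ++ d' :: (R₁ ++ d :: M)) e t)) = VV θ (Disp θ Z d') R₂ e := by
    funext t
    exact VV_disp_disp θ (F0 θ s) R₂ d' R₁ d M e t
  rw [e1]
  obtain ⟨hZ₀, hZ₁⟩ := hI θ hθ δ k Lmax B₀ n₁ 𝓛 s I₀ d d' M R₁ hPa hpw hsp hlen hsI hM hpw1 hsp1 hlen1 hR1 hρ
  have hds : s ≤ d := by
    have := hM d (by simp)
    omega
  have hd'mem := hR1 d' (by simp)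
  have hr := rhoL_nonneg n₁
  have hF' := hF θ hθ δ k Lmax B₀ n₂ Lf 𝓛 𝓕 (C₀ * rhoL n₁) Z s d' e R₂ hPb hFP hZs (by omega) (by positivity)
    (by
      refine hZ₀.trans (le_of_eq ?_)
      ring)
    (by
      refine hZ₁.trans (le_of_eq ?_)
      ring) hpw2 hsp2 hlen2 hR2 hde hB hn₂ hLf
  refine hF'.trans (le_of_eq ?_)
  ring

/-- Expansions with kernels on both outer blocks. -/
theorem final_moment {q θ₀ θ₁ : ℝ} (h0 : 0 < q) (h1 : q < 1) (hθ₀ : 0 < θ₀) (hθ₁ : θ₁ < 1) (t₁ t₂ : ℕ) :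
    ∃ Cs C : ℝ, 1 ≤ Cs ∧ 0 < C ∧ ∀ θ ∈ Set.Icc θ₀ θ₁, ∀ as₁ as₂ : List ℕ, as₁.length = t₁ → as₂.length = t₂ →
      (∀ a ∈ as₁, 1 ≤ a) → (∀ a ∈ as₂, 1 ≤ a) →
      ∀ (δ k Lmax B₀ n₁ n₂ : ℕ) (𝓛 : ℝ) (s I₀ e : ℤ) (M : List ℤ), Par q θ δ k Lmax 𝓛 Cs →
        M.Pairwise (· > ·) → Spaced M.toFinset δ → M.length ≤ k → s ≤ I₀ →
        (∀ r ∈ M, I₀ ≤ r ∧ r - 1 - I₀ ≤ Lmax ∧ s + n₁ + 1 ≤ r ∧ 2 * (r - 1 - s) ≤ (B₀ : ℤ) ∧ r + n₂ ≤ e) →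
        (as₁.sum : ℤ) * 4 ≤ n₁ + 1 → (as₂.sum : ℤ) * 4 ≤ n₂ + 1 → 2 * (e - I₀) ≤ (B₀ : ℤ) →
        nsq q B₀ (Yk θ (ker θ as₂) M.toFinset (fun r => VV θ (Fk θ as₁ s) M (r - 1)) e) ≤
          C * (as₁.prod : ℝ) ^ 2 * (as₂.prod : ℝ) ^ 2 * rhoL n₁ ^ (2 * t₁ + 1) * rhoL n₂ ^ (2 * t₂) * k *
            ((1 / √(δ : ℝ)) ^ 2 + rhoL n₂ + |θ - q ^ 2|) := by
  obtain ⟨Cs₀, C₀, hCs₀, hC₀, hL0⟩ := level0_sup (θ₀ := θ₀) (θ₁ := θ₁) h0 h1 hθ₀ hθ₁ t₁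
  obtain ⟨Cu, hCu, hU⟩ := OL_unif (θ₀ := θ₀) (θ₁ := θ₁) h0 h1 hθ₀ hθ₁ t₂
  refine ⟨Cs₀, Cu * C₀, hCs₀, by positivity, ?_⟩
  intro θ hθ as₁ as₂ h₁ h₂ hp₁ hp₂ δ k Lmax B₀ n₁ n₂ 𝓛 s I₀ e M hP hpw hsp hlen hsI hM hs₁ hs₂ hB
  have hδ2 := hP.hδ
  have hδ1 : 1 ≤ δ := by omega
  have hδ0 := hP.δ_pos
  have hkδ := hP.k_le hCs₀
  have hcard : M.toFinset.card ≤ k := (List.toFinset_card_le M).trans hlen
  set P₁ : ℝ := (as₁.prod : ℝ) with hP₁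
  set P₂ : ℝ := (as₂.prod : ℝ) with hP₂
  have hP₁0 : 0 ≤ P₁ := by rw [hP₁]; positivity
  have hP₂0 : 0 ≤ P₂ := by rw [hP₂]; positivity
  have hr := rhoL_nonneg n₁
  have hψ0 : 0 ≤ C₀ * P₁ ^ 2 * rhoL n₁ ^ (2 * t₁ + 1) := by positivity
  have hψ : ∀ r ∈ M.toFinset, nsq q B₀ (VV θ (Fk θ as₁ s) M (r - 1)) ≤
      (√(C₀ * P₁ ^ 2 * rhoL n₁ ^ (2 * t₁ + 1))) ^ 2 := by
    intro r hr'
    rw [Real.sq_sqrt hψ0]
    exact hL0 θ hθ as₁ h₁ hp₁ δ k Lmax B₀ n₁ 𝓛 s I₀ M hP hpw hsp hlen hsI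
      (fun r' hr'' => by
        have := hM r' hr''
        exact ⟨this.1, this.2.1, this.2.2.1, this.2.2.2.1⟩) hs₁ r (List.mem_toFinset.mp hr')
  have hSupp : SuppS (VV θ (Fk θ as₁ s) M) s := VV_supp (Fk_supp θ as₁ s) M
  have hU' := hU θ hθ as₂ h₂ hp₂ δ k M.toFinset (fun r => VV θ (Fk θ as₁ s) M (r - 1)) B₀ e I₀
    (√(C₀ * P₁ ^ 2 * rhoL n₁ ^ (2 * t₁ + 1))) hδ1 hsp hcard hkδ hP.eps
    (fun r hr' => (hM r (List.mem_toFinset.mp hr')).1)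
    (by
      intro r hr' w hw
      have h2 := hSupp (r - 1) w hw
      have h3 := hM r (List.mem_toFinset.mp hr')
      omega)
    (by
      intro r hr'
      have h3 := hM r (List.mem_toFinset.mp hr')
      omega)
    (by
      intro r hr' _
      have h3 := hM r (List.mem_toFinset.mp hr')
      left
      omega)
    (by positivity) hψ
  rw [Real.sq_sqrt hψ0] at hU'
  refine hU'.trans ?_
  set a : ℝ := 1 / √(δ : ℝ) with ha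
  have ha2 : a ^ 2 = 1 / δ := by
    rw [ha, div_pow, one_pow, Real.sq_sqrt hδ0.le]
  set ε := |θ - q ^ 2| with hε
  have hε0 : 0 ≤ ε := abs_nonneg _
  set ρf := rhoL n₂ with hρf
  have hρf0 : 0 ≤ ρf := rhoL_nonneg _
  have hsum : ∑ r ∈ M.toFinset.filter (· ≤ e), (rhoL (e - r) ^ (2 * t₂) / δ + rhoL (e - r) ^ (2 * t₂ + 1) +
      ε * rhoL (e - r) ^ (2 * t₂)) ≤ k * (ρf ^ (2 * t₂) * (a ^ 2 + ρf + ε)) := by
    have hb : ∀ r ∈ M.toFinset.filter (· ≤ e), rhoL (e - r) ^ (2 * t₂) / δ + rhoL (e - r) ^ (2 * t₂ + 1) +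
      ε * rhoL (e - r) ^ (2 * t₂) ≤ ρf ^ (2 * t₂) * (a ^ 2 + ρf + ε) := by
      intro r hr'
      have h3 := hM r (List.mem_toFinset.mp (mem_filter.mp hr').1)
      have hx : rhoL (e - r) ≤ ρf := rhoL_anti (by positivity) (by omega)
      have hx0 := rhoL_nonneg (e - r)
      have p1 := pow_le_pow_left₀ hx0 hx (2 * t₂)
      have p2 := pow_le_pow_left₀ hx0 hx (2 * t₂ + 1)
      rw [ha2]
      have e1 : ρf ^ (2 * t₂) * (1 / δ + ρf + ε) = ρf ^ (2 * t₂) / δ + ρf ^ (2 * t₂ + 1) + ε * ρf ^ (2 * t₂) := by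
        rw [pow_succ]
        ring
      rw [e1]
      have t1 : rhoL (e - r) ^ (2 * t₂) / δ ≤ ρf ^ (2 * t₂) / δ :=
        div_le_div_of_nonneg_right p1 hδ0.le
      have t2 : ε * rhoL (e - r) ^ (2 * t₂) ≤ ε * ρf ^ (2 * t₂) := mul_le_mul_of_nonneg_left p1 hε0
      linarith
    refine (sum_le_sum hb).trans ?_
    rw [sum_const, nsmul_eq_mul]
    apply mul_le_mul_of_nonneg_right _ (by positivity)
    have : (M.toFinset.filter (· ≤ e)).card ≤ k := (card_le_card (filter_subset _ _)).trans hcard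
    exact_mod_cast this
  have := mul_le_mul_of_nonneg_left hsum (by positivity :
    0 ≤ Cu * P₂ ^ 2 * (C₀ * P₁ ^ 2 * rhoL n₁ ^ (2 * t₁ + 1)))
  refine this.trans (le_of_eq ?_)
  ring

end Vale.Agent.Lib.P321B
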