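import Vale.Agent.Lib.P321.Moment
import Vale.Agent.Lib.P321B.LevelsB

/-!
P321: the moment bound for the new parameters.
-/

namespace Vale.Agent.Lib.P321B

open Finset Vale.Agent.Lib.P321

/-- The constants of `final_moment`, uniformly for all splittings of `t`. -/
theorem final_moment_all {q θ₀ θ₁ : ℝ} (h0 : 0 < q) (h1 : q < 1) (hθ₀ : 0 < θ₀) (hθ₁ : θ₁ < 1) (t : ℕ) :
    ∃ Cs C : ℝ, 1 ≤ Cs ∧ 0 < C ∧ ∀ t₁ t₂ : ℕ, t₁ + t₂ = t → ∀ θ ∈ Set.Icc θ₀ θ₁, ∀ as₁ as₂ : List ℕ,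
      as₁.length = t₁ → as₂.length = t₂ → (∀ a ∈ as₁, 1 ≤ a) → (∀ a ∈ as₂, 1 ≤ a) →
      ∀ (δ k Lmax B₀ n₁ n₂ : ℕ) (𝓛 : ℝ) (s I₀ e : ℤ) (M : List ℤ), Par q θ δ k Lmax 𝓛 Cs →
        M.Pairwise (· > ·) → Spaced M.toFinset δ → M.length ≤ k → s ≤ I₀ →
        (∀ r ∈ M, I₀ ≤ r ∧ r - 1 - I₀ ≤ Lmax ∧ s + n₁ + 1 ≤ r ∧ 2 * (r - 1 - s) ≤ (B₀ : ℤ) ∧ r + n₂ ≤ e) →
        (as₁.sum : ℤ) * 4 ≤ n₁ + 1 → (as₂.sum : ℤ) * 4 ≤ n₂ + 1 → 2 * (e - I₀) ≤ (B₀ : ℤ) →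
        nsq q B₀ (Yk θ (ker θ as₂) M.toFinset (fun r => VV θ (Fk θ as₁ s) M (r - 1)) e) ≤
          C * (as₁.prod : ℝ) ^ 2 * (as₂.prod : ℝ) ^ 2 * rhoL n₁ ^ (2 * t₁ + 1) * rhoL n₂ ^ (2 * t₂) * k *
            ((1 / √(δ : ℝ)) ^ 2 + rhoL n₂ + |θ - q ^ 2|) := by
  have hex := fun i : ℕ => final_moment (θ₀ := θ₀) (θ₁ := θ₁) h0 h1 hθ₀ hθ₁ i (t - i)
  choose Cs C hCs hC hmain using hex
  refine ⟨1 + ∑ i ∈ range (t + 1), Cs i, 1 + ∑ i ∈ range (t + 1), C i, ?_, ?_, ?_⟩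
  · have : 0 ≤ ∑ i ∈ range (t + 1), Cs i := sum_nonneg fun i _ => by linarith [hCs i]
    linarith
  · have : 0 ≤ ∑ i ∈ range (t + 1), C i := sum_nonneg fun i _ => (hC i).le
    linarith
  · intro t₁ t₂ htt θ hθ as₁ as₂ h₁ h₂ hp₁ hp₂ δ k Lmax B₀ n₁ n₂ 𝓛 s I₀ e M hP hpw hsp hlen hsI hM hs₁ hs₂ hB
    have ht₁ : t₁ ∈ range (t + 1) := mem_range.mpr (by omega)
    have ht₂ : t - t₁ = t₂ := by omega
    have hle1 : Cs t₁ ≤ 1 + ∑ i ∈ range (t + 1), Cs i := by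
      have := single_le_sum (f := Cs) (fun i _ => by linarith [hCs i]) ht₁
      linarith
    have hle2 : C t₁ ≤ 1 + ∑ i ∈ range (t + 1), C i := by
      have := single_le_sum (f := C) (fun i _ => (hC i).le) ht₁
      linarith
    have hm := hmain t₁ θ hθ as₁ as₂ h₁ (by rw [ht₂]; exact h₂) hp₁ hp₂ δ k Lmax B₀ n₁ n₂ 𝓛 s I₀ e M (hP.mono hle1)
      hpw hsp hlen hsI hM hs₁ hs₂ hB
    rw [ht₂] at hm
    refine hm.trans ?_
    have hr := rhoL_nonneg (n₁ : ℤ)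
    have hr2 := rhoL_nonneg (n₂ : ℤ)
    have hε := abs_nonneg (θ - q ^ 2)
    apply mul_le_mul_of_nonneg_right _ (by positivity)
    apply mul_le_mul_of_nonneg_right _ (by positivity)
    apply mul_le_mul_of_nonneg_right _ (by positivity)
    apply mul_le_mul_of_nonneg_right _ (by positivity)
    apply mul_le_mul_of_nonneg_right _ (by positivity)
    apply mul_le_mul_of_nonneg_right hle2 (by positivity)

/-- Moment bound for one list of sites. -/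
theorem moment_bound {q θ₀ θ₁ : ℝ} (h0 : 0 < q) (h1 : q < 1) (hθ₀ : 0 < θ₀) (hθ₁ : θ₁ < 1) (t : ℕ) :
    ∃ Cs C : ℝ, 1 ≤ Cs ∧ 0 < C ∧ ∀ θ ∈ Set.Icc θ₀ θ₁,
      ∀ (D δ k Lmax B₀ n₁ n₂ : ℕ) (𝓛 : ℝ) (s I₀ e : ℤ) (L : List ℤ), Par q θ δ k Lmax 𝓛 Cs → 1 ≤ D →
        L.Pairwise (· > ·) → Spaced L.toFinset δ → L.length ≤ k → s ≤ I₀ →
        (∀ r ∈ L, I₀ ≤ r ∧ r - 1 - I₀ ≤ Lmax ∧ s + n₁ + 1 ≤ r ∧
          2 * (r - 1 - s + (t : ℤ) * (2 ^ t * D : ℕ)) ≤ (B₀ : ℤ) ∧ r + n₂ ≤ e) →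
        ((t * (2 ^ t * D) : ℕ) : ℤ) * 4 ≤ n₁ + 1 → ((t * (2 ^ t * D) : ℕ) : ℤ) * 4 ≤ n₂ + 1 → n₁ ≤ n₂ →
        2 * (e - I₀) ≤ (B₀ : ℤ) →
        nsq q B₀ (TMsum t (phiB θ L D [] [] s e)) ≤
          4 ^ t * (C * (((2 ^ t * D : ℕ) : ℝ) ^ t) ^ 2 * rhoL n₁ ^ (2 * t + 1) * k *
            ((1 / √(δ : ℝ)) ^ 2 + rhoL n₂ + |θ - q ^ 2|)) := by
  obtain ⟨Cs, C, hCs, hC, hF⟩ := final_moment_all (θ₀ := θ₀) (θ₁ := θ₁) h0 h1 hθ₀ hθ₁ t
  refine ⟨Cs, C, hCs, hC, ?_⟩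
  intro θ hθ D δ k Lmax B₀ n₁ n₂ 𝓛 s I₀ e L hP hD hpw hsp hlen hsI hL hn₁ hn₂ hn₁₂ hB
  have hsum_le : ∀ as : List ℕ, (∀ a ∈ as, 1 ≤ a ∧ a ≤ 2 ^ t * D) → as.length ≤ t →
      (as.sum : ℤ) ≤ ((t * (2 ^ t * D) : ℕ) : ℤ) := by
    intro as h hlen'
    have h2 : as.sum ≤ as.length * (2 ^ t * D) := by
      have := List.sum_le_card_nsmul as (2 ^ t * D) (fun x hx => (h x hx).2)
      simpa using this
    have h3 : as.length * (2 ^ t * D) ≤ t * (2 ^ t * D) := Nat.mul_le_mul_right _ hlen'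
    exact_mod_cast h2.trans h3
  have hbound := TM_phi_bound h0 h1 θ L D t B₀ s e
    (C * (((2 ^ t * D : ℕ) : ℝ) ^ t) ^ 2 * rhoL n₁ ^ (2 * t + 1) * k *
            ((1 / √(δ : ℝ)) ^ 2 + rhoL n₂ + |θ - q ^ 2|))
    (by
      intro as₁ as₂ s' hlen' h₁ h₂ hs₁ hs₂
      have hm := hF as₁.length as₂.length hlen' θ hθ as₁ as₂ rfl rfl (fun a ha => (h₁ a ha).1)
        (fun a ha => (h₂ a ha).1) δ k Lmax B₀ n₁ n₂ 𝓛 s' I₀ e L hP hpw hsp hlen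
        (by omega)
        (by
          intro r hr
          have := hL r hr
          refine ⟨this.1, this.2.1, by omega, ?_, this.2.2.2.2⟩
          have h3 := this.2.2.2.1
          push_cast at h3 hs₁ ⊢
          linarith)
        (by
          have := hsum_le as₁ h₁ (by omega)
          omega)
        (by
          have := hsum_le as₂ h₂ (by omega)
          omega)
        hB
      unfold BB
      refine hm.trans ?_
      -- product bound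
      set Am : ℕ := 2 ^ t * D with hAm
      have hp1 : as₁.prod ≤ Am ^ as₁.length := List.prod_le_pow_card as₁ Am (fun x hx => (h₁ x hx).2)
      have hp2 : as₂.prod ≤ Am ^ as₂.length := List.prod_le_pow_card as₂ Am (fun x hx => (h₂ x hx).2)
      have hp3 : ((as₁.prod : ℕ) : ℝ) * (as₂.prod : ℝ) ≤ (Am : ℝ) ^ t := by
        have : as₁.prod * as₂.prod ≤ Am ^ as₁.length * Am ^ as₂.length := Nat.mul_le_mul hp1 hp2
        rw [← pow_add, hlen'] at this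
        exact_mod_cast this
      have hp4 : ((as₁.prod : ℕ) : ℝ) ^ 2 * (as₂.prod : ℝ) ^ 2 ≤ ((Am : ℝ) ^ t) ^ 2 := by
        rw [← mul_pow]
        exact pow_le_pow_left₀ (by positivity) hp3 2
      have hr1 := rhoL_nonneg (n₁ : ℤ)
      have hr2 := rhoL_nonneg (n₂ : ℤ)
      have hr12 : rhoL n₂ ≤ rhoL n₁ := rhoL_anti (by positivity) (by exact_mod_cast hn₁₂)
      have hp5 : rhoL n₁ ^ (2 * as₁.length + 1) * rhoL n₂ ^ (2 * as₂.length) ≤ rhoL n₁ ^ (2 * t + 1) := by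
        have e1 : rhoL n₁ ^ (2 * t + 1) = rhoL n₁ ^ (2 * as₁.length + 1) * rhoL n₁ ^ (2 * as₂.length) := by
          rw [← pow_add]
          congr 1
          omega
        rw [e1]
        apply mul_le_mul_of_nonneg_left _ (by positivity)
        exact pow_le_pow_left₀ hr2 hr12 _
      have hε := abs_nonneg (θ - q ^ 2)
      have hk0 : (0 : ℝ) ≤ k := by positivity
      set G := (k : ℝ) * ((1 / √(δ : ℝ)) ^ 2 + rhoL n₂ + |θ - q ^ 2|) with hG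
      have hG0 : 0 ≤ G := by positivity
      have e6 : C * (as₁.prod : ℝ) ^ 2 * (as₂.prod : ℝ) ^ 2 * rhoL n₁ ^ (2 * as₁.length + 1) *
          rhoL n₂ ^ (2 * as₂.length) * k * ((1 / √(δ : ℝ)) ^ 2 + rhoL n₂ + |θ - q ^ 2|) =
          C * ((as₁.prod : ℝ) ^ 2 * (as₂.prod : ℝ) ^ 2) * (rhoL n₁ ^ (2 * as₁.length + 1) *
          rhoL n₂ ^ (2 * as₂.length)) * G := by
        rw [hG]
        ring
      have e7 : C * ((Am : ℝ) ^ t) ^ 2 * rhoL n₁ ^ (2 * t + 1) * k * ((1 / √(δ : ℝ)) ^ 2 + rhoL n₂ + |θ - q ^ 2|) =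
          C * ((Am : ℝ) ^ t) ^ 2 * rhoL n₁ ^ (2 * t + 1) * G := by
        rw [hG]
        ring
      rw [e6, e7]
      apply mul_le_mul_of_nonneg_right _ hG0
      apply mul_le_mul _ hp5 (by positivity) (by positivity)
      exact mul_le_mul_of_nonneg_left hp4 hC.le)
    hD t [] [] s (by simp) (by simp) (by simp) (by simp) (le_refl s)
  exact hbound

end Vale.Agent.Lib.P321B
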