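import Vale.Agent.Lib.P321.Config
import Vale.Agent.Lib.P321B.MomentB

/-!
P321: lists of sites given by position functions, new parameters.
-/

namespace Vale.Agent.Lib.P321B

open Finset Vale.Agent.Lib.P321

/-- Inserting the last site on lists given by positions. -/
theorem ins_ap {q θ₀ θ₁ : ℝ} (h0 : 0 < q) (h1 : q < 1) (hθ₀ : 0 < θ₀) (hθ₁ : θ₁ < 1) :
    ∃ Cs C : ℝ, 1 ≤ Cs ∧ 0 < C ∧ ∀ θ ∈ Set.Icc θ₀ θ₁,
      ∀ (δ k Lmax B₀ n₁ : ℕ) (𝓛 : ℝ) (s e : ℤ) (f f₁ : ℤ → ℤ) (top bot : ℕ), Par q θ δ k Lmax 𝓛 Cs →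
        Gap f δ → Gap f₁ δ → f₁ 0 = f 0 + 1 → (∀ j, j ≠ 0 → f₁ j = f j) →
        top + 1 + bot + 1 ≤ k →
        s + n₁ + 1 ≤ f (-(bot : ℤ)) → f (top + 1) ≤ e → 2 * (e - s) ≤ (B₀ : ℤ) →
        f (top + 1) - 1 - f (-(bot : ℤ)) ≤ Lmax →
        rhoL n₁ ^ 2 ≤ (1 / √(δ : ℝ)) ^ 3 →
        nsq q B₀ (fun t =>
          (VV θ (F0 θ s) (apL f₁ (top + 1) (top + 1 + bot + 1)) e t -
            VV θ (F0 θ s) (apL f₁ top (top + 1 + bot)) e t) -
          (VV θ (F0 θ s) (apL f (top + 1) (top + 1 + bot + 1)) e t -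
            VV θ (F0 θ s) (apL f top (top + 1 + bot)) e t)) ≤
          C * (rhoL (e - f (top + 1)) + |θ - q ^ 2|) * rhoL n₁ *
            (𝓛 * (1 / √(δ : ℝ)) ^ 3 * rhoL (f (top + 1) - 1 - f 0) + rhoL (f (top + 1) - 1 - f 0) ^ 3) := by
  obtain ⟨Cs, C, hCs, hC, hF⟩ := final_ins (θ₀ := θ₀) (θ₁ := θ₁) h0 h1 hθ₀ hθ₁
  refine ⟨Cs, C, hCs, hC, ?_⟩
  intro θ hθ δ k Lmax B₀ n₁ 𝓛 s e f f₁ top bot hP hf hf₁ h₀ hne hk hs he hB hzone hρ
  have hδ2 := hP.hδ
  have hδ1 : 1 ≤ δ := by omega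
  set R := apL f (top : ℤ) top with hR
  set M := apL f (-1) bot with hM
  set d := f 0 with hd
  set b := f (top + 1) with hb
  have hs1 : apL f top (top + 1 + bot) = R ++ d :: M := by
    rw [apL_split]
    simp [hR, hM, hd]
  have hs2 : apL f₁ top (top + 1 + bot) = R ++ (d + 1) :: M := by
    rw [apL_split]
    have e1 : apL f₁ (top : ℤ) top = R := by
      apply apL_congr
      intro j' h2 _
      apply hne
      omega
    have e2 : apL f₁ ((top : ℤ) - top - 1) bot = M := by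
      have : (top : ℤ) - top - 1 = -1 := by ring
      rw [this]
      apply apL_congr
      intro j' _ h3
      apply hne
      omega
    rw [e1, e2]
    simp [h₀, hd]
  have hs3 : apL f (top + 1) (top + 1 + bot + 1) = b :: (R ++ d :: M) := by
    rw [apL_succ, ← hs1]
    simp [hb]
  have hs4 : apL f₁ (top + 1) (top + 1 + bot + 1) = b :: (R ++ (d + 1) :: M) := by
    rw [apL_succ, ← hs2]
    have : f₁ ((top : ℤ) + 1) = b := hne _ (by omega)
    simp [this]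
  rw [hs1, hs2, hs3, hs4]
  have hdM : d :: M = apL f 0 (bot + 1) := by
    rw [apL_succ]
    simp [hM, hd]
  have hbR : b :: R = apL f (top + 1) (top + 1) := by
    rw [apL_succ]
    simp [hR, hb]
  have hmonoL : ∀ j', -(bot : ℤ) ≤ j' → f (-(bot : ℤ)) ≤ f j' := fun j' h => hf.mono h
  have hmonoR : ∀ j', j' ≤ (top : ℤ) + 1 → f j' ≤ f (top + 1) := fun j' h => hf.mono h
  have := hF θ hθ δ k Lmax B₀ n₁ 𝓛 s (f (-(bot : ℤ))) d b e M R hP
    (by rw [hdM]; exact apL_pairwise hf hδ1 _ _)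
    (by rw [hdM]; exact apL_spaced hf _ _)
    (by rw [hdM]; simp; omega)
    (by omega)
    (by
      rw [hdM]
      intro r hr
      obtain ⟨j', h2, h3, rfl⟩ := mem_apL.mp (hr)
      push_cast at h2
      have h4 := hmonoL j' (by omega)
      have h5 := hmonoR j' (by omega)
      refine ⟨h4, by omega, by omega, by omega⟩)
    (by rw [hbR]; exact apL_pairwise hf hδ1 _ _)
    (by rw [hbR]; exact apL_spaced hf _ _)
    (by rw [hbR]; simp; omega)
    (by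
      rw [hbR]
      intro r hr
      obtain ⟨j', h2, h3, rfl⟩ := mem_apL.mp (hr)
      push_cast at h2
      have h4 := hf.iter (by omega : (0 : ℤ) < j')
      have h5 := hmonoR j' (by omega)
      have h6 := hmonoL 0 (by omega)
      refine ⟨by omega, by omega, by omega⟩)
    he hB hρ
  exact this

/-- Second differences on configurations. -/
theorem disp2_ap {q θ₀ θ₁ : ℝ} (h0 : 0 < q) (h1 : q < 1) (hθ₀ : 0 < θ₀) (hθ₁ : θ₁ < 1) :
    ∃ Cs C : ℝ, 1 ≤ Cs ∧ 0 < C ∧ ∀ θ ∈ Set.Icc θ₀ θ₁,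
      ∀ (P D A : ℤ) (J K δ k Lmax B₀ n₁ n₂ Lf : ℕ) (𝓛 𝓕 : ℝ) (ς : ℕ → ℤ) (c c' : ℕ), Par q θ δ k Lmax 𝓛 Cs →
        FarPar δ Lf 𝓕 → A ≤ Lf →
        (∀ j, ς j = 0 ∨ ς j = 1) → (δ : ℤ) + 1 ≤ D → c < c' → c' < K → 2 * J + K + 1 ≤ k →
        (n₁ : ℤ) + 1 ≤ P - J * D → P + ((J : ℤ) + K) * D + 2 + n₂ ≤ A →
        P + ((J : ℤ) + K) * D - (P - J * D) ≤ Lmax → 2 * A ≤ (B₀ : ℤ) →
        rhoL n₁ ^ 2 ≤ (1 / √(δ : ℝ)) ^ 3 → δ ≤ n₂ + 1 →
        nsq q B₀ (fun t =>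
          (UC θ P D J K A (upS (upS ς c 1) c' 1) t - UC θ P D J K A (upS (upS ς c 1) c' 0) t) -
          (UC θ P D J K A (upS (upS ς c 0) c' 1) t - UC θ P D J K A (upS (upS ς c 0) c' 0) t)) ≤
          C * 𝓕 * rhoL n₁ * ((rhoL n₂ + |θ - q ^ 2|) * (1 / √(δ : ℝ)) ^ 5 + √(k : ℝ) * (1 / √(δ : ℝ)) ^ 8) := by
  obtain ⟨Cs, C, hCs, hC, hF⟩ := final_disp2 (θ₀ := θ₀) (θ₁ := θ₁) h0 h1 hθ₀ hθ₁
  refine ⟨Cs, C, hCs, hC, ?_⟩
  intro θ hθ P D A J K δ k Lmax B₀ n₁ n₂ Lf 𝓛 𝓕 ς c c' hP hFP hALf hς hD hcc hc'K hk hn₁ hn₂ hL hB hρ hδn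
  have hδ2 := hP.hδ
  have hδ1 : 1 ≤ δ := by omega
  have hD0 : 0 ≤ D := by omega
  -- the base positions
  have hς₀v : ∀ j, upS (upS ς c 0) c' 0 j = 0 ∨ upS (upS ς c 0) c' 0 j = 1 :=
    upS_vals (upS_vals hς c (Or.inl rfl)) c' (Or.inl rfl)
  obtain ⟨pos, hpos⟩ : ∃ pos, pos = posS P D K (upS (upS ς c 0) c' 0) := ⟨_, rfl⟩
  have hgap : Gap pos δ := by rw [hpos]; exact Gap_posS hς₀v hD
  set d : ℤ := P + c * D with hd
  set d' : ℤ := P + c' * D with hd'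
  have hposc : pos c = d := by
    rw [hpos, posS_upS_c P D K ς 0 0 hcc hc'K]
    simp [hd]
  have hposc' : pos c' = d' := by
    rw [hpos, posS_upS_c' P D K _ 0 0 hc'K]
    simp [hd']
  set a₂ : ℕ := J + K - c' with ha₂
  set a₁ : ℕ := c' - c - 1 with ha₁
  set a₀ : ℕ := c + J with ha₀
  have hN : 2 * J + K + 1 = a₂ + 1 + (a₁ + 1 + a₀) := by omega
  set R₂ := apL pos ((J : ℤ) + K) a₂ with hR₂
  set R₁ := apL pos ((c' : ℤ) - 1) a₁ with hR₁
  set M := apL pos ((c : ℤ) - 1) a₀ with hM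
  have hlist : ∀ τ τ' : ℤ, apL (posS P D K (upS (upS ς c τ) c' τ')) ((J : ℤ) + K) (2 * J + K + 1) =
      R₂ ++ (d' + τ') :: (R₁ ++ (d + τ) :: M) := by
    intro τ τ'
    set g := posS P D K (upS (upS ς c τ) c' τ') with hg
    have hoff : ∀ j : ℤ, j ≠ c → j ≠ c' → g j = pos j := fun j h1' h2' => by
      rw [hpos]; exact posS_upS_off P D K ς c c' τ τ' 0 0 h1' h2'
    have e0 : (J : ℤ) + K - (a₂ : ℤ) = c' := by omega
    have e1 : (c' : ℤ) - 1 - (a₁ : ℤ) = c := by omega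
    rw [hN, apL_split, e0, apL_split, e1]
    have e3 : g c' = d' + τ' := by
      rw [hg, posS_upS_c' P D K _ τ τ' hc'K]
    have e4 : g c = d + τ := by
      rw [hg, posS_upS_c P D K ς τ τ' hcc hc'K]
    have e5 : apL g ((J : ℤ) + K) a₂ = R₂ := by
      apply apL_congr
      intro j' h2' h3'
      apply hoff <;> omega
    have e6 : apL g ((c' : ℤ) - 1) a₁ = R₁ := by
      apply apL_congr
      intro j' h2' h3'
      apply hoff <;> omega
    have e7 : apL g ((c : ℤ) - 1) a₀ = M := by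
      apply apL_congr
      intro j' h2' h3'
      apply hoff <;> omega
    rw [e3, e4, e5, e6, e7]
  have e00 : ∀ τ τ' : ℤ, UC θ P D J K A (upS (upS ς c τ) c' τ') =
      VV θ (F0 θ 0) (R₂ ++ (d' + τ') :: (R₁ ++ (d + τ) :: M)) A := by
    intro τ τ'
    unfold UC
    rw [hlist]
  simp only [e00, add_zero]
  have hdM : d :: M = apL pos c (a₀ + 1) := by
    rw [apL_succ, hposc]
  have hdR : d' :: R₁ = apL pos c' (a₁ + 1) := by
    rw [apL_succ, hposc']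
  -- location of the sites
  have hge : ∀ j' : ℤ, -(J : ℤ) ≤ j' → P - J * D ≤ pos j' := fun j' h => by
    rw [hpos]; exact posS_ge hς₀v hD0 h
  have hle : ∀ j' : ℤ, j' ≤ (J : ℤ) + K → pos j' ≤ P + ((J : ℤ) + K) * D + 1 := fun j' h => by
    rw [hpos]; exact posS_le hς₀v hD0 h
  have hA : P + ((J : ℤ) + K) * D + 2 ≤ A := by omega
  have := hF θ hθ δ k Lmax B₀ n₁ n₂ Lf 𝓛 𝓕 0 (P - J * D) d d' A M R₁ R₂ hP hFP
    (by rw [hdM]; exact apL_pairwise hgap hδ1 _ _)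
    (by rw [hdM]; exact apL_spaced hgap _ _)
    (by rw [hdM]; simp; omega)
    (by omega)
    (by
      rw [hdM]
      intro r hr
      obtain ⟨j', h2, h3, rfl⟩ := mem_apL.mp hr
      push_cast at h2
      have h4 := hge j' (by omega)
      have h5 := hle j' (by omega)
      refine ⟨h4, by omega, by omega, by omega⟩)
    (by rw [hdR]; exact apL_pairwise hgap hδ1 _ _)
    (by rw [hdR]; exact apL_spaced hgap _ _)
    (by rw [hdR]; simp; omega)
    (by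
      rw [hdR]
      intro r hr
      obtain ⟨j', h2, h3, rfl⟩ := mem_apL.mp hr
      push_cast at h2
      have h4 := hgap.iter (by omega : (c : ℤ) < j')
      have h5 := hle j' (by omega)
      have h6 := hge c (by omega)
      rw [hposc] at h4 h6
      refine ⟨by omega, by omega, by omega⟩)
    (apL_pairwise hgap hδ1 _ _)
    (apL_spaced hgap _ _)
    (by rw [hR₂]; simp; omega)
    (by
      intro r hr
      obtain ⟨j', h2, h3, rfl⟩ := mem_apL.mp hr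
      push_cast at h2
      have h4 := hgap.iter (by omega : (c' : ℤ) < j')
      have h5 := hle j' (by omega)
      have h6 := hge c' (by omega)
      rw [hposc'] at h4 h6
      refine ⟨by omega, by omega, by omega, by omega⟩)
    (by
      have h5 := hle c' (by omega)
      rw [hposc'] at h5
      omega)
    (by omega) hρ hδn (by
      have h6 := hge c' (by omega)
      rw [hposc'] at h6
      have hJD : (0 : ℤ) ≤ (J : ℤ) * D := by positivity
      have hn10 : (0 : ℤ) ≤ (n₁ : ℤ) := by positivity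
      omega)
  simpa using this

end Vale.Agent.Lib.P321B
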