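import Vale.Agent.Lib.P321.Boundary
import Vale.Agent.Lib.P321B.ConfigB

/-!
P321: removing the far sites from the first order term of a slot, new parameters.
-/

namespace Vale.Agent.Lib.P321B

open Finset Vale.Agent.Lib.P321

/-- The statement of `ins_ap` at a fixed `θ`. -/
def InsBd (q θ C Cs : ℝ) : Prop :=
  ∀ (δ k Lmax B₀ n₁ : ℕ) (𝓛 : ℝ) (s e : ℤ) (f f₁ : ℤ → ℤ) (top bot : ℕ), Par q θ δ k Lmax 𝓛 Cs →
        Gap f δ → Gap f₁ δ → f₁ 0 = f 0 + 1 → (∀ j, j ≠ 0 → f₁ j = f j) →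
        top + 1 + bot + 1 ≤ k →
        s + n₁ + 1 ≤ f (-(bot : ℤ)) → f (top + 1) ≤ e → 2 * (e - s) ≤ (B₀ : ℤ) →
        f (top + 1) - 1 - f (-(bot : ℤ)) ≤ Lmax →
        rhoL n₁ ^ 2 ≤ (1 / √(δ : ℝ)) ^ 3 →
        nsq q B₀ (fun t =>
          (VV θ (F0 θ s) (apL f₁ (top + 1) (top + 1 + bot + 1)) e t -
            VV θ (F0 θ s) (apL f₁ top (top + 1 + bot)) e t) -
          (VV θ (F0 θ s) (apL f (top + 1) (top + 1 + bot + 1)) e t -
            VV θ (F0 θ s) (apL f top (top + 1 + bot)) e t)) ≤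
          C * (rhoL (e - f (top + 1)) + |θ - q ^ 2|) * rhoL n₁ *
            (𝓛 * (1 / √(δ : ℝ)) ^ 3 * rhoL (f (top + 1) - 1 - f 0) + rhoL (f (top + 1) - 1 - f 0) ^ 3)

/-- A site removed on the right. -/
theorem step_R {q θ C Cs : ℝ} (hC : 0 < C) (h : InsBd q θ C Cs) {P D A : ℤ}
    {J K δ k Lmax B₀ n₁ n₂ L₀ c m : ℕ} {𝓛 : ℝ} (hP : Par q θ δ k Lmax 𝓛 Cs) (hD : (δ : ℤ) + 1 ≤ D)
    (hm : m + c < K) (hk : 2 * J + K + 1 ≤ k) (hn₁ : (n₁ : ℤ) + 1 ≤ P - J * D)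
    (hn₂ : P + ((J : ℤ) + K) * D + 2 + n₂ ≤ A) (hL : ((J : ℤ) + K + J) * D ≤ Lmax) (hB : 2 * A ≤ (B₀ : ℤ))
    (hρ : rhoL n₁ ^ 2 ≤ (1 / √(δ : ℝ)) ^ 3) (hL₀ : (L₀ : ℤ) ≤ J * D) :
    nsq q B₀ (fun t => WdF θ P D (-((c : ℤ) * D)) (A - c * D) ((J : ℤ) + m + 1) (2 * J + 2 + m) t -
        WdF θ P D (-((c : ℤ) * D)) (A - c * D) ((J : ℤ) + m) (2 * J + 1 + m) t) ≤
      C * (rhoL n₂ + |θ - q ^ 2|) * rhoL n₁ *
        (𝓛 * (1 / √(δ : ℝ)) ^ 3 * rhoL L₀ + rhoL L₀ ^ 3) := by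
  have hD0 : 0 < D := by omega
  set s : ℤ := -((c : ℤ) * D) with hs
  set e : ℤ := A - c * D with he
  have hj : ((J + m : ℕ) : ℤ) + 1 ≠ 0 := by omega
  have hf1 : posC P D 0 (((J + m : ℕ) : ℤ) + 1) = P + ((J : ℤ) + m + 1) * D := by
    rw [posC_ne _ _ _ hj]
    push_cast
    ring
  have hfb : posC P D 0 (-((J : ℕ) : ℤ)) = P - J * D := by
    unfold posC
    split_ifs <;> nlinarith
  have hf0 : posC P D 0 0 = P := by simp [posC]
  have hcD : (0 : ℤ) ≤ (c : ℤ) * D := by positivity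
  have hmc : ((m : ℤ) + 1 + c) * D ≤ (K : ℤ) * D :=
    mul_le_mul_of_nonneg_right (by omega) hD0.le
  have key := h δ k Lmax B₀ n₁ 𝓛 s e (posC P D 0) (posC P D 1) (J + m) J hP (Gap_posC hD (Or.inl rfl))
    (Gap_posC hD (Or.inr rfl)) (by simp [posC])
    (fun j hj => by simp [posC, hj]) (by omega)
    (by rw [hfb, hs]; omega)
    (by rw [hf1, he]; nlinarith)
    (by rw [hs, he]; nlinarith)
    (by
      rw [hf1, hfb]
      nlinarith)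
    hρ
  rw [hf1, hf0] at key
  have e1 : ((J + m : ℕ) : ℤ) + 1 = (J : ℤ) + m + 1 := by push_cast; ring
  have e2 : ((J + m : ℕ) : ℤ) = (J : ℤ) + m := by push_cast; ring
  have e3 : J + m + 1 + J + 1 = 2 * J + 2 + m := by ring
  have e4 : J + m + 1 + J = 2 * J + 1 + m := by ring
  rw [e1, e2, e3, e4] at key
  refine le_trans (le_of_eq ?_) (key.trans ?_)
  · congr 1
    funext t
    simp only [WdF]
    ring
  · have h𝓛 := hP.h𝓛
    set a := 𝓛 * (1 / √(δ : ℝ)) ^ 3 with ha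
    have ha0 : 0 ≤ a := by positivity
    have hε : 0 ≤ |θ - q ^ 2| := abs_nonneg _
    have r1 : rhoL (e - (P + ((J : ℤ) + m + 1) * D)) ≤ rhoL n₂ := by
      apply rhoL_anti (by positivity)
      rw [he]
      nlinarith
    have hJD : (L₀ : ℤ) ≤ P + ((J : ℤ) + m + 1) * D - 1 - P := by
      have : (0 : ℤ) ≤ (m : ℤ) * D := by positivity
      nlinarith
    have r2 : rhoL (P + ((J : ℤ) + m + 1) * D - 1 - P) ≤ rhoL L₀ := rhoL_anti (by positivity) hJD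
    have r3 := scale_mono (rhoL_nonneg _) r2 ha0
    have hr1 := rhoL_nonneg (n₁ : ℤ)
    have hX : 0 ≤ a * rhoL L₀ + rhoL L₀ ^ 3 := by
      have := rhoL_nonneg (L₀ : ℤ)
      positivity
    have hY : 0 ≤ a * rhoL (P + ((J : ℤ) + m + 1) * D - 1 - P) + rhoL (P + ((J : ℤ) + m + 1) * D - 1 - P) ^ 3 := by
      have := rhoL_nonneg (P + ((J : ℤ) + m + 1) * D - 1 - P)
      positivity
    have hZ := rhoL_nonneg (e - (P + ((J : ℤ) + m + 1) * D))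
    apply mul_le_mul _ r3 hY (by have := rhoL_nonneg (n₂ : ℤ); positivity)
    apply mul_le_mul_of_nonneg_right _ hr1
    apply mul_le_mul_of_nonneg_left _ hC.le
    linarith

/-- A site removed on the left. -/
theorem step_L {q θ C Cs : ℝ} (hθ : θ ≠ 0) (hC : 0 < C) (h : InsBd q θ C Cs) {P D A : ℤ}
    {J K δ k Lmax B₀ n₁ n₂ L₀ c a i : ℕ} {𝓛 : ℝ} (hP : Par q θ δ k Lmax 𝓛 Cs) (hD : (δ : ℤ) + 1 ≤ D)
    (hK : K = a + c) (ha : 1 ≤ a) (hi : i < c) (hk : 2 * J + K + 1 ≤ k) (hn₁ : (n₁ : ℤ) + 1 ≤ P - J * D)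
    (hn₂ : P + ((J : ℤ) + K) * D + 2 + n₂ ≤ A) (hL : ((J : ℤ) + K + J) * D ≤ Lmax) (hB : 2 * A ≤ (B₀ : ℤ))
    (hρ : rhoL n₂ ^ 2 ≤ (1 / √(δ : ℝ)) ^ 3) (hL₀ : (L₀ : ℤ) ≤ J * D) :
    nsq q B₀ (fun t => WdF θ P D (-((c : ℤ) * D)) (A - c * D) ((J : ℤ) + a) (2 * J + 1 + a + i + 1) t -
        WdF θ P D (-((c : ℤ) * D)) (A - c * D) ((J : ℤ) + a) (2 * J + 1 + a + i) t) ≤
      C * (rhoL n₁ + |θ - q ^ 2|) * rhoL n₂ *
        (𝓛 * (1 / √(δ : ℝ)) ^ 3 * rhoL L₀ + rhoL L₀ ^ 3) := by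
  have hD0 : 0 < D := by omega
  have hδ1 : 1 ≤ δ := by have := hP.hδ; omega
  subst hK
  set s : ℤ := -((c : ℤ) * D) with hs
  set e : ℤ := A - c * D with he
  set n' : ℕ := 2 * J + 1 + a + i with hn'
  have hJD0 : (0 : ℤ) ≤ (J : ℤ) * D := by positivity
  have hcD : (0 : ℤ) ≤ (c : ℤ) * D := by positivity
  have hse : s ≤ e := by
    rw [hs, he]
    have e1 : ((J : ℤ) + ((a + c : ℕ) : ℤ)) * D = (J : ℤ) * D + (a : ℤ) * D + (c : ℤ) * D := by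
      push_cast; ring
    have : (0 : ℤ) ≤ (a : ℤ) * D := by positivity
    omega
  -- sites
  have hsites : ∀ τ : ℤ, (τ = 0 ∨ τ = 1) → ∀ n : ℕ, n ≤ n' + 1 →
      ∀ d ∈ apL (posC P D τ) ((J : ℤ) + a) n, s < d ∧ d ≤ e := by
    intro τ hτ n hn d hd
    obtain ⟨j', h2, h3, rfl⟩ := mem_apL.mp hd
    have h4 : -(J : ℤ) - c ≤ j' := by
      have : (n : ℤ) ≤ n' + 1 := by exact_mod_cast hn
      rw [hn'] at this
      push_cast at this
      omega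
    have h5 : (-(J : ℤ) - c) * D ≤ j' * D := mul_le_mul_of_nonneg_right h4 hD0.le
    have h6 : j' * D ≤ ((J : ℤ) + a) * D := mul_le_mul_of_nonneg_right h3 hD0.le
    have h7 : posC P D τ j' = P + j' * D + if j' = 0 then τ else 0 := rfl
    have h8 : 0 ≤ (if j' = 0 then τ else 0) ∧ (if j' = 0 then τ else 0) ≤ 1 := by
      rcases hτ with rfl | rfl <;> split_ifs <;> omega
    rw [h7, hs, he]
    have h9 : (-(J : ℤ) - c) * D = -((J : ℤ) * D) - (c : ℤ) * D := by ring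
    have h10 : ((J : ℤ) + ((a + c : ℕ) : ℤ)) * D = ((J : ℤ) + a) * D + (c : ℤ) * D := by
      push_cast; ring
    rw [h10] at hn₂
    constructor <;> omega
  have hpair : ∀ τ : ℤ, (τ = 0 ∨ τ = 1) → ∀ n : ℕ, (apL (posC P D τ) ((J : ℤ) + a) n).Pairwise (· > ·) :=
    fun τ hτ n => apL_pairwise (Gap_posC hD hτ) hδ1 _ _
  set g : ℤ → ℤ → ℤ := fun τ i => s + e + 1 - posC P D τ (-i) with hg
  have hrefl : ∀ τ : ℤ, (τ = 0 ∨ τ = 1) → ∀ n : ℕ, n ≤ n' + 1 → ∀ t : Word,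
      VV θ (F0 θ s) (apL (posC P D τ) ((J : ℤ) + a) n) e (rc t) =
        VV θ (F0 θ s) (apL (g τ) ((n : ℤ) - 1 - ((J : ℤ) + a)) n) e t := by
    intro τ hτ n hn t
    rw [VV_reflect θ hθ s e _ (hpair τ hτ n) (hsites τ hτ n hn) hse t]
    unfold reflectL
    rw [reflect_apL]
  have e1 : ((n' + 1 : ℕ) : ℤ) - 1 - ((J : ℤ) + a) = ((J + i : ℕ) : ℤ) + 1 := by
    rw [hn']
    push_cast
    ring
  have e2 : ((n' : ℕ) : ℤ) - 1 - ((J : ℤ) + a) = ((J + i : ℕ) : ℤ) := by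
    rw [hn']
    push_cast
    ring
  have hgap : ∀ τ : ℤ, (τ = 0 ∨ τ = 1) → Gap (g τ) δ := fun τ hτ => Gap_reflect (Gap_posC hD hτ) s e
  have hg1 : ∀ x : ℤ, x ≠ 0 → g 1 x = s + e + 1 - P + x * D := by
    intro x hx
    simp only [hg]
    rw [posC_ne _ _ _ (by omega)]
    ring
  have hg10 : g 1 0 = s + e + 1 - P - 1 := by
    simp only [hg]
    have : (-(0 : ℤ)) = 0 := by ring
    rw [this, posC_zero]
    ring
  have hbot : ((J + a : ℕ) : ℤ) ≠ 0 := by omega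
  have hbot' : (-((J + a : ℕ) : ℤ)) ≠ 0 := by omega
  have htop : ((J + i : ℕ) : ℤ) + 1 ≠ 0 := by omega
  have hf1 : g 1 (((J + i : ℕ) : ℤ) + 1) = s + e + 1 - P + ((J : ℤ) + i + 1) * D := by
    rw [hg1 _ htop]
    push_cast
    ring
  have hfb : g 1 (-((J + a : ℕ) : ℤ)) = s + e + 1 - P - ((J : ℤ) + a) * D := by
    rw [hg1 _ hbot']
    push_cast
    ring
  have hic : ((i : ℤ) + 1) * D ≤ (c : ℤ) * D := mul_le_mul_of_nonneg_right (by omega) hD0.le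
  have hKe : ((J : ℤ) + ((a + c : ℕ) : ℤ)) * D = (J : ℤ) * D + (a : ℤ) * D + (c : ℤ) * D := by
    push_cast; ring
  have hLe : ((J : ℤ) + ((a + c : ℕ) : ℤ) + J) * D = 2 * ((J : ℤ) * D) + (a : ℤ) * D + (c : ℤ) * D := by
    push_cast; ring
  have htopD : ((J : ℤ) + i + 1) * D = (J : ℤ) * D + ((i : ℤ) + 1) * D := by ring
  have hbotD : ((J : ℤ) + a) * D = (J : ℤ) * D + (a : ℤ) * D := by ring
  have key := h δ k Lmax B₀ n₂ 𝓛 s e (g 1) (g 0) (J + i) (J + a) hP (hgap 1 (Or.inr rfl)) (hgap 0 (Or.inl rfl))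
    (by
      rw [hg10]
      simp only [hg]
      have : (-(0 : ℤ)) = 0 := by ring
      rw [this, posC_zero]
      ring)
    (by
      intro j hj
      simp only [hg]
      rw [posC_ne _ _ _ (by omega), posC_ne _ _ _ (by omega)])
    (by omega)
    (by rw [hfb, he]; rw [hKe] at hn₂; rw [hbotD]; omega)
    (by rw [hf1, hs, htopD]; omega)
    (by rw [hs, he]; ring_nf; ring_nf at hB; omega)
    (by rw [hf1, hfb, htopD, hbotD]; rw [hLe] at hL; omega)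
    hρ
  rw [hf1, hg10] at key
  have e3 : J + i + 1 + (J + a) + 1 = n' + 1 := by rw [hn']; ring
  have e4 : J + i + 1 + (J + a) = n' := by rw [hn']; ring
  rw [e3, e4] at key
  rw [← nsq_rc q B₀ (fun t => WdF θ P D s e ((J : ℤ) + a) (n' + 1) t - WdF θ P D s e ((J : ℤ) + a) n' t)]
  have econv : (fun t => WdF θ P D s e ((J : ℤ) + a) (n' + 1) (rc t) - WdF θ P D s e ((J : ℤ) + a) n' (rc t)) =
      fun t => -((VV θ (F0 θ s) (apL (g 0) (((J + i : ℕ) : ℤ) + 1) (n' + 1)) e t -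
          VV θ (F0 θ s) (apL (g 0) ((J + i : ℕ) : ℤ) n') e t) -
        (VV θ (F0 θ s) (apL (g 1) (((J + i : ℕ) : ℤ) + 1) (n' + 1)) e t -
          VV θ (F0 θ s) (apL (g 1) ((J + i : ℕ) : ℤ) n') e t)) := by
    funext t
    simp only [WdF]
    rw [hrefl 1 (Or.inr rfl) (n' + 1) le_rfl t, hrefl 0 (Or.inl rfl) (n' + 1) le_rfl t,
      hrefl 1 (Or.inr rfl) n' (by omega) t, hrefl 0 (Or.inl rfl) n' (by omega) t, e1, e2]
    ring
  rw [econv, nsq_neg]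
  refine key.trans ?_
  have h𝓛 := hP.h𝓛
  set A3 := 𝓛 * (1 / √(δ : ℝ)) ^ 3 with hA3
  have hA30 : 0 ≤ A3 := by positivity
  have hε : 0 ≤ |θ - q ^ 2| := abs_nonneg _
  have r1 : rhoL (e - (s + e + 1 - P + ((J : ℤ) + i + 1) * D)) ≤ rhoL n₁ := by
    apply rhoL_anti (by positivity)
    rw [hs, htopD]
    omega
  have r2 : rhoL (s + e + 1 - P + ((J : ℤ) + i + 1) * D - 1 - (s + e + 1 - P - 1)) ≤ rhoL L₀ := by
    apply rhoL_anti (by positivity)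
    rw [htopD]
    have : (0 : ℤ) ≤ ((i : ℤ) + 1) * D := by positivity
    omega
  have r3 := scale_mono (rhoL_nonneg _) r2 hA30
  have hr1 := rhoL_nonneg (n₂ : ℤ)
  set Xv := rhoL (s + e + 1 - P + ((J : ℤ) + i + 1) * D - 1 - (s + e + 1 - P - 1)) with hXv
  have hY : 0 ≤ A3 * Xv + Xv ^ 3 := by
    have := rhoL_nonneg (s + e + 1 - P + ((J : ℤ) + i + 1) * D - 1 - (s + e + 1 - P - 1))
    positivity
  have hZ := rhoL_nonneg (e - (s + e + 1 - P + ((J : ℤ) + i + 1) * D))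
  apply mul_le_mul _ r3 hY (by have := rhoL_nonneg (n₁ : ℤ); positivity)
  apply mul_le_mul_of_nonneg_right _ hr1
  apply mul_le_mul_of_nonneg_left _ hC.le
  linarith

/-- Removing the far sites from the first order term of the slot `c`. -/
theorem boundary_bound {q θ₀ θ₁ : ℝ} (h0 : 0 < q) (h1 : q < 1) (hθ₀ : 0 < θ₀) (hθ₁ : θ₁ < 1) :
    ∃ Cs C : ℝ, 1 ≤ Cs ∧ 0 < C ∧ ∀ θ ∈ Set.Icc θ₀ θ₁,
      ∀ (P D A : ℤ) (J K δ k Lmax B₀ n₁ n₂ L₀ c : ℕ) (𝓛 : ℝ), Par q θ δ k Lmax 𝓛 Cs →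
        (δ : ℤ) + 1 ≤ D → 1 ≤ J → c < K → 2 * J + K + 1 ≤ k →
        (n₁ : ℤ) + 1 ≤ P - J * D → P + ((J : ℤ) + K) * D + 2 + n₂ ≤ A →
        ((J : ℤ) + K + J) * D ≤ Lmax → 2 * A ≤ (B₀ : ℤ) →
        rhoL n₁ ^ 2 ≤ (1 / √(δ : ℝ)) ^ 3 → rhoL n₂ ^ 2 ≤ (1 / √(δ : ℝ)) ^ 3 →
        (L₀ : ℤ) ≤ J * D →
        nsq q B₀ (fun t =>
          (UC θ P D J K A (upS (fun _ => 0) c 1) t - UC θ P D J K A (upS (fun _ => 0) c 0) t) -
          (VV θ (F0 θ (-((c : ℤ) * D))) (apL (posC P D 1) J (2 * J + 1)) (A - c * D) t -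
           VV θ (F0 θ (-((c : ℤ) * D))) (apL (posC P D 0) J (2 * J + 1)) (A - c * D) t)) ≤
          C * (K : ℝ) ^ 2 * (rhoL n₁ * rhoL n₂ + |θ - q ^ 2| * rhoL n₁ + |θ - q ^ 2| * rhoL n₂) *
            (𝓛 * (1 / √(δ : ℝ)) ^ 3 * rhoL L₀ + rhoL L₀ ^ 3) := by
  obtain ⟨Cs, C, hCs, hC, hins⟩ := ins_ap h0 h1 hθ₀ hθ₁
  refine ⟨Cs, C, hCs, hC, ?_⟩
  intro θ hθ P D A J K δ k Lmax B₀ n₁ n₂ L₀ c 𝓛 hP hD hJ hc hk hn₁ hn₂ hL hB hρ₁ hρ₂ hL₀
  have hθ0 : θ ≠ 0 := (lt_of_lt_of_le hθ₀ hθ.1).ne'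
  have h : InsBd q θ C Cs := by
    intro δ k Lmax B₀ n₁ 𝓛 s e f f₁ top bot
    exact hins θ hθ δ k Lmax B₀ n₁ 𝓛 s e f f₁ top bot
  obtain ⟨a, rfl⟩ : ∃ a, K = a + c := ⟨K - c, by omega⟩
  have ha : 1 ≤ a := by omega
  set s : ℤ := -((c : ℤ) * D) with hs
  set e : ℤ := A - c * D with he
  set Wi : ℕ → Word → ℝ := fun i => WdF θ P D s e ((J : ℤ) + (min i a : ℕ)) (2 * J + 1 + i) with hWi
  have hfun : (fun t =>
          (UC θ P D J (a + c) A (upS (fun _ => 0) c 1) t - UC θ P D J (a + c) A (upS (fun _ => 0) c 0) t) -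
          (VV θ (F0 θ s) (apL (posC P D 1) J (2 * J + 1)) e t -
           VV θ (F0 θ s) (apL (posC P D 0) J (2 * J + 1)) e t)) =
      fun t => ∑ i ∈ range (a + c), (Wi (i + 1) t - Wi i t) := by
    funext t
    rw [sum_range_sub (fun i => Wi i t)]
    simp only [hWi, WdF]
    rw [UC_upS_zero θ P D A J (a + c) c hc 1 t, UC_upS_zero θ P D A J (a + c) c hc 0 t]
    have e1 : min (a + c) a = a := by omega
    have e2 : min 0 a = 0 := by omega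
    have e3 : (J : ℤ) + ((a + c : ℕ) : ℤ) - c = (J : ℤ) + ((a : ℕ) : ℤ) := by push_cast; ring
    have e4 : 2 * J + (a + c) + 1 = 2 * J + 1 + (a + c) := by ring
    rw [e1, e2, e3, e4]
    simp only [Nat.cast_zero, add_zero]
    rfl
  rw [hfun]
  refine (nsq_sum_le h0 h1 B₀ (range (a + c)) _).trans ?_
  set Yv := rhoL n₁ * rhoL n₂ + |θ - q ^ 2| * rhoL n₁ + |θ - q ^ 2| * rhoL n₂ with hYv
  have h𝓛 := hP.h𝓛
  set Xv := 𝓛 * (1 / √(δ : ℝ)) ^ 3 * rhoL L₀ + rhoL L₀ ^ 3 with hXv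
  have hXv0 : 0 ≤ Xv := by
    have := rhoL_nonneg (L₀ : ℤ)
    positivity
  have hε : 0 ≤ |θ - q ^ 2| := abs_nonneg _
  have hr1 := rhoL_nonneg (n₁ : ℤ)
  have hr2 := rhoL_nonneg (n₂ : ℤ)
  have hterm : ∀ i ∈ range (a + c), nsq q B₀ (fun t => Wi (i + 1) t - Wi i t) ≤ C * Yv * Xv := by
    intro i hi
    have hi' := mem_range.mp hi
    by_cases hia : i < a
    · have m1 : min (i + 1) a = i + 1 := by omega
      have m2 : min i a = i := by omega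
      have := step_R (n₂ := n₂) (m := i) (c := c) (K := a + c) hC h hP hD (by omega) hk hn₁ hn₂ hL hB hρ₁ hL₀
      have e0 : (fun t => Wi (i + 1) t - Wi i t) = fun t =>
          WdF θ P D s e ((J : ℤ) + i + 1) (2 * J + 2 + i) t - WdF θ P D s e ((J : ℤ) + i) (2 * J + 1 + i) t := by
        funext t
        simp only [hWi, m1, m2]
        have e5 : (J : ℤ) + ((i + 1 : ℕ) : ℤ) = (J : ℤ) + i + 1 := by push_cast; ring
        have e6 : 2 * J + 1 + (i + 1) = 2 * J + 2 + i := by ring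
        rw [e5, e6]
      rw [e0]
      refine this.trans ?_
      apply mul_le_mul_of_nonneg_right _ hXv0
      have e8 : C * (rhoL n₂ + |θ - q ^ 2|) * rhoL n₁ = C * ((rhoL n₂ + |θ - q ^ 2|) * rhoL n₁) := by ring
      rw [e8]
      apply mul_le_mul_of_nonneg_left _ hC.le
      have t1 : 0 ≤ |θ - q ^ 2| * rhoL n₂ := by positivity
      rw [hYv]
      nlinarith
    · obtain ⟨i', rfl⟩ : ∃ i', i = a + i' := ⟨i - a, by omega⟩
      have m1 : min (a + i' + 1) a = a := by omega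
      have m2 : min (a + i') a = a := by omega
      have := step_L (n₁ := n₁) (n₂ := n₂) (a := a) (i := i') (c := c) (K := a + c) hθ0 hC h hP hD rfl ha (by omega)
        hk hn₁ hn₂ hL hB hρ₂ hL₀
      have e0 : (fun t => Wi (a + i' + 1) t - Wi (a + i') t) = fun t =>
          WdF θ P D s e ((J : ℤ) + a) (2 * J + 1 + a + i' + 1) t -
            WdF θ P D s e ((J : ℤ) + a) (2 * J + 1 + a + i') t := by
        funext t
        simp only [hWi, m1, m2]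
        have e6 : 2 * J + 1 + (a + i' + 1) = 2 * J + 1 + a + i' + 1 := by ring
        have e7 : 2 * J + 1 + (a + i') = 2 * J + 1 + a + i' := by ring
        rw [e6, e7]
      rw [e0]
      refine this.trans ?_
      apply mul_le_mul_of_nonneg_right _ hXv0
      have e8 : C * (rhoL n₁ + |θ - q ^ 2|) * rhoL n₂ = C * ((rhoL n₁ + |θ - q ^ 2|) * rhoL n₂) := by ring
      rw [e8]
      apply mul_le_mul_of_nonneg_left _ hC.le
      have t1 : 0 ≤ |θ - q ^ 2| * rhoL n₁ := by positivity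
      rw [hYv]
      nlinarith
  have hsum := sum_le_sum hterm
  rw [sum_const, card_range, nsmul_eq_mul] at hsum
  rw [card_range]
  have hKn : (0 : ℝ) ≤ ((a + c : ℕ) : ℝ) := by positivity
  calc ((a + c : ℕ) : ℝ) * ∑ i ∈ range (a + c), nsq q B₀ (fun t => Wi (i + 1) t - Wi i t)
      ≤ ((a + c : ℕ) : ℝ) * (((a + c : ℕ) : ℝ) * (C * Yv * Xv)) := mul_le_mul_of_nonneg_left hsum hKn
    _ = _ := by ring

end Vale.Agent.Lib.P321B
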