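import Vale.Agent.Lib.P321.Decomp
import Vale.Agent.Lib.P321B.BoundaryB

/-!
P321: the expansion of the difference of the two configurations, new parameters.
-/

namespace Vale.Agent.Lib.P321B

open Finset Vale.Agent.Lib.P321

/-- The first bracket. -/
theorem decomp_T1 {q θ₀ θ₁ : ℝ} (h0 : 0 < q) (h1 : q < 1) (hθ₀ : 0 < θ₀) (hθ₁ : θ₁ < 1) (t : ℕ) :
    ∃ Cs C : ℝ, 1 ≤ Cs ∧ 0 < C ∧ ∀ θ ∈ Set.Icc θ₀ θ₁,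
      ∀ (P A : ℤ) (Dn J δ k Lmax B₀ n₁ n₂ Lf : ℕ) (𝓛 𝓕 : ℝ), Par q θ δ k Lmax 𝓛 Cs →
        FarPar δ Lf 𝓕 → A ≤ Lf →
        δ + 1 ≤ Dn → 2 * J + 2 ^ t + 1 ≤ k →
        (n₁ : ℤ) + 1 ≤ P - J * Dn → P + ((J : ℤ) + ((2 ^ t : ℕ) : ℤ)) * Dn + 2 + n₂ ≤ A →
        ((J : ℤ) + ((2 ^ t : ℕ) : ℤ) + J) * Dn ≤ Lmax → 2 * A ≤ (B₀ : ℤ) →
        rhoL n₁ ^ 2 ≤ (1 / √(δ : ℝ)) ^ 3 → δ ≤ n₂ + 1 →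
        nsq q B₀ (fun w => UC θ P Dn J (2 ^ t) A (sxT t) w - UC θ P Dn J (2 ^ t) A (syT t) w -
            ∑ c ∈ range (2 ^ t), (tmS t c : ℝ) * DeltaC θ P Dn J (2 ^ t) A c w) ≤
          (((2 ^ t : ℕ) : ℝ)) ^ 4 * (C * (𝓕 * (rhoL n₁ * ((rhoL n₂ + |θ - q ^ 2|) * (1 / √(δ : ℝ)) ^ 5 + √(k : ℝ) * (1 / √(δ : ℝ)) ^ 8)))) := by
  obtain ⟨Cs1, C1, hCs1, hC1, hD2⟩ := disp2_ap (θ₀ := θ₀) (θ₁ := θ₁) h0 h1 hθ₀ hθ₁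
  refine ⟨Cs1, C1, hCs1, hC1, ?_⟩
  intro θ hθ P A Dn J δ k Lmax B₀ n₁ n₂ Lf 𝓛 𝓕 hP hFP hALf hDn hk hn₁ hn₂ hLmax hA0 hρ₁ hδn
  have hDZ : (δ : ℤ) + 1 ≤ (Dn : ℤ) := by exact_mod_cast hDn
  have h𝓕 := hFP.h𝓕
  have hnn : 0 ≤ 𝓕 * (rhoL n₁ * ((rhoL n₂ + |θ - q ^ 2|) * (1 / √(δ : ℝ)) ^ 5 + √(k : ℝ) * (1 / √(δ : ℝ)) ^ 8)) := by
    have := rhoL_nonneg (n₁ : ℤ)
    have := rhoL_nonneg (n₂ : ℤ)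
    positivity
  apply tele_abstract h0 h1 B₀ (2 ^ t) (fun ς => UC θ P Dn J (2 ^ t) A ς) (C1 * _) (by positivity)
  · intro σ σ' h
    exact UC_congr θ P Dn J (2 ^ t) A h
  · intro ς c c' hς hcc hc'
    have := hD2 θ hθ P Dn A J (2 ^ t) δ k Lmax B₀ n₁ n₂ Lf 𝓛 𝓕 ς c c' hP hFP hALf hς hDZ hcc hc' hk hn₁ hn₂
      (by
        have e : P + ((J : ℤ) + ((2 ^ t : ℕ) : ℤ)) * Dn - (P - J * Dn) = ((J : ℤ) + ((2 ^ t : ℕ) : ℤ) + J) * Dn := by ring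
        rw [e]
        exact hLmax) hA0 hρ₁ hδn
    refine this.trans (le_of_eq ?_)
    ring
  · intro j
    unfold sxT
    split_ifs <;> simp
  · intro j
    unfold syT
    split_ifs <;> simp
  · intro c _
    rcases tmS_sq t c with h | h
    · left
      simp [sxT, syT, h]
    · right
      simp [sxT, syT, h]

/-- The second piece. -/
theorem decomp_T2 {q θ₀ θ₁ : ℝ} (h0 : 0 < q) (h1 : q < 1) (hθ₀ : 0 < θ₀) (hθ₁ : θ₁ < 1) (t : ℕ) :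
    ∃ Cs C : ℝ, 1 ≤ Cs ∧ 0 < C ∧ ∀ θ ∈ Set.Icc θ₀ θ₁,
      ∀ (P A : ℤ) (Dn J δ k Lmax B₀ n₁ n₂ L₀ : ℕ) (𝓛 : ℝ), Par q θ δ k Lmax 𝓛 Cs →
        δ + 1 ≤ Dn → 1 ≤ J → 2 * J + 2 ^ t + 1 ≤ k →
        (n₁ : ℤ) + 1 ≤ P - J * Dn → P + ((J : ℤ) + ((2 ^ t : ℕ) : ℤ)) * Dn + 2 + n₂ ≤ A →
        ((J : ℤ) + ((2 ^ t : ℕ) : ℤ) + J) * Dn ≤ Lmax → 2 * A ≤ (B₀ : ℤ) →
        rhoL n₁ ^ 2 ≤ (1 / √(δ : ℝ)) ^ 3 → rhoL n₂ ^ 2 ≤ (1 / √(δ : ℝ)) ^ 3 →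
        (L₀ : ℤ) ≤ J * Dn →
        nsq q B₀ (fun w => ∑ c ∈ range (2 ^ t), (tmS t c : ℝ) * (DeltaC θ P Dn J (2 ^ t) A c w - WC θ P Dn J A c w)) ≤
          (((2 ^ t : ℕ) : ℝ)) ^ 4 * (C * ((rhoL n₁ * rhoL n₂ + |θ - q ^ 2| * rhoL n₁ + |θ - q ^ 2| * rhoL n₂) *
              (𝓛 * (1 / √(δ : ℝ)) ^ 3 * rhoL L₀ + rhoL L₀ ^ 3))) := by
  obtain ⟨Cs2, C2, hCs2, hC2, hBd⟩ := boundary_bound (θ₀ := θ₀) (θ₁ := θ₁) h0 h1 hθ₀ hθ₁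
  refine ⟨Cs2, C2, hCs2, hC2, ?_⟩
  intro θ hθ P A Dn J δ k Lmax B₀ n₁ n₂ L₀ 𝓛 hP hDn hJ hk hn₁ hn₂ hLmax hA0 hρ₁ hρ₂ hL₀
  have hDZ : (δ : ℤ) + 1 ≤ (Dn : ℤ) := by exact_mod_cast hDn
  set E1 : ℝ := (rhoL n₁ * rhoL n₂ + |θ - q ^ 2| * rhoL n₁ + |θ - q ^ 2| * rhoL n₂) *
      (𝓛 * (1 / √(δ : ℝ)) ^ 3 * rhoL L₀ + rhoL L₀ ^ 3) with hE1
  refine (nsq_sum_le h0 h1 B₀ (range (2 ^ t)) (fun c w => (tmS t c : ℝ) * (DeltaC θ P Dn J (2 ^ t) A c w - WC θ P Dn J A c w))).trans ?_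
  rw [card_range]
  have hone : ∀ c ∈ range (2 ^ t), nsq q B₀ (fun w => (tmS t c : ℝ) * (DeltaC θ P Dn J (2 ^ t) A c w - WC θ P Dn J A c w)) ≤
      C2 * (((2 ^ t : ℕ) : ℝ)) ^ 2 * E1 := by
    intro c hc
    have hcK := mem_range.mp hc
    have hs : (tmS t c : ℝ) ^ 2 = 1 := by
      rcases tmS_sq t c with h | h <;> simp [h]
    rw [nsq_sign hs]
    have hb := hBd θ hθ P Dn A J (2 ^ t) δ k Lmax B₀ n₁ n₂ L₀ c 𝓛 hP hDZ hJ hcK hk hn₁ hn₂ hLmax hA0 hρ₁ hρ₂ hL₀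
    have e : (fun w => DeltaC θ P Dn J (2 ^ t) A c w - WC θ P Dn J A c w) = fun w =>
        (UC θ P Dn J (2 ^ t) A (upS (fun _ => 0) c 1) w - UC θ P Dn J (2 ^ t) A (upS (fun _ => 0) c 0) w) -
        (VV θ (F0 θ (-((c : ℤ) * Dn))) (apL (posC P Dn 1) J (2 * J + 1)) (A - c * Dn) w -
         VV θ (F0 θ (-((c : ℤ) * Dn))) (apL (posC P Dn 0) J (2 * J + 1)) (A - c * Dn) w) := by
      funext w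
      simp only [DeltaC, WC, zero_sub]
    rw [e]
    refine hb.trans (le_of_eq ?_)
    rw [hE1]
    ring
  have hKR : (0 : ℝ) ≤ ((2 ^ t : ℕ) : ℝ) := by positivity
  have hsum : ∑ c ∈ range (2 ^ t), nsq q B₀ (fun w => (tmS t c : ℝ) * (DeltaC θ P Dn J (2 ^ t) A c w - WC θ P Dn J A c w)) ≤
      ((2 ^ t : ℕ) : ℝ) * (C2 * (((2 ^ t : ℕ) : ℝ)) ^ 2 * E1) := by
    calc ∑ c ∈ range (2 ^ t), nsq q B₀ (fun w => (tmS t c : ℝ) * (DeltaC θ P Dn J (2 ^ t) A c w - WC θ P Dn J A c w))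
        ≤ ∑ _c ∈ range (2 ^ t), (C2 * (((2 ^ t : ℕ) : ℝ)) ^ 2 * E1) := sum_le_sum hone
      _ = ((2 ^ t : ℕ) : ℝ) * (C2 * (((2 ^ t : ℕ) : ℝ)) ^ 2 * E1) := by simp
  refine (mul_le_mul_of_nonneg_left hsum hKR).trans (le_of_eq ?_)
  ring

/-- The third piece: the moment bound. -/
theorem decomp_T3 {q θ₀ θ₁ : ℝ} (h0 : 0 < q) (h1 : q < 1) (hθ₀ : 0 < θ₀) (hθ₁ : θ₁ < 1) (t : ℕ) :
    ∃ Cs C : ℝ, 1 ≤ Cs ∧ 0 < C ∧ ∀ θ ∈ Set.Icc θ₀ θ₁,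
      ∀ (P A : ℤ) (Dn J δ k Lmax B₀ n₁ n₂ : ℕ) (𝓛 : ℝ), Par q θ δ k Lmax 𝓛 Cs →
        δ + 1 ≤ Dn → 2 * J + 2 ^ t + 1 ≤ k →
        (n₁ : ℤ) + 1 ≤ P - J * Dn → P + ((J : ℤ) + ((2 ^ t : ℕ) : ℤ)) * Dn + 2 + n₂ ≤ A →
        ((J : ℤ) + ((2 ^ t : ℕ) : ℤ) + J) * Dn ≤ Lmax → 2 * A + 2 * ((t * (2 ^ t * Dn) : ℕ) : ℤ) ≤ (B₀ : ℤ) →
        ((t * (2 ^ t * Dn) : ℕ) : ℤ) * 4 ≤ n₁ + 1 → ((t * (2 ^ t * Dn) : ℕ) : ℤ) * 4 ≤ n₂ + 1 → n₁ ≤ n₂ →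
        nsq q B₀ (fun w => ∑ c ∈ range (2 ^ t), (tmS t c : ℝ) * WC θ P Dn J A c w) ≤
          C * (((Dn : ℝ) ^ t) ^ 2 * (rhoL n₁ ^ (2 * t + 1) * k *
              ((1 / √(δ : ℝ)) ^ 2 + rhoL n₂ + |θ - q ^ 2|))) := by
  obtain ⟨Cs3, C3, hCs3, hC3, hMo⟩ := moment_bound (θ₀ := θ₀) (θ₁ := θ₁) h0 h1 hθ₀ hθ₁ t
  refine ⟨Cs3, 4 * (4 ^ t * (C3 * (((2 ^ t : ℕ) : ℝ) ^ t) ^ 2)), hCs3, by positivity, ?_⟩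
  intro θ hθ P A Dn J δ k Lmax B₀ n₁ n₂ 𝓛 hP hDn hk hn₁ hn₂ hLmax hB₀ hm₁ hm₂ hn₁₂
  have hδ2 := hP.hδ
  have hδ1 : 1 ≤ δ := by omega
  have hDZ : (δ : ℤ) + 1 ≤ (Dn : ℤ) := by exact_mod_cast hDn
  have hDn1 : 1 ≤ Dn := by omega
  have hT0 : (0 : ℤ) ≤ ((t * (2 ^ t * Dn) : ℕ) : ℤ) := by positivity
  have hA0 : 2 * A ≤ (B₀ : ℤ) := by linarith
  have hJD0 : (0 : ℤ) ≤ (J : ℤ) * Dn := by positivity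
  have hKD0 : (0 : ℤ) ≤ ((2 ^ t : ℕ) : ℤ) * Dn := by positivity
  have hmom : ∀ τ : ℤ, (τ = 0 ∨ τ = 1) →
      nsq q B₀ (TMsum t (phiB θ (apL (posC P Dn τ) J (2 * J + 1)) Dn [] [] 0 A)) ≤
        4 ^ t * (C3 * (((2 ^ t * Dn : ℕ) : ℝ) ^ t) ^ 2 * rhoL n₁ ^ (2 * t + 1) * k * ((1 / √(δ : ℝ)) ^ 2 + rhoL n₂ + |θ - q ^ 2|)) := by
    intro τ hτ
    have hgap : Gap (posC P Dn τ) δ := Gap_posC' P hDZ hτ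
    have hlen : (apL (posC P Dn τ) J (2 * J + 1)).length ≤ k := by
      rw [length_apL]
      have hKp : 0 < 2 ^ t := by positivity
      omega
    have hBe : 2 * (A - (P - J * Dn)) ≤ (B₀ : ℤ) := by
      have hKK : ((J : ℤ) + ((2 ^ t : ℕ) : ℤ)) * Dn = (J : ℤ) * Dn + ((2 ^ t : ℕ) : ℤ) * Dn := by ring
      rw [hKK] at hn₂
      have hn20 : (0 : ℤ) ≤ (n₂ : ℤ) := by positivity
      have hn10 : (0 : ℤ) ≤ (n₁ : ℤ) := by positivity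
      generalize (J : ℤ) * Dn = a at *
      generalize ((2 ^ t : ℕ) : ℤ) * Dn = b at *
      omega
    refine hMo θ hθ Dn δ k Lmax B₀ n₁ n₂ 𝓛 0 (P - J * Dn) A _ hP hDn1 (apL_pairwise hgap hδ1 _ _)
      (apL_spaced hgap _ _) hlen (by
        have hn10 : (0 : ℤ) ≤ (n₁ : ℤ) := by positivity
        omega) ?_ hm₁ hm₂ hn₁₂ hBe
    intro r hr
    obtain ⟨j', hj1, hj2, rfl⟩ := mem_apL.mp hr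
    have hj1' : -(J : ℤ) ≤ j' := by
      push_cast at hj1
      omega
    have hite0 : (0 : ℤ) ≤ if j' = 0 then τ else 0 := by
      rcases hτ with rfl | rfl <;> split_ifs <;> omega
    have hite1 : (if j' = 0 then τ else 0) ≤ (1 : ℤ) := by
      rcases hτ with rfl | rfl <;> split_ifs <;> omega
    have hT : ((t : ℤ) * ((2 ^ t * Dn : ℕ) : ℤ)) = ((t * (2 ^ t * Dn) : ℕ) : ℤ) := by push_cast; ring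
    rw [← hT] at hB₀
    unfold posC
    exact decomp_pos_arith P A Dn J (2 ^ t) n₁ n₂ Lmax B₀ _ j' _ hj1' hj2 hite0 hite1 hn₁ hn₂ hLmax hB₀
  have hT3eq : ∀ w, ∑ c ∈ range (2 ^ t), (tmS t c : ℝ) * WC θ P Dn J A c w =
      TMsum t (phiB θ (apL (posC P Dn 1) J (2 * J + 1)) Dn [] [] 0 A) w -
        TMsum t (phiB θ (apL (posC P Dn 0) J (2 * J + 1)) Dn [] [] 0 A) w := by
    intro w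
    have hg1 : Gap (posC P Dn 1) δ := Gap_posC' P hDZ (Or.inr rfl)
    have hg0 : Gap (posC P Dn 0) δ := Gap_posC' P hDZ (Or.inl rfl)
    have := TMsum_VV θ _ _ (apL_pairwise hg1 hδ1 (J : ℤ) (2 * J + 1)) (apL_pairwise hg0 hδ1 (J : ℤ) (2 * J + 1)) Dn t 0 A w
    rw [← this]
    rfl
  have hprod : (((2 ^ t * Dn : ℕ) : ℝ) ^ t) ^ 2 = (((2 ^ t : ℕ) : ℝ) ^ t) ^ 2 * ((Dn : ℝ) ^ t) ^ 2 := by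
    push_cast
    rw [mul_pow, mul_pow]
  rw [nsq_congr hT3eq]
  have h11 := hmom 1 (Or.inr rfl)
  have h10 := hmom 0 (Or.inl rfl)
  have h3 := nsq_sub_le h0 h1 B₀ (TMsum t (phiB θ (apL (posC P Dn 1) J (2 * J + 1)) Dn [] [] 0 A))
    (TMsum t (phiB θ (apL (posC P Dn 0) J (2 * J + 1)) Dn [] [] 0 A))
  rw [hprod] at h11 h10
  refine h3.trans ?_
  have e : 4 * (4 ^ t * (C3 * (((2 ^ t : ℕ) : ℝ) ^ t) ^ 2)) * (((Dn : ℝ) ^ t) ^ 2 * (rhoL n₁ ^ (2 * t + 1) * k *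
      ((1 / √(δ : ℝ)) ^ 2 + rhoL n₂ + |θ - q ^ 2|))) =
      2 * (4 ^ t * (C3 * ((((2 ^ t : ℕ) : ℝ) ^ t) ^ 2 * ((Dn : ℝ) ^ t) ^ 2) * rhoL n₁ ^ (2 * t + 1) * k *
        ((1 / √(δ : ℝ)) ^ 2 + rhoL n₂ + |θ - q ^ 2|))) +
      2 * (4 ^ t * (C3 * ((((2 ^ t : ℕ) : ℝ) ^ t) ^ 2 * ((Dn : ℝ) ^ t) ^ 2) * rhoL n₁ ^ (2 * t + 1) * k *
        ((1 / √(δ : ℝ)) ^ 2 + rhoL n₂ + |θ - q ^ 2|))) := by ring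
  rw [e]
  linarith

/-- The main bound on the difference of the two configurations. -/
theorem decomp_bound {q θ₀ θ₁ : ℝ} (h0 : 0 < q) (h1 : q < 1) (hθ₀ : 0 < θ₀) (hθ₁ : θ₁ < 1) (t : ℕ) :
    ∃ Cs C : ℝ, 1 ≤ Cs ∧ 0 < C ∧ ∀ θ ∈ Set.Icc θ₀ θ₁,
      ∀ (P A : ℤ) (Dn J δ k Lmax B₀ n₁ n₂ L₀ Lf : ℕ) (𝓛 𝓕 : ℝ), Par q θ δ k Lmax 𝓛 Cs →
        FarPar δ Lf 𝓕 → A ≤ Lf →
        δ + 1 ≤ Dn → 1 ≤ J → 2 * J + 2 ^ t + 1 ≤ k →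
        (n₁ : ℤ) + 1 ≤ P - J * Dn → P + ((J : ℤ) + 2 ^ t) * Dn + 2 + n₂ ≤ A →
        ((J : ℤ) + 2 ^ t + J) * Dn ≤ Lmax → 2 * A + 2 * ((t * (2 ^ t * Dn) : ℕ) : ℤ) ≤ (B₀ : ℤ) →
        rhoL n₁ ^ 2 ≤ (1 / √(δ : ℝ)) ^ 3 → rhoL n₂ ^ 2 ≤ (1 / √(δ : ℝ)) ^ 3 → δ ≤ n₂ + 1 →
        (L₀ : ℤ) ≤ J * Dn →
        ((t * (2 ^ t * Dn) : ℕ) : ℤ) * 4 ≤ n₁ + 1 → ((t * (2 ^ t * Dn) : ℕ) : ℤ) * 4 ≤ n₂ + 1 → n₁ ≤ n₂ →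
        nsq q B₀ (fun w => UC θ P Dn J (2 ^ t) A (sxT t) w - UC θ P Dn J (2 ^ t) A (syT t) w) ≤
          C * (𝓕 * (rhoL n₁ * ((rhoL n₂ + |θ - q ^ 2|) * (1 / √(δ : ℝ)) ^ 5 + √(k : ℝ) * (1 / √(δ : ℝ)) ^ 8)) +
            (rhoL n₁ * rhoL n₂ + |θ - q ^ 2| * rhoL n₁ + |θ - q ^ 2| * rhoL n₂) *
              (𝓛 * (1 / √(δ : ℝ)) ^ 3 * rhoL L₀ + rhoL L₀ ^ 3) +
            ((Dn : ℝ) ^ t) ^ 2 * rhoL n₁ ^ (2 * t + 1) * k *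
              ((1 / √(δ : ℝ)) ^ 2 + rhoL n₂ + |θ - q ^ 2|)) := by
  obtain ⟨Cs1, C1, hCs1, hC1, hT1⟩ := decomp_T1 (θ₀ := θ₀) (θ₁ := θ₁) h0 h1 hθ₀ hθ₁ t
  obtain ⟨Cs2, C2, hCs2, hC2, hT2⟩ := decomp_T2 (θ₀ := θ₀) (θ₁ := θ₁) h0 h1 hθ₀ hθ₁ t
  obtain ⟨Cs3, C3, hCs3, hC3, hT3⟩ := decomp_T3 (θ₀ := θ₀) (θ₁ := θ₁) h0 h1 hθ₀ hθ₁ t
  refine ⟨max Cs1 (max Cs2 Cs3),
    4 * ((2 ^ t : ℕ) : ℝ) ^ 4 * C1 + 4 * ((2 ^ t : ℕ) : ℝ) ^ 4 * C2 + 2 * C3 + 1,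
    le_max_of_le_left hCs1, by positivity, ?_⟩
  intro θ hθ P A Dn J δ k Lmax B₀ n₁ n₂ L₀ Lf 𝓛 𝓕 hP hFP hALf hDn hJ hk hn₁ hn₂ hLmax hB₀ hρ₁ hρ₂ hδn hL₀ hm₁ hm₂ hn₁₂
  have hP1 : Par q θ δ k Lmax 𝓛 Cs1 := hP.mono (le_max_left _ _)
  have hP2 : Par q θ δ k Lmax 𝓛 Cs2 := hP.mono ((le_max_left _ _).trans (le_max_right _ _))
  have hP3 : Par q θ δ k Lmax 𝓛 Cs3 := hP.mono ((le_max_right _ _).trans (le_max_right _ _))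
  have hKZ : (((2 ^ t : ℕ) : ℤ)) = 2 ^ t := by push_cast; rfl
  have hn₂' : P + ((J : ℤ) + ((2 ^ t : ℕ) : ℤ)) * Dn + 2 + n₂ ≤ A := by rw [hKZ]; exact hn₂
  have hLmax' : ((J : ℤ) + ((2 ^ t : ℕ) : ℤ) + J) * Dn ≤ Lmax := by rw [hKZ]; exact hLmax
  have hT0 : (0 : ℤ) ≤ ((t * (2 ^ t * Dn) : ℕ) : ℤ) := by positivity
  have hA0 : 2 * A ≤ (B₀ : ℤ) := by linarith
  have h1' := hT1 θ hθ P A Dn J δ k Lmax B₀ n₁ n₂ Lf 𝓛 𝓕 hP1 hFP hALf hDn hk hn₁ hn₂' hLmax' hA0 hρ₁ hδn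
  have h2' := hT2 θ hθ P A Dn J δ k Lmax B₀ n₁ n₂ L₀ 𝓛 hP2 hDn hJ hk hn₁ hn₂' hLmax' hA0 hρ₁ hρ₂ hL₀
  have h3' := hT3 θ hθ P A Dn J δ k Lmax B₀ n₁ n₂ 𝓛 hP3 hDn hk hn₁ hn₂' hLmax' hB₀ hm₁ hm₂ hn₁₂
  have hdec : ∀ w, UC θ P Dn J (2 ^ t) A (sxT t) w - UC θ P Dn J (2 ^ t) A (syT t) w =
      ((UC θ P Dn J (2 ^ t) A (sxT t) w - UC θ P Dn J (2 ^ t) A (syT t) w -
          ∑ c ∈ range (2 ^ t), (tmS t c : ℝ) * DeltaC θ P Dn J (2 ^ t) A c w) +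
        ∑ c ∈ range (2 ^ t), (tmS t c : ℝ) * (DeltaC θ P Dn J (2 ^ t) A c w - WC θ P Dn J A c w)) +
        ∑ c ∈ range (2 ^ t), (tmS t c : ℝ) * WC θ P Dn J A c w := by
    intro w
    have e : ∑ c ∈ range (2 ^ t), (tmS t c : ℝ) * (DeltaC θ P Dn J (2 ^ t) A c w - WC θ P Dn J A c w) =
        ∑ c ∈ range (2 ^ t), (tmS t c : ℝ) * DeltaC θ P Dn J (2 ^ t) A c w -
          ∑ c ∈ range (2 ^ t), (tmS t c : ℝ) * WC θ P Dn J A c w := by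
      rw [← sum_sub_distrib]
      apply sum_congr rfl
      intro c _
      ring
    rw [e]
    ring
  rw [nsq_congr hdec]
  refine (nsq_add_le h0 h1 B₀ _ _).trans ?_
  have hstep := nsq_add_le h0 h1 B₀ (fun w => UC θ P Dn J (2 ^ t) A (sxT t) w - UC θ P Dn J (2 ^ t) A (syT t) w -
          ∑ c ∈ range (2 ^ t), (tmS t c : ℝ) * DeltaC θ P Dn J (2 ^ t) A c w)
    (fun w => ∑ c ∈ range (2 ^ t), (tmS t c : ℝ) * (DeltaC θ P Dn J (2 ^ t) A c w - WC θ P Dn J A c w))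
  have hr₁0 : 0 ≤ rhoL n₁ := rhoL_nonneg _
  have hr₂0 : 0 ≤ rhoL n₂ := rhoL_nonneg _
  have hrL0 : 0 ≤ rhoL L₀ := rhoL_nonneg _
  generalize rhoL n₁ = r₁ at *
  generalize rhoL n₂ = r₂ at *
  generalize rhoL L₀ = r₀ at *
  have hε0 : 0 ≤ |θ - q ^ 2| := abs_nonneg _
  have hs0 : 0 ≤ 1 / √(δ : ℝ) := by positivity
  have hk0 : (0 : ℝ) ≤ (k : ℝ) := by positivity
  have hsk0 : (0 : ℝ) ≤ √(k : ℝ) := Real.sqrt_nonneg _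
  have h𝓕0 : (0 : ℝ) ≤ 𝓕 := by have := hFP.h𝓕; linarith
  have h𝓛0 : (0 : ℝ) ≤ 𝓛 := by have := hP.h𝓛; linarith
  have hD0 : 0 ≤ ((Dn : ℝ) ^ t) ^ 2 := by positivity
  generalize |θ - q ^ 2| = ε at *
  generalize 1 / √(δ : ℝ) = s3 at *
  generalize ((Dn : ℝ) ^ t) ^ 2 = D2 at *
  have hK4 : 0 ≤ ((2 ^ t : ℕ) : ℝ) ^ 4 := by positivity
  generalize ((2 ^ t : ℕ) : ℝ) ^ 4 = K4 at *
  set A1 : ℝ := 𝓕 * (r₁ * ((r₂ + ε) * s3 ^ 5 + √(k : ℝ) * s3 ^ 8)) with hA1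
  set E1 : ℝ := (r₁ * r₂ + ε * r₁ + ε * r₂) * (𝓛 * s3 ^ 3 * r₀ + r₀ ^ 3) with hE1
  set M3 : ℝ := D2 * (r₁ ^ (2 * t + 1) * k * (s3 ^ 2 + r₂ + ε)) with hM3
  have hA10 : 0 ≤ A1 := by positivity
  have hE10 : 0 ≤ E1 := by positivity
  have hM30 : 0 ≤ M3 := by positivity
  have hrew : D2 * r₁ ^ (2 * t + 1) * k * (s3 ^ 2 + r₂ + ε) = M3 := by
    rw [hM3]
    ring
  rw [hrew]
  have hC : (4 * K4 * C1 + 4 * K4 * C2 + 2 * C3 + 1) * (A1 + E1 + M3) =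
      4 * K4 * C1 * A1 + 4 * K4 * C2 * E1 + 2 * C3 * M3 +
      (4 * K4 * C1 * (E1 + M3) + 4 * K4 * C2 * (A1 + M3) + 2 * C3 * (A1 + E1) + (A1 + E1 + M3)) := by ring
  rw [hC]
  have hrem : 0 ≤ 4 * K4 * C1 * (E1 + M3) + 4 * K4 * C2 * (A1 + M3) + 2 * C3 * (A1 + E1) + (A1 + E1 + M3) := by
    positivity
  have h1e : K4 * (C1 * A1) = K4 * C1 * A1 := by ring
  have h2e : K4 * (C2 * E1) = K4 * C2 * E1 := by ring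
  rw [h1e] at h1'
  rw [h2e] at h2'
  linarith

end Vale.Agent.Lib.P321B
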