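import Vale.Agent.Lib.P321.NumCore
import Vale.Agent.Lib.P321B.DecompB

/-!
P321: choice of the parameters and proof of the statement of the analytic core, new parameters.
`δ = x^(2 crd)`, `Dn = δ+1`, `J = x^(2 j')`, `K = 2^t`, `k = 3 x^(2 j')`, `Lmax = 3 x^(2 crd + 2 j')`, `P = x^p`,
`n₁ = x^(2 r₁)`, `n₂ = x^(2 r₂)`, `L₀ = x^(2 crd + 2 j')`, `𝓛 = x`, `𝓕 = x^cF`, `Lf = 3 x^(2 a')`.
-/

namespace Vale.Agent.Lib.P321B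

open Finset Vale.Agent.Lib.P321

/-- The analytic core for sets of size up to a power of `lam`: for all large `lam` and `A ∈ [lam^a, 2 lam^a]` there are
two distinct well spaced site sets in a short window whose count differences, multiplied by the weights of any grid point
`th q A g`, have reference norm at most `lam^(-V)`. -/
def CoreStatementB (q : ℝ) (a pP dlt j V : ℕ) : Prop :=
  ∀ Cg : ℕ, ∃ lam₀ : ℕ, ∀ lam A : ℕ, lam₀ ≤ lam → lam ^ a ≤ A → A ≤ 2 * lam ^ a →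
    ∃ Dx Dy : Finset ℤ, Dx ≠ Dy ∧
      (∀ d ∈ Dx, ((lam : ℤ) ^ dlt ≤ d ∧ d ≤ 2 * (lam : ℤ) ^ pP ∧ (lam : ℤ) ^ pP ≤ 2 * d)) ∧
      (∀ d ∈ Dy, ((lam : ℤ) ^ dlt ≤ d ∧ d ≤ 2 * (lam : ℤ) ^ pP ∧ (lam : ℤ) ^ pP ≤ 2 * d)) ∧
      (∀ d ∈ Dx, ∀ d' ∈ Dx, d ≠ d' → (lam : ℤ) ^ dlt ≤ |d - d'|) ∧
      (∀ d ∈ Dy, ∀ d' ∈ Dy, d ≠ d' → (lam : ℤ) ^ dlt ≤ |d - d'|) ∧
      (∀ d ∈ Dx, ∀ d' ∈ Dx, |d - d'| ≤ 3 * (lam : ℤ) ^ (dlt + j)) ∧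
      (∀ d ∈ Dy, ∀ d' ∈ Dy, |d - d'| ≤ 3 * (lam : ℤ) ^ (dlt + j)) ∧
      Dx.card ≤ 3 * lam ^ j ∧ Dy.card ≤ 3 * lam ^ j ∧
      ∀ g : ℤ, |g| ≤ Cg * lam →
        nsq q (2 * A) (fun t => ((cnt (blockStr Dx 0 A) t : ℝ) - cnt (blockStr Dy 0 A) t) *
          (1 - th q A g) ^ (t.length + 1) * th q A g ^ ((A : ℤ) - (H t : ℤ))) ≤ 1 / (lam : ℝ) ^ V

theorem nc_h3' {x K j dlt : ℕ} (hx : 64 * (K + 1) ≤ x) (hj : 2 ≤ j) (hd : 1 ≤ dlt) :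
    (x ^ j + K + x ^ j) * (x ^ dlt + 1) + 1 ≤ 3 * x ^ (dlt + j) := by
  have hx1 : 1 ≤ x := by omega
  have e : (x ^ j + K + x ^ j) * (x ^ dlt + 1) =
      2 * x ^ (dlt + j) + 2 * x ^ j + K * x ^ dlt + K := by ring
  rw [e]
  have hq : 64 * (K + 1) * x ^ (dlt + (j - 1)) ≤ x ^ (dlt + j) := pw hx hx1 (by omega)
  have e2 : 64 * (K + 1) * x ^ (dlt + (j - 1)) = 64 * (K * x ^ (dlt + (j - 1))) + 64 * x ^ (dlt + (j - 1)) := by ring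
  rw [e2] at hq
  have h5 : x ^ j ≤ x ^ (dlt + (j - 1)) := pmono hx1 (by omega)
  have h6 : x ^ dlt ≤ x ^ (dlt + (j - 1)) := pmono hx1 (by omega)
  have h7 : K * x ^ dlt ≤ K * x ^ (dlt + (j - 1)) := Nat.mul_le_mul_left _ h6
  have h8 : K * 1 ≤ K * x ^ (dlt + (j - 1)) := Nat.mul_le_mul_left _ (one_le_pw hx1)
  have h9 : 1 ≤ x ^ (dlt + (j - 1)) := one_le_pw hx1
  omega

theorem nc_h9 {x j dlt p : ℕ} (hx : 8 ≤ x) (h2 : dlt + j < p) :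
    2 * (x ^ j * (x ^ dlt + 1)) ≤ x ^ p := by
  have hx1 : 1 ≤ x := by omega
  have e : x ^ j * (x ^ dlt + 1) = x ^ (dlt + j) + x ^ j := by ring
  rw [e]
  have h4 : 8 * x ^ (dlt + j) ≤ x ^ p := pw (by omega) hx1 h2
  have h7 : x ^ j ≤ x ^ (dlt + j) := pmono hx1 (by omega)
  omega

/-- The parameters are admissible. -/
theorem par_inst {q θ Cs : ℝ} {x crd j' R : ℕ} (hx : (2 * (2 * crd + 2 * j') + 4) ^ 2 ≤ x) (hx6 : 6 ≤ x)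
    (hCs : 4 * Cs ≤ x) (hcrd : 1 ≤ crd) (hj : j' + 2 ≤ crd) (hR1 : 2 * crd + 2 * j' ≤ 2 * R) (hR2 : R + 1 ≤ 2 * crd)
    (hε : |θ - q ^ 2| ≤ (1 / (x : ℝ)) ^ (2 * crd)) :
    Par q θ (x ^ (2 * crd)) (3 * x ^ (2 * j')) (3 * x ^ (2 * crd + 2 * j')) x Cs := by
  have hx1 : 1 ≤ x := by omega
  have hx0 : (0 : ℝ) < x := by exact_mod_cast hx1
  have hx1' : (1 : ℝ) ≤ x := by exact_mod_cast hx1
  have hu0 : 0 < 1 / (x : ℝ) := by positivity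
  have hu1 : 1 / (x : ℝ) ≤ 1 := by
    rw [div_le_one hx0]
    exact hx1'
  have hs : √(((x ^ (2 * crd) : ℕ) : ℝ)) = (x : ℝ) ^ crd := nc_sqrt
  have hδ : (1 : ℝ) / ((x ^ (2 * crd) : ℕ) : ℝ) = (1 / (x : ℝ)) ^ (2 * crd) := by
    push_cast
    rw [div_pow, one_pow]
  have hCs' : Cs * x ≤ (x : ℝ) ^ 2 / 4 := by
    have : Cs * x ≤ ((x : ℝ) / 4) * x := mul_le_mul_of_nonneg_right (by linarith) hx0.le
    calc Cs * x ≤ ((x : ℝ) / 4) * x := this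
      _ = (x : ℝ) ^ 2 / 4 := by ring
  refine ⟨?_, ?_, hx1', ?_, ?_, ?_, ?_, ?_⟩
  · have h2 : x ^ 1 ≤ x ^ (2 * crd) := pmono hx1 (by omega)
    rw [pow_one] at h2
    omega
  · have := one_le_pw (x := x) (a := 2 * j') hx1
    omega
  · exact nc_harm hx hx6
  · -- zone
    rw [hδ]
    have h1 : (1 / (x : ℝ)) ^ (2 * crd) + |θ - q ^ 2| ≤ 2 * (1 / (x : ℝ)) ^ (2 * crd) := by linarith
    have h2 : √(((3 * x ^ (2 * crd + 2 * j') : ℕ) : ℝ) + 1) ≤ 2 * (x : ℝ) ^ R := by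
      apply Real.sqrt_le_iff.mpr
      refine ⟨by positivity, ?_⟩
      push_cast
      have h3 : (1 : ℝ) ≤ (x : ℝ) ^ (2 * crd + 2 * j') := one_le_pow₀ hx1'
      have h4 : (x : ℝ) ^ (2 * crd + 2 * j') ≤ (x : ℝ) ^ (2 * R) := pow_le_pow_right₀ hx1' hR1
      calc 3 * (x : ℝ) ^ (2 * crd + 2 * j') + 1 ≤ 4 * (x : ℝ) ^ (2 * R) := by linarith
        _ = (2 * (x : ℝ) ^ R) ^ 2 := by ring
    calc ((1 / (x : ℝ)) ^ (2 * crd) + |θ - q ^ 2|) * √(((3 * x ^ (2 * crd + 2 * j') : ℕ) : ℝ) + 1)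
        ≤ (2 * (1 / (x : ℝ)) ^ (2 * crd)) * (2 * (x : ℝ) ^ R) :=
          mul_le_mul h1 h2 (Real.sqrt_nonneg _) (by positivity)
      _ ≤ (2 * (1 / (x : ℝ)) ^ (R + 1)) * (2 * (x : ℝ) ^ R) := by
          have h5 : (1 / (x : ℝ)) ^ (2 * crd) ≤ (1 / (x : ℝ)) ^ (R + 1) :=
            pow_le_pow_of_le_one hu0.le hu1 hR2
          apply mul_le_mul_of_nonneg_right _ (by positivity)
          linarith
      _ = 4 * (1 / (x : ℝ)) := by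
          rw [div_pow, one_pow, pow_succ]
          field_simp
          norm_num
      _ ≤ 1 := by
          have h3 : (4 : ℝ) ≤ x := by
            have : (6 : ℝ) ≤ x := by exact_mod_cast hx6
            linarith
          rw [mul_one_div, div_le_one hx0]
          exact h3
  · rw [hδ]
    exact hε
  · -- small1
    rw [hs]
    have hk : √(((3 * x ^ (2 * j') : ℕ) : ℝ)) ≤ 2 * (x : ℝ) ^ j' := by
      apply Real.sqrt_le_iff.mpr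
      refine ⟨by positivity, ?_⟩
      push_cast
      have h3 : 0 ≤ (x : ℝ) ^ (2 * j') := by positivity
      calc 3 * (x : ℝ) ^ (2 * j') ≤ 4 * (x : ℝ) ^ (2 * j') := by linarith
        _ = (2 * (x : ℝ) ^ j') ^ 2 := by ring
    calc Cs * (x : ℝ) * √(((3 * x ^ (2 * j') : ℕ) : ℝ)) ≤ ((x : ℝ) ^ 2 / 4) * (2 * (x : ℝ) ^ j') :=
          mul_le_mul hCs' hk (Real.sqrt_nonneg _) (by positivity)
      _ ≤ (x : ℝ) ^ crd := by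
          have h3 : (x : ℝ) ^ (j' + 2) ≤ (x : ℝ) ^ crd := pow_le_pow_right₀ hx1' hj
          have e : ((x : ℝ) ^ 2 / 4) * (2 * (x : ℝ) ^ j') = 1 / 2 * (x : ℝ) ^ (j' + 2) := by ring
          rw [e]
          have h4 : 0 < (x : ℝ) ^ (j' + 2) := by positivity
          linarith
  · have h2 : x ^ (2 * j') ≤ x ^ (2 * crd + 2 * j') := pmono hx1 (by omega)
    omega

/-- The final numerical inequality. -/
theorem num_final {x crd j' t r₁ r₂ r₀ e e' V cF : ℕ} {ρ₁ ρ₂ ρ₀ ε C : ℝ} (hx : 2 ≤ x) (hρ₁0 : 0 ≤ ρ₁) (hρ₂0 : 0 ≤ ρ₂)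
    (hρ₀0 : 0 ≤ ρ₀) (hε0 : 0 ≤ ε) (hC : 0 < C)
    (hρ₁ : ρ₁ ≤ (1 / (x : ℝ)) ^ r₁) (hρ₂ : ρ₂ ≤ (1 / (x : ℝ)) ^ r₂) (hρ₀ : ρ₀ ≤ (1 / (x : ℝ)) ^ r₀)
    (hε : ε ≤ (1 / (x : ℝ)) ^ e) (hCx : C * (11 + 9 * 2 ^ (2 * t)) ≤ x)
    (he'1 : e' ≤ e) (he'2 : e' ≤ r₂) (hr₁₂ : r₁ ≤ r₂) (hrd : 2 * crd ≤ r₂) (hde : 2 * crd ≤ e) (hcrd1 : 1 ≤ crd)
    (hV1 : V + 1 + cF ≤ r₁ + e' + 5 * crd) (hV1' : V + 1 + cF + j' ≤ r₁ + 8 * crd)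
    (hV2 : V + 2 ≤ r₁ + e' + 3 * crd + r₀) (hV2' : V + 1 ≤ r₁ + e' + 3 * r₀)
    (hV3 : V + 1 + (2 * t * (2 * crd) + 2 * j') ≤ r₁ * (2 * t + 1) + 2 * crd) :
    C * ((x : ℝ) ^ cF * (ρ₁ * ((ρ₂ + ε) * ((1 / (x : ℝ)) ^ crd) ^ 5 + √((3 * x ^ (2 * j') : ℕ) : ℝ) * ((1 / (x : ℝ)) ^ crd) ^ 8)) +
        (ρ₁ * ρ₂ + ε * ρ₁ + ε * ρ₂) * ((x : ℝ) * ((1 / (x : ℝ)) ^ crd) ^ 3 * ρ₀ + ρ₀ ^ 3) +
        (((x ^ (2 * crd) + 1 : ℕ) : ℝ) ^ t) ^ 2 * ρ₁ ^ (2 * t + 1) * ((3 * x ^ (2 * j') : ℕ) : ℝ) *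
          (((1 / (x : ℝ)) ^ crd) ^ 2 + ρ₂ + ε)) ≤ 1 / (x : ℝ) ^ V := by
  have hx1 : (1 : ℝ) ≤ x := by
    have : (2 : ℝ) ≤ x := by exact_mod_cast hx
    linarith
  have hx0 : (0 : ℝ) < x := by linarith
  obtain ⟨u, hu⟩ : ∃ u : ℝ, u = 1 / (x : ℝ) := ⟨_, rfl⟩
  rw [← hu] at hρ₁ hρ₂ hρ₀ hε ⊢
  have hu0 : 0 < u := by rw [hu]; positivity
  have hu1 : u ≤ 1 := by
    rw [hu, div_le_one hx0]
    exact hx1
  have hxu : (x : ℝ) * u = 1 := by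
    rw [hu]
    field_simp
  have hpow : ∀ m : ℕ, (x : ℝ) ^ m * u ^ m = 1 := by
    intro m
    rw [← mul_pow, hxu, one_pow]
  have hmono : ∀ {a b : ℕ}, a ≤ b → u ^ b ≤ u ^ a := fun h => pow_le_pow_of_le_one hu0.le hu1 h
  have hE : 0 ≤ u ^ (V + 1) := by positivity
  -- first term
  have hρε : ρ₂ + ε ≤ 2 * u ^ e' := by
    have h1 := hρ₂.trans (hmono he'2)
    have h2 := hε.trans (hmono he'1)
    linarith
  have hsk : √((3 * x ^ (2 * j') : ℕ) : ℝ) ≤ 2 * (x : ℝ) ^ j' := by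
    apply Real.sqrt_le_iff.mpr
    refine ⟨by positivity, ?_⟩
    push_cast
    have h3 : 0 ≤ (x : ℝ) ^ (2 * j') := by positivity
    calc 3 * (x : ℝ) ^ (2 * j') ≤ 4 * (x : ℝ) ^ (2 * j') := by linarith
      _ = (2 * (x : ℝ) ^ j') ^ 2 := by ring
  have hsk0 : 0 ≤ √((3 * x ^ (2 * j') : ℕ) : ℝ) := Real.sqrt_nonneg _
  have hV1t : (x : ℝ) ^ cF * (ρ₁ * ((ρ₂ + ε) * (u ^ crd) ^ 5 + √((3 * x ^ (2 * j') : ℕ) : ℝ) * (u ^ crd) ^ 8)) ≤ 5 * u ^ (V + 1) := by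
    have hk : (x : ℝ) ^ cF * (ρ₁ * (√((3 * x ^ (2 * j') : ℕ) : ℝ) * (u ^ crd) ^ 8)) ≤ 3 * u ^ (V + 1) := by
      have e1 : (u ^ crd) ^ 8 = u ^ (8 * crd) := by ring
      have h1 : u ^ r₁ * u ^ (8 * crd) = u ^ (cF + j') * u ^ (r₁ + 8 * crd - (cF + j')) := by
        rw [← pow_add, ← pow_add]
        congr 1
        omega
      have h2 : ρ₁ * (√((3 * x ^ (2 * j') : ℕ) : ℝ) * (u ^ crd) ^ 8) ≤ u ^ r₁ * ((2 * (x : ℝ) ^ j') * (u ^ crd) ^ 8) :=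
        mul_le_mul hρ₁ (mul_le_mul_of_nonneg_right hsk (by positivity)) (by positivity) (by positivity)
      calc (x : ℝ) ^ cF * (ρ₁ * (√((3 * x ^ (2 * j') : ℕ) : ℝ) * (u ^ crd) ^ 8))
          ≤ (x : ℝ) ^ cF * (u ^ r₁ * ((2 * (x : ℝ) ^ j') * (u ^ crd) ^ 8)) :=
            mul_le_mul_of_nonneg_left h2 (by positivity)
        _ = 2 * ((x : ℝ) ^ (cF + j') * (u ^ r₁ * u ^ (8 * crd))) := by rw [e1, pow_add]; ring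
        _ = 2 * ((x : ℝ) ^ (cF + j') * u ^ (cF + j')) * u ^ (r₁ + 8 * crd - (cF + j')) := by rw [h1]; ring
        _ = 2 * u ^ (r₁ + 8 * crd - (cF + j')) := by rw [hpow]; ring
        _ ≤ 2 * u ^ (V + 1) := by
            have := hmono (by omega : V + 1 ≤ r₁ + 8 * crd - (cF + j'))
            linarith
        _ ≤ 3 * u ^ (V + 1) := by linarith
    have h1 : (ρ₂ + ε) * (u ^ crd) ^ 5 ≤ 2 * u ^ e' * (u ^ crd) ^ 5 :=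
      mul_le_mul_of_nonneg_right hρε (by positivity)
    have h2 : ρ₁ * ((ρ₂ + ε) * (u ^ crd) ^ 5) ≤ u ^ r₁ * (2 * u ^ e' * (u ^ crd) ^ 5) :=
      mul_le_mul hρ₁ h1 (by positivity) (by positivity)
    have e2 : (x : ℝ) ^ cF * (u ^ r₁ * (2 * u ^ e' * (u ^ crd) ^ 5)) = 2 * u ^ (r₁ + e' + 5 * crd - cF) := by
      have e3 : r₁ + e' + 5 * crd = cF + (r₁ + e' + 5 * crd - cF) := by omega
      have e4 : u ^ r₁ * (2 * u ^ e' * (u ^ crd) ^ 5) = 2 * u ^ (r₁ + e' + 5 * crd) := by ring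
      rw [e4, e3, pow_add u]
      have e5 : cF + (r₁ + e' + 5 * crd - cF) - cF = r₁ + e' + 5 * crd - cF := by omega
      rw [e5]
      calc (x : ℝ) ^ cF * (2 * (u ^ cF * u ^ (r₁ + e' + 5 * crd - cF))) =
          2 * ((x : ℝ) ^ cF * u ^ cF) * u ^ (r₁ + e' + 5 * crd - cF) := by ring
        _ = _ := by rw [hpow]; ring
    have h3 : u ^ (r₁ + e' + 5 * crd - cF) ≤ u ^ (V + 1) := hmono (by omega)
    have h4 : (x : ℝ) ^ cF * (ρ₁ * ((ρ₂ + ε) * (u ^ crd) ^ 5)) ≤ (x : ℝ) ^ cF * (u ^ r₁ * (2 * u ^ e' * (u ^ crd) ^ 5)) :=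
      mul_le_mul_of_nonneg_left h2 (by positivity)
    rw [mul_add, mul_add]
    linarith
  -- second term
  have hV2t : (ρ₁ * ρ₂ + ε * ρ₁ + ε * ρ₂) * ((x : ℝ) * (u ^ crd) ^ 3 * ρ₀ + ρ₀ ^ 3) ≤ 6 * u ^ (V + 1) := by
    have h1 : ρ₁ * ρ₂ ≤ u ^ r₁ * u ^ r₂ := mul_le_mul hρ₁ hρ₂ hρ₂0 (by positivity)
    have h2 : ε * ρ₁ ≤ u ^ e * u ^ r₁ := mul_le_mul hε hρ₁ hρ₁0 (by positivity)
    have h3 : ε * ρ₂ ≤ u ^ e * u ^ r₂ := mul_le_mul hε hρ₂ hρ₂0 (by positivity)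
    have e1 : u ^ r₁ * u ^ r₂ = u ^ (r₁ + r₂) := by ring
    have e2 : u ^ e * u ^ r₁ = u ^ (r₁ + e) := by ring
    have e3 : u ^ e * u ^ r₂ = u ^ (e + r₂) := by ring
    have h4 : u ^ (r₁ + r₂) ≤ u ^ (r₁ + e') := hmono (by omega)
    have h4' : u ^ (r₁ + e) ≤ u ^ (r₁ + e') := hmono (by omega)
    have h5 : u ^ (e + r₂) ≤ u ^ (r₁ + e') := hmono (by omega)
    have h6 : ρ₁ * ρ₂ + ε * ρ₁ + ε * ρ₂ ≤ 3 * u ^ (r₁ + e') := by linarith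
    have h7 : (x : ℝ) * (u ^ crd) ^ 3 * ρ₀ ≤ (x : ℝ) * (u ^ crd) ^ 3 * u ^ r₀ := mul_le_mul_of_nonneg_left hρ₀ (by positivity)
    have h8 : ρ₀ ^ 3 ≤ (u ^ r₀) ^ 3 := pow_le_pow_left₀ hρ₀0 hρ₀ 3
    have e5 : (u ^ r₀) ^ 3 = u ^ (3 * r₀) := by ring
    have h9 : (x : ℝ) * (u ^ crd) ^ 3 * u ^ r₀ = ((x : ℝ) * u) * u ^ (3 * crd + r₀ - 1) * u ^ 0 := by
      have e6 : 3 * crd + r₀ = 1 + (3 * crd + r₀ - 1) := by
        omega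
      have e7 : (u ^ crd) ^ 3 * u ^ r₀ = u ^ (3 * crd + r₀) := by ring
      rw [mul_assoc, e7]
      conv_lhs => rw [e6, pow_add u, pow_one]
      ring
    rw [hxu, one_mul, pow_zero, mul_one] at h9
    have h10 : u ^ (r₁ + e') * ((x : ℝ) * (u ^ crd) ^ 3 * ρ₀) ≤ u ^ (V + 1) := by
      have t1 : u ^ (r₁ + e') * ((x : ℝ) * (u ^ crd) ^ 3 * ρ₀) ≤ u ^ (r₁ + e') * u ^ (3 * crd + r₀ - 1) :=
        mul_le_mul_of_nonneg_left (h7.trans (le_of_eq h9)) (by positivity)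
      have t2 : u ^ (r₁ + e') * u ^ (3 * crd + r₀ - 1) = u ^ (r₁ + e' + (3 * crd + r₀ - 1)) := by ring
      have t3 : u ^ (r₁ + e' + (3 * crd + r₀ - 1)) ≤ u ^ (V + 1) := hmono (by omega)
      linarith
    have h11 : u ^ (r₁ + e') * ρ₀ ^ 3 ≤ u ^ (V + 1) := by
      have t1 : u ^ (r₁ + e') * ρ₀ ^ 3 ≤ u ^ (r₁ + e') * u ^ (3 * r₀) :=
        mul_le_mul_of_nonneg_left (h8.trans (le_of_eq e5)) (by positivity)
      have t2 : u ^ (r₁ + e') * u ^ (3 * r₀) = u ^ (r₁ + e' + 3 * r₀) := by ring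
      have t3 : u ^ (r₁ + e' + 3 * r₀) ≤ u ^ (V + 1) := hmono hV2'
      linarith
    calc (ρ₁ * ρ₂ + ε * ρ₁ + ε * ρ₂) * ((x : ℝ) * (u ^ crd) ^ 3 * ρ₀ + ρ₀ ^ 3)
        ≤ (3 * u ^ (r₁ + e')) * ((x : ℝ) * (u ^ crd) ^ 3 * ρ₀ + ρ₀ ^ 3) :=
          mul_le_mul_of_nonneg_right h6 (by positivity)
      _ = 3 * (u ^ (r₁ + e') * ((x : ℝ) * (u ^ crd) ^ 3 * ρ₀) + u ^ (r₁ + e') * ρ₀ ^ 3) := by ring
      _ ≤ 3 * (u ^ (V + 1) + u ^ (V + 1)) := by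
          apply mul_le_mul_of_nonneg_left _ (by norm_num)
          exact add_le_add h10 h11
      _ = 6 * u ^ (V + 1) := by ring
  -- third term
  have hV3t : (((x ^ (2 * crd) + 1 : ℕ) : ℝ) ^ t) ^ 2 * ρ₁ ^ (2 * t + 1) * ((3 * x ^ (2 * j') : ℕ) : ℝ) *
      ((u ^ crd) ^ 2 + ρ₂ + ε) ≤ 9 * 2 ^ (2 * t) * u ^ (V + 1) := by
    have h1 : ((x ^ (2 * crd) + 1 : ℕ) : ℝ) ≤ 2 * (x : ℝ) ^ (2 * crd) := by
      push_cast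
      have : (1 : ℝ) ≤ (x : ℝ) ^ (2 * crd) := one_le_pow₀ hx1
      linarith
    have h2 : (((x ^ (2 * crd) + 1 : ℕ) : ℝ) ^ t) ^ 2 ≤ ((2 * (x : ℝ) ^ (2 * crd)) ^ t) ^ 2 := by
      gcongr
    have h3 : ρ₁ ^ (2 * t + 1) ≤ (u ^ r₁) ^ (2 * t + 1) := pow_le_pow_left₀ hρ₁0 hρ₁ _
    have h4 : (u ^ crd) ^ 2 + ρ₂ + ε ≤ 3 * u ^ (2 * crd) := by
      have h5 := hρ₂.trans (hmono hrd)
      have h6 := hε.trans (hmono hde)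
      have e : (u ^ crd) ^ 2 = u ^ (2 * crd) := by ring
      rw [e]
      linarith
    have h5 : ((3 * x ^ (2 * j') : ℕ) : ℝ) = 3 * (x : ℝ) ^ (2 * j') := by push_cast; ring
    rw [h5]
    have e1 : r₁ * (2 * t + 1) + 2 * crd = (2 * t * (2 * crd) + 2 * j') + (r₁ * (2 * t + 1) + 2 * crd - (2 * t * (2 * crd) + 2 * j')) := by
      omega
    calc (((x ^ (2 * crd) + 1 : ℕ) : ℝ) ^ t) ^ 2 * ρ₁ ^ (2 * t + 1) * (3 * (x : ℝ) ^ (2 * j')) * ((u ^ crd) ^ 2 + ρ₂ + ε)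
        ≤ ((2 * (x : ℝ) ^ (2 * crd)) ^ t) ^ 2 * (u ^ r₁) ^ (2 * t + 1) * (3 * (x : ℝ) ^ (2 * j')) * (3 * u ^ (2 * crd)) := by
          have n1 : 0 ≤ ρ₁ ^ (2 * t + 1) := pow_nonneg hρ₁0 _
          have n2 : 0 ≤ ((2 * (x : ℝ) ^ (2 * crd)) ^ t) ^ 2 := sq_nonneg _
          have n3 : (0 : ℝ) ≤ 3 * (x : ℝ) ^ (2 * j') := by positivity
          have n4 : 0 ≤ (u ^ crd) ^ 2 + ρ₂ + ε := by positivity
          have n5 : 0 ≤ (u ^ r₁) ^ (2 * t + 1) := pow_nonneg (pow_nonneg hu0.le _) _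
          exact mul_le_mul (mul_le_mul_of_nonneg_right (mul_le_mul h2 h3 n1 n2) n3) h4 n4
            (mul_nonneg (mul_nonneg n2 n5) n3)
      _ = 9 * 2 ^ (2 * t) * ((x : ℝ) ^ (2 * t * (2 * crd) + 2 * j') * u ^ (r₁ * (2 * t + 1) + 2 * crd)) := by ring
      _ = 9 * 2 ^ (2 * t) * (((x : ℝ) ^ (2 * t * (2 * crd) + 2 * j') * u ^ (2 * t * (2 * crd) + 2 * j')) *
            u ^ (r₁ * (2 * t + 1) + 2 * crd - (2 * t * (2 * crd) + 2 * j'))) := by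
          conv_lhs => rw [e1, pow_add u]
          ring
      _ = 9 * 2 ^ (2 * t) * u ^ (r₁ * (2 * t + 1) + 2 * crd - (2 * t * (2 * crd) + 2 * j')) := by rw [hpow]; ring
      _ ≤ 9 * 2 ^ (2 * t) * u ^ (V + 1) := by
          apply mul_le_mul_of_nonneg_left _ (by positivity)
          exact hmono (by omega)
  have e : 1 / (x : ℝ) ^ V = u ^ V := by
    rw [hu, div_pow, one_pow]
  rw [e]
  have hsum := add_le_add (add_le_add hV1t hV2t) hV3t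
  calc _ ≤ C * (5 * u ^ (V + 1) + 6 * u ^ (V + 1) + 9 * 2 ^ (2 * t) * u ^ (V + 1)) :=
        mul_le_mul_of_nonneg_left hsum hC.le
    _ = (C * (11 + 9 * 2 ^ (2 * t))) * u * u ^ V := by ring
    _ ≤ (x : ℝ) * u * u ^ V := by
        apply mul_le_mul_of_nonneg_right _ (by positivity)
        exact mul_le_mul_of_nonneg_right hCx hu0.le
    _ = u ^ V := by rw [hxu]; ring

/-- Properties of the lists of sites. -/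
theorem sites_facts {x K dlt j p r₁ : ℕ} (hx : 64 * (K + 1) ≤ x) (h1 : dlt + j < p) (hr₁ : 2 * r₁ < p)
    (hd : dlt ≤ 2 * r₁) (hj2 : 2 ≤ j) (hd1 : 1 ≤ dlt) {ς : ℕ → ℤ} (hς : ∀ j, ς j = 0 ∨ ς j = 1) :
    (apL (posS ((x : ℤ) ^ p) ((x ^ dlt + 1 : ℕ) : ℤ) K ς) (((x ^ j : ℕ) : ℤ) + (K : ℤ))
        (2 * x ^ j + K + 1)).Pairwise (· > ·) ∧
    (∀ d ∈ apL (posS ((x : ℤ) ^ p) ((x ^ dlt + 1 : ℕ) : ℤ) K ς)
        (((x ^ j : ℕ) : ℤ) + (K : ℤ)) (2 * x ^ j + K + 1),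
        (x : ℤ) ^ dlt ≤ d ∧ d ≤ 2 * (x : ℤ) ^ p ∧ (x : ℤ) ^ p ≤ 2 * d) ∧
    Spaced (apL (posS ((x : ℤ) ^ p) ((x ^ dlt + 1 : ℕ) : ℤ) K ς)
        (((x ^ j : ℕ) : ℤ) + (K : ℤ)) (2 * x ^ j + K + 1)).toFinset (x ^ dlt) ∧
    (∀ d ∈ apL (posS ((x : ℤ) ^ p) ((x ^ dlt + 1 : ℕ) : ℤ) K ς)
        (((x ^ j : ℕ) : ℤ) + (K : ℤ)) (2 * x ^ j + K + 1),
      ∀ d' ∈ apL (posS ((x : ℤ) ^ p) ((x ^ dlt + 1 : ℕ) : ℤ) K ς)
        (((x ^ j : ℕ) : ℤ) + (K : ℤ)) (2 * x ^ j + K + 1), |d - d'| ≤ 3 * (x : ℤ) ^ (dlt + j)) := by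
  have hx1 : 1 ≤ x := by omega
  have hgap : Gap (posS ((x : ℤ) ^ p) ((x ^ dlt + 1 : ℕ) : ℤ) K ς) (x ^ dlt) :=
    Gap_posS hς (by push_cast; exact le_refl _)
  have hδ1 : 1 ≤ x ^ dlt := one_le_pw hx1
  have hD0 : (0 : ℤ) ≤ ((x ^ dlt + 1 : ℕ) : ℤ) := by positivity
  have hloc : ∀ d ∈ apL (posS ((x : ℤ) ^ p) ((x ^ dlt + 1 : ℕ) : ℤ) K ς)
        (((x ^ j : ℕ) : ℤ) + (K : ℤ)) (2 * x ^ j + K + 1),
      (x : ℤ) ^ p - ((x ^ j : ℕ) : ℤ) * ((x ^ dlt + 1 : ℕ) : ℤ) ≤ d ∧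
        d ≤ (x : ℤ) ^ p + (((x ^ j : ℕ) : ℤ) + (K : ℤ)) * ((x ^ dlt + 1 : ℕ) : ℤ) + 1 := by
    intro d hd'
    obtain ⟨j', h2, h3, rfl⟩ := mem_apL.mp hd'
    push_cast at h2 h3
    have hj : -(((x ^ j : ℕ) : ℤ)) ≤ j' := by
      push_cast
      omega
    have h4 := posS_ge (K := K) hς hD0 (P := (x : ℤ) ^ p) hj
    have hj2' : j' ≤ (((x ^ j : ℕ) : ℤ)) + (K : ℤ) := by
      push_cast
      omega
    have h5 := posS_le (K := K) hς hD0 (P := (x : ℤ) ^ p) hj2'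
    exact ⟨h4, h5⟩
  refine ⟨apL_pairwise hgap hδ1 _ _, ?_, apL_spaced hgap _ _, ?_⟩
  · intro d hd'
    obtain ⟨h4, h5⟩ := hloc d hd'
    have h6 : ((x ^ (2 * r₁) + 1 + x ^ j * (x ^ dlt + 1) : ℕ) : ℤ) ≤ ((x ^ p : ℕ) : ℤ) := by
      exact_mod_cast nc_h1 (by omega) hr₁ h1 (by omega)
    have h7 : (((x ^ j + K) * (x ^ dlt + 1) + 1 : ℕ) : ℤ) ≤ ((x ^ p : ℕ) : ℤ) := by
      exact_mod_cast nc_h8 hx h1
    have h8 : ((x ^ dlt : ℕ) : ℤ) ≤ ((x ^ (2 * r₁) : ℕ) : ℤ) := by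
      exact_mod_cast pmono hx1 hd
    have h9 : ((2 * (x ^ j * (x ^ dlt + 1)) : ℕ) : ℤ) ≤ ((x ^ p : ℕ) : ℤ) := by
      exact_mod_cast nc_h9 (by omega) h1
    push_cast at h4 h5 h6 h7 h8 h9 ⊢
    refine ⟨by linarith, by linarith, by linarith⟩
  · intro d hd' d' hd''
    obtain ⟨h4, h5⟩ := hloc d hd'
    obtain ⟨h6, h7⟩ := hloc d' hd''
    have h8 : (((x ^ j + K + x ^ j) * (x ^ dlt + 1) + 1 : ℕ) : ℤ) ≤ ((3 * x ^ (dlt + j) : ℕ) : ℤ) := by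
      exact_mod_cast nc_h3' hx hj2 hd1
    push_cast at h4 h5 h6 h7 h8 ⊢
    rw [abs_le]
    constructor <;> nlinarith

set_option maxHeartbeats 1500000 in
/-- The analytic core for exponents satisfying the linear constraints. -/
theorem core_gen {q : ℝ} (h0 : 0 < q) (h1 : q < 1) {a' p crd j' r₁ r₂ r₀ R e e' t V cF : ℕ}
    (hj1 : 1 ≤ j') (hjc : j' + 2 ≤ crd) (hp1 : 2 * crd + 2 * j' < p) (hr₁ : 2 * r₁ < p) (hpr₂ : p ≤ 2 * r₂)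
    (hr₂a : 2 * r₂ < 2 * a') (hr₁₂ : r₁ ≤ r₂) (h2crd : 2 * crd < 2 * r₁) (h3crd : 3 * crd ≤ 2 * r₁)
    (hr₀ : 2 * r₀ ≤ 2 * crd + 2 * j') (hR1 : 2 * crd + 2 * j' ≤ 2 * R) (hR2 : R + 1 ≤ 2 * crd) (hae : a' = e + 2)
    (hde : 2 * crd ≤ e) (he'1 : e' ≤ e) (he'2 : e' ≤ r₂) (hrd : 2 * crd ≤ r₂)
    (hcF1 : 1 ≤ cF) (hcF : 2 * a' < cF + 4 * crd)
    (hV1 : V + 1 + cF ≤ r₁ + e' + 5 * crd) (hV1' : V + 1 + cF + j' ≤ r₁ + 8 * crd)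
    (hV2 : V + 2 ≤ r₁ + e' + 3 * crd + r₀) (hV2' : V + 1 ≤ r₁ + e' + 3 * r₀)
    (hV3 : V + 1 + (2 * t * (2 * crd) + 2 * j') ≤ r₁ * (2 * t + 1) + 2 * crd) :
    CoreStatementB q (2 * a') p (2 * crd) (2 * j') V := by
  subst hae
  intro Cg
  have hq2 : 0 < q ^ 2 := by positivity
  have hq21 : q ^ 2 < 1 := by nlinarith
  have hq31 : 0 < 1 - q ^ 2 := by linarith
  obtain ⟨Cs, C, hCs, hC, hF⟩ := decomp_bound (θ₀ := q ^ 2 / 2) (θ₁ := (1 + q ^ 2) / 2) h0 h1 (by positivity)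
    (by linarith) t
  obtain ⟨N₁, hN₁⟩ : ∃ N₁ : ℕ, N₁ = (2 * (2 * crd + 2 * j') + 4) ^ 2 + (2 * (2 * (e + 2)) + 4) ^ 2 + 64 * (2 ^ t + 1) +
      16 * (t + 1) * 2 ^ t + 16 := ⟨_, rfl⟩
  obtain ⟨lam₀, hlam₀⟩ := exists_nat_ge
    ((N₁ : ℝ) + Cg + 4 * Cs + C * (11 + 9 * 2 ^ (2 * t)) + 2 / q ^ 2 + 2 / (1 - q ^ 2))
  refine ⟨lam₀, ?_⟩
  intro x A hx hA1 hA2
  have hxR : (lam₀ : ℝ) ≤ x := by exact_mod_cast hx
  have hp1' : 0 ≤ 2 / q ^ 2 := by positivity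
  have hp2' : 0 ≤ 2 / (1 - q ^ 2) := by positivity
  have hp3' : 0 ≤ C * (11 + 9 * 2 ^ (2 * t)) := by positivity
  have hp4' : 0 ≤ 4 * Cs := by linarith
  have hp5' : (0 : ℝ) ≤ Cg := by positivity
  have hp6' : (0 : ℝ) ≤ N₁ := by positivity
  have hxN : N₁ ≤ x := by
    have : (N₁ : ℝ) ≤ x := by linarith
    exact_mod_cast this
  have hCg : Cg ≤ x := by
    have : (Cg : ℝ) ≤ x := by linarith
    exact_mod_cast this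
  have hCs' : 4 * Cs ≤ x := by linarith
  have hCx : C * (11 + 9 * 2 ^ (2 * t)) ≤ x := by linarith
  have hq₁ : 2 / q ^ 2 ≤ x := by linarith
  have hq₂ : 2 / (1 - q ^ 2) ≤ x := by linarith
  have hx8 : 8 ≤ x := by omega
  have hx64 : 64 * (2 ^ t + 1) ≤ x := by omega
  have hx16 : 16 * (t + 1) * 2 ^ t ≤ x := by omega
  have hxS : (2 * (2 * crd + 2 * j') + 4) ^ 2 ≤ x := by omega
  have hxF : (2 * (2 * (e + 2)) + 4) ^ 2 ≤ x := by omega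
  have hK1 : 1 ≤ 2 ^ t := Nat.one_le_two_pow
  have hx1 : 1 ≤ x := by omega
  have hx1' : (1 : ℝ) ≤ x := by exact_mod_cast hx1
  have hx0 : (0 : ℝ) < x := by linarith
  have hu0 : 0 < 1 / (x : ℝ) := by positivity
  have hu1 : 1 / (x : ℝ) ≤ 1 := by
    rw [div_le_one hx0]
    exact hx1'
  have hu2 : 1 / (x : ℝ) ≤ q ^ 2 / 2 := by
    rw [div_le_iff₀ hx0]
    rw [div_le_iff₀ hq2] at hq₁
    nlinarith
  have hu3 : 1 / (x : ℝ) ≤ (1 - q ^ 2) / 2 := by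
    rw [div_le_iff₀ hx0]
    rw [div_le_iff₀ hq31] at hq₂
    nlinarith
  have hue : (1 / (x : ℝ)) ^ e ≤ 1 / (x : ℝ) := by
    have := pow_le_pow_of_le_one hu0.le hu1 (by omega : 1 ≤ e)
    rwa [pow_one] at this
  -- the data
  have hX := sites_facts (K := 2 ^ t) (dlt := 2 * crd) (j := 2 * j') (p := p) (r₁ := r₁) hx64 hp1 hr₁ (by omega) (by omega) (by omega) (sxT_vals t)
  have hY := sites_facts (K := 2 ^ t) (dlt := 2 * crd) (j := 2 * j') (p := p) (r₁ := r₁) hx64 hp1 hr₁ (by omega) (by omega) (by omega) (syT_vals t)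
  obtain ⟨hX1, hX2, hX3, hX4⟩ := hX
  obtain ⟨hY1, hY2, hY3, hY4⟩ := hY
  have hcardL : ∀ ς : ℕ → ℤ, (apL (posS ((x : ℤ) ^ p) ((x ^ (2 * crd) + 1 : ℕ) : ℤ) (2 ^ t) ς)
      (((x ^ (2 * j') : ℕ) : ℤ) + ((2 ^ t : ℕ) : ℤ)) (2 * x ^ (2 * j') + 2 ^ t + 1)).toFinset.card ≤ 3 * x ^ (2 * j') := by
    intro ς
    have h2 := List.toFinset_card_le (apL (posS ((x : ℤ) ^ p) ((x ^ (2 * crd) + 1 : ℕ) : ℤ) (2 ^ t) ς)
      (((x ^ (2 * j') : ℕ) : ℤ) + ((2 ^ t : ℕ) : ℤ)) (2 * x ^ (2 * j') + 2 ^ t + 1))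
    rw [length_apL] at h2
    exact h2.trans (nc_k (K := 2 ^ t) (x := x) (j := 2 * j') (by omega) (by omega))
  have hspaced : ∀ S : Finset ℤ, Spaced S (x ^ (2 * crd)) →
      ∀ d ∈ S, ∀ d' ∈ S, d ≠ d' → (x : ℤ) ^ (2 * crd) ≤ |d - d'| := by
    intro S hS d hd d' hd' hne
    have := hS d hd d' hd' hne
    push_cast at this
    exact this
  refine ⟨_, _, ?_, fun d hd => hX2 d (List.mem_toFinset.mp hd), fun d hd => hY2 d (List.mem_toFinset.mp hd),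
    hspaced _ hX3, hspaced _ hY3,
    fun d hd d' hd' => hX4 d (List.mem_toFinset.mp hd) d' (List.mem_toFinset.mp hd'),
    fun d hd d' hd' => hY4 d (List.mem_toFinset.mp hd) d' (List.mem_toFinset.mp hd'),
    hcardL _, hcardL _, ?_⟩
  · exact core_ne hx1
  · intro g hg
    have hε := th_bound (A := A) (e := e) h0 hx1 hg hCg hA1 (hue.trans (hu2.trans (by linarith)))
    obtain ⟨θ, hθdef⟩ : ∃ θ, θ = th q A g := ⟨_, rfl⟩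
    rw [← hθdef] at hε ⊢
    have hεa := abs_le.mp (hε.trans hue)
    have hθ : θ ∈ Set.Icc (q ^ 2 / 2) ((1 + q ^ 2) / 2) := by
      constructor <;> linarith [hεa.1, hεa.2]
    have hθ0 : θ ≠ 0 := by
      have : 0 < θ := by
        have := hθ.1
        linarith
      exact this.ne'
    have hP := par_inst (q := q) (θ := θ) (Cs := Cs) (x := x) (crd := crd) (j' := j') (R := R) hxS (by omega) hCs'
      (by omega) (by omega) hR1 hR2 (hε.trans (pow_le_pow_of_le_one hu0.le hu1 hde))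
    have hx0r : (0 : ℝ) < ((x ^ (2 * crd) : ℕ) : ℝ) := by
      push_cast
      positivity
    have hFP : FarPar (x ^ (2 * crd)) (3 * x ^ (2 * (e + 2))) ((x : ℝ) ^ cF) := by
      refine ⟨one_le_pow₀ hx1', ?_, ?_⟩
      · have hh := nc_harm (x := x) (L := 2 * (e + 2)) hxF (by omega)
        refine hh.trans ?_
        calc (x : ℝ) = (x : ℝ) ^ 1 := (pow_one _).symm
          _ ≤ (x : ℝ) ^ cF := pow_le_pow_right₀ hx1' hcF1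
      · rw [div_pow, div_mul_eq_mul_div, div_le_iff₀ (by positivity)]
        push_cast
        have h3 : (1 : ℝ) ≤ (x : ℝ) ^ (2 * (e + 2)) := one_le_pow₀ hx1'
        have h4 : (16 : ℝ) ≤ x := by
          have : 16 ≤ x := by omega
          exact_mod_cast this
        calc (2 : ℝ) ^ 2 * (3 * (x : ℝ) ^ (2 * (e + 2)) + 1) ≤ 16 * (x : ℝ) ^ (2 * (e + 2)) := by linarith
          _ ≤ (x : ℝ) * (x : ℝ) ^ (2 * (e + 2)) := mul_le_mul_of_nonneg_right h4 (by positivity)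
          _ = (x : ℝ) ^ (2 * (e + 2) + 1) := by ring
          _ ≤ (x : ℝ) ^ (cF + 2 * (2 * crd)) := pow_le_pow_right₀ hx1' (by omega)
          _ = (x : ℝ) ^ cF * ((x : ℝ) ^ (2 * crd)) ^ 2 := by ring
    have hALf : (A : ℤ) ≤ ((3 * x ^ (2 * (e + 2)) : ℕ) : ℤ) := by
      have : A ≤ 3 * x ^ (2 * (e + 2)) := by omega
      exact_mod_cast this
    have hr₁' : rhoL ((x ^ (2 * r₁) : ℕ) : ℤ) ≤ (1 / (x : ℝ)) ^ r₁ := nc_rho hx1 (le_refl _)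
    have hr₂' : rhoL ((x ^ (2 * r₂) : ℕ) : ℤ) ≤ (1 / (x : ℝ)) ^ r₂ := nc_rho hx1 (le_refl _)
    have hr₀' : rhoL ((x ^ (2 * crd + 2 * j') : ℕ) : ℤ) ≤ (1 / (x : ℝ)) ^ r₀ := nc_rho hx1 (pmono hx1 hr₀)
    have hr₁0 : 0 ≤ rhoL ((x ^ (2 * r₁) : ℕ) : ℤ) := rhoL_nonneg _
    have hr₂0 : 0 ≤ rhoL ((x ^ (2 * r₂) : ℕ) : ℤ) := rhoL_nonneg _
    have hr₀0 : 0 ≤ rhoL ((x ^ (2 * crd + 2 * j') : ℕ) : ℤ) := rhoL_nonneg _
    have hN1 := nc_h1 (r₁ := r₁) (p := p) (dlt := 2 * crd) (j := 2 * j') hx8 hr₁ hp1 (by omega)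
    have hN2 := nc_h2 (K := 2 ^ t) (p := p) (r₂ := r₂) (a := 2 * (e + 2)) (dlt := 2 * crd) (j := 2 * j') hx64 hpr₂ hr₂a (by omega)
    have hN3 := nc_h3 (K := 2 ^ t) (dlt := 2 * crd) (j := 2 * j') hx64 (by omega) (by omega)
    have hN4 := nc_h4 (x := x) (dlt := 2 * crd) (j := 2 * j')
    have hN5 := nc_h5 (K := 2 ^ t) (t := t) (dlt := 2 * crd) (r₁ := r₁) hx16 hK1 (by omega)
    have hN5' := nc_h5 (K := 2 ^ t) (t := t) (dlt := 2 * crd) (r₁ := r₂) hx16 hK1 (by omega)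
    have hN7 : x ^ (2 * r₁) ≤ x ^ (2 * r₂) := pmono hx1 (by omega)
    have hB := hF θ hθ ((x : ℤ) ^ p) (A : ℤ) (x ^ (2 * crd) + 1) (x ^ (2 * j')) (x ^ (2 * crd)) (3 * x ^ (2 * j'))
      (3 * x ^ (2 * crd + 2 * j'))
      (2 * A + 2 * (t * (2 ^ t * (x ^ (2 * crd) + 1)))) (x ^ (2 * r₁)) (x ^ (2 * r₂)) (x ^ (2 * crd + 2 * j')) (3 * x ^ (2 * (e + 2))) (x : ℝ) ((x : ℝ) ^ cF) hP hFP hALf (le_refl _)
      (one_le_pw hx1) (nc_k (by omega) (by omega))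
      (by
        have h2 : ((x ^ (2 * r₁) + 1 + x ^ (2 * j') * (x ^ (2 * crd) + 1) : ℕ) : ℤ) ≤ ((x ^ p : ℕ) : ℤ) := by exact_mod_cast hN1
        push_cast at h2 ⊢
        linarith)
      (by
        have h2 : ((x ^ p + (x ^ (2 * j') + 2 ^ t) * (x ^ (2 * crd) + 1) + 2 + x ^ (2 * r₂) : ℕ) : ℤ) ≤ (A : ℤ) := by
          exact_mod_cast hN2.trans hA1
        push_cast at h2 ⊢
        linarith)
      (by exact_mod_cast hN3)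
      (by push_cast; exact le_refl _)
      (by
        rw [nc_a]
        calc rhoL ((x ^ (2 * r₁) : ℕ) : ℤ) ^ 2 ≤ ((1 / (x : ℝ)) ^ r₁) ^ 2 := pow_le_pow_left₀ hr₁0 hr₁' 2
          _ = (1 / (x : ℝ)) ^ (2 * r₁) := by ring
          _ ≤ (1 / (x : ℝ)) ^ (3 * crd) := pow_le_pow_of_le_one hu0.le hu1 h3crd
          _ = ((1 / (x : ℝ)) ^ crd) ^ 3 := by ring)
      (by
        rw [nc_a]
        calc rhoL ((x ^ (2 * r₂) : ℕ) : ℤ) ^ 2 ≤ ((1 / (x : ℝ)) ^ r₂) ^ 2 := pow_le_pow_left₀ hr₂0 hr₂' 2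
          _ = (1 / (x : ℝ)) ^ (2 * r₂) := by ring
          _ ≤ (1 / (x : ℝ)) ^ (3 * crd) := pow_le_pow_of_le_one hu0.le hu1 (by omega)
          _ = ((1 / (x : ℝ)) ^ crd) ^ 3 := by ring)
      (by
        have := pmono (x := x) hx1 (by omega : 2 * crd ≤ 2 * r₂)
        omega)
      (by exact_mod_cast hN4)
      (by exact_mod_cast hN5)
      (by exact_mod_cast hN5')
      hN7
    rw [nc_a] at hB
    have hfin := num_final (x := x) (ρ₁ := rhoL ((x ^ (2 * r₁) : ℕ) : ℤ)) (ρ₂ := rhoL ((x ^ (2 * r₂) : ℕ) : ℤ))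
      (ρ₀ := rhoL ((x ^ (2 * crd + 2 * j') : ℕ) : ℤ)) (ε := |θ - q ^ 2|) (C := C) (j' := j') (cF := cF)
      (by omega) hr₁0 hr₂0 hr₀0 (abs_nonneg _) hC hr₁' hr₂' hr₀' hε hCx he'1 he'2 hr₁₂ hrd hde
      (by omega) hV1 hV1' hV2 hV2' hV3
    have e1 : ∀ t' : Word, ((cnt (blockStr (apL (posS ((x : ℤ) ^ p) ((x ^ (2 * crd) + 1 : ℕ) : ℤ) (2 ^ t) (sxT t))
          (((x ^ (2 * j') : ℕ) : ℤ) + ((2 ^ t : ℕ) : ℤ)) (2 * x ^ (2 * j') + 2 ^ t + 1)).toFinset 0 A) t' : ℝ) -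
        (cnt (blockStr (apL (posS ((x : ℤ) ^ p) ((x ^ (2 * crd) + 1 : ℕ) : ℤ) (2 ^ t) (syT t))
          (((x ^ (2 * j') : ℕ) : ℤ) + ((2 ^ t : ℕ) : ℤ)) (2 * x ^ (2 * j') + 2 ^ t + 1)).toFinset 0 A) t' : ℝ)) *
        (1 - θ) ^ (t'.length + 1) * θ ^ ((A : ℤ) - (H t' : ℤ)) =
        UC θ ((x : ℤ) ^ p) ((x ^ (2 * crd) + 1 : ℕ) : ℤ) (x ^ (2 * j')) (2 ^ t) (A : ℤ) (sxT t) t' -
        UC θ ((x : ℤ) ^ p) ((x ^ (2 * crd) + 1 : ℕ) : ℤ) (x ^ (2 * j')) (2 ^ t) (A : ℤ) (syT t) t' := by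
      intro t'
      have hAx : ∀ ς : ℕ → ℤ, (∀ d ∈ apL (posS ((x : ℤ) ^ p) ((x ^ (2 * crd) + 1 : ℕ) : ℤ) (2 ^ t) ς)
        (((x ^ (2 * j') : ℕ) : ℤ) + ((2 ^ t : ℕ) : ℤ)) (2 * x ^ (2 * j') + 2 ^ t + 1), (x : ℤ) ^ (2 * crd) ≤ d ∧ d ≤ 2 * (x : ℤ) ^ p ∧ (x : ℤ) ^ p ≤ 2 * d) →
        ∀ d ∈ apL (posS ((x : ℤ) ^ p) ((x ^ (2 * crd) + 1 : ℕ) : ℤ) (2 ^ t) ς)
        (((x ^ (2 * j') : ℕ) : ℤ) + ((2 ^ t : ℕ) : ℤ)) (2 * x ^ (2 * j') + 2 ^ t + 1), 0 < d ∧ d ≤ (A : ℤ) := by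
        intro ς hς d hd
        obtain ⟨h2, h3, -⟩ := hς d hd
        have h4 : (0 : ℤ) < (x : ℤ) ^ (2 * crd) := by positivity
        have h5 : 2 * x ^ p ≤ x ^ (2 * (e + 2)) := pw (by omega) hx1 (by omega)
        have h6 : (2 * (x : ℤ) ^ p) ≤ (A : ℤ) := by exact_mod_cast h5.trans hA1
        exact ⟨by linarith, by linarith⟩
      rw [sub_mul, sub_mul, cnt_UC hθ0 _ _ _ _ _ _ hX1 (hAx _ hX2), cnt_UC hθ0 _ _ _ _ _ _ hY1 (hAx _ hY2)]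
    rw [nsq_congr e1]
    refine le_trans (nsq_mono h0 h1 (by omega) _) (hB.trans hfin)

/-- The exponents used. -/
theorem core_inst {q : ℝ} (h0 : 0 < q) (h1 : q < 1) {m : ℕ} (hm : 11 ≤ m) :
    CoreStatementB q (2 * (4 * m + 8)) (8 * m + 7) (2 * (2 * m)) (2 * (2 * m - 11)) (18 * m - 9) := by
  obtain ⟨s, hs⟩ : ∃ s, m = s + 11 := ⟨m - 11, by omega⟩
  have hV3 : 18 * m - 9 + 1 + (2 * (3 * m) * (2 * (2 * m)) + 2 * (2 * m - 11)) ≤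
      (4 * m + 3) * (2 * (3 * m) + 1) + 2 * (2 * m) := by
    have e1 : 2 * (3 * m) * (2 * (2 * m)) = 24 * (m * m) := by ring
    have e2 : (4 * m + 3) * (2 * (3 * m) + 1) = 24 * (m * m) + 22 * m + 3 := by ring
    rw [e1, e2]
    omega
  exact core_gen (a' := 4 * m + 8) (p := 8 * m + 7) (crd := 2 * m) (j' := 2 * m - 11) (r₁ := 4 * m + 3)
    (r₂ := 4 * m + 6) (r₀ := 4 * m - 11) (R := 4 * m - 11) (e := 4 * m + 6) (e' := 4 * m + 6) (t := 3 * m)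
    (V := 18 * m - 9) (cF := 17) h0 h1 (by omega) (by omega) (by omega) (by omega) (by omega) (by omega) (by omega) (by omega)
    (by omega) (by omega) (by omega) (by omega) (by omega) (by omega) (by omega) (by omega) (by omega)
    (by omega) (by omega) (by omega) (by omega) (by omega) (by omega) hV3

end Vale.Agent.Lib.P321B
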