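import Vale.Agent.Lib.P321.Assembly
import Vale.Agent.Lib.P321.QVTail
import Vale.Agent.Lib.P321B.NumCoreB

/-!
P321: final assembly for the new parameters.
-/

namespace Vale.Agent.Lib.P321B

open Finset Vale.Agent.Lib.P321

open Classical in
theorem hell_core {q C c C2 C3 K1 : ℝ} {Cg lam A Le1 a' j Hh V : ℕ} {Dx Dy : Finset ℤ} (h0 : 0 < q) (h1 : q < 1)
    (hC : 0 < C) (hc : 0 < c) (hC3 : 0 < C3) (hK1 : K1 = C / c * 2 * (2 * Cg + 1))
    (hV : V = Hh + a' + 2) (ha4 : 4 ≤ 2 * a') (hj : j + 2 ≤ a')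
    (hred : ∀ (lam A : ℕ) (x y : Word) (c : ℝ), C ≤ lam → (lam : ℝ) ^ 4 ≤ A →
      x.length = 2 * A → y.length = 2 * A → 0 < c →
      Hell q (2 * A) x y ≤
        C / c * √(A : ℝ) * ∑ g ∈ Icc (-(Cg * lam : ℤ)) (Cg * lam : ℤ),
            ∑ t ∈ (W (2 * A)).filter (Typ q lam A), piT q t *
              (((cnt x t : ℝ) - cnt y t) * (1 - th q A g) ^ (t.length + 1) *
                th q A g ^ ((A : ℤ) - (H t : ℤ))) ^ 2
          + 2 * c * ∑ t ∈ (W (2 * A)).filter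
              (fun t => (cnt x t : ℝ) < c * (cnt (blockStr ∅ 0 A) t : ℝ)),
              trW q (2 * A) t * (cnt (blockStr ∅ 0 A) t : ℝ)
          + ∑ t ∈ (W (2 * A)).filter (fun t => ¬ Typ q lam A t),
              trW q (2 * A) t * ((cnt x t : ℝ) + cnt y t))
    (hT2 : ∑ t ∈ (W (2 * A)).filter
          (fun t => (cnt (blockStr Dx 0 A) t : ℝ) < c * (cnt (blockStr ∅ 0 A) t : ℝ)),
        trW q (2 * A) t * (cnt (blockStr ∅ 0 A) t : ℝ) ≤ Real.exp (-(lam : ℝ) / C2))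
    (htt : ∀ (lam A : ℕ) (D : Finset ℤ), C3 ≤ lam → (lam : ℝ) ^ 4 ≤ A →
      (D.card : ℝ) * (lam * √(A : ℝ)) ≤ A →
      ∑ t ∈ (W (2 * A)).filter (fun t => ¬ Typ q lam A t),
        trW q (2 * A) t * (cnt (blockStr D 0 A) t : ℝ) ≤ Real.exp (-((lam : ℝ) ^ 2) / C3))
    (hLe1 : ∀ lam : ℕ, Le1 ≤ lam → (6 * c) * Real.exp (-(lam : ℝ) / C2) ≤ 1 / (lam : ℝ) ^ Hh)
    (hL5 : Le1 ≤ lam)
    (hLe2 : 6 * Real.exp (-(lam : ℝ) / C3) ≤ 1 / (lam : ℝ) ^ Hh)
    (hCl : C ≤ lam) (hC3l : C3 ≤ lam) (hK1l : 3 * K1 ≤ lam) (hlam3 : 3 ≤ lam)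
    (hA1 : lam ^ (2 * a') ≤ A) (hA2 : A ≤ 2 * lam ^ (2 * a'))
    (hDx3 : Dx.card ≤ 3 * lam ^ j) (hDy3 : Dy.card ≤ 3 * lam ^ j)
    (hnsq : ∀ g : ℤ, |g| ≤ Cg * lam →
        nsq q (2 * A) (fun t => ((cnt (blockStr Dx 0 A) t : ℝ) - cnt (blockStr Dy 0 A) t) *
          (1 - th q A g) ^ (t.length + 1) * th q A g ^ ((A : ℤ) - (H t : ℤ))) ≤ 1 / (lam : ℝ) ^ V) :
    Hell q (2 * A) (blockStr Dx 0 A) (blockStr Dy 0 A) ≤ 1 / (lam : ℝ) ^ Hh := by
  have hlam2 : (2 : ℝ) ≤ lam := by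
    have : 2 ≤ lam := by omega
    exact_mod_cast this
  have hlam1 : (1 : ℝ) ≤ lam := by linarith
  have hlam0 : (0 : ℝ) < lam := by linarith
  have hA1' : (lam : ℝ) ^ (2 * a') ≤ A := by exact_mod_cast hA1
  have hA2' : (A : ℝ) ≤ 2 * (lam : ℝ) ^ (2 * a') := by exact_mod_cast hA2
  have hA0 : (0 : ℝ) ≤ A := by positivity
  have hl4 : (lam : ℝ) ^ 4 ≤ A :=
    le_trans (pow_le_pow_right₀ hlam1 ha4) hA1'
  have hR := hred lam A (blockStr Dx 0 A) (blockStr Dy 0 A) c hCl hl4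
    (length_blockStr _ _ _) (length_blockStr _ _ _) hc
  have hT1 := first_term_bound (F := fun g t => ((cnt (blockStr Dx 0 A) t : ℝ) - cnt (blockStr Dy 0 A) t) *
          (1 - th q A g) ^ (t.length + 1) * th q A g ^ ((A : ℤ) - (H t : ℤ))) h0 h1 hC hc hK1 hK1l hlam1 hA2' hV hnsq
    (Typ q lam A)
  have hsqA : (lam : ℝ) ^ a' ≤ √(A : ℝ) := by
    apply Real.le_sqrt_of_sq_le
    calc ((lam : ℝ) ^ a') ^ 2 = (lam : ℝ) ^ (2 * a') := by rw [← pow_mul, mul_comm]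
      _ ≤ A := hA1'
  have hcardb : ∀ D : Finset ℤ, D.card ≤ 3 * lam ^ j → (D.card : ℝ) * (lam * √(A : ℝ)) ≤ A := by
    intro D hD
    have h3' : D.card * lam ≤ lam ^ a' := by
      calc D.card * lam ≤ (3 * lam ^ j) * lam := Nat.mul_le_mul_right _ hD
        _ ≤ (lam * lam ^ j) * lam := Nat.mul_le_mul_right _ (Nat.mul_le_mul_right _ hlam3)
        _ = lam ^ (j + 2) := by ring
        _ ≤ lam ^ a' := Nat.pow_le_pow_right (by omega) hj
    have h4 : (D.card : ℝ) * lam ≤ (lam : ℝ) ^ a' := by exact_mod_cast h3'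
    calc (D.card : ℝ) * (lam * √(A : ℝ)) = ((D.card : ℝ) * lam) * √(A : ℝ) := by ring
      _ ≤ √(A : ℝ) * √(A : ℝ) := mul_le_mul_of_nonneg_right (le_trans h4 hsqA) (Real.sqrt_nonneg _)
      _ = A := Real.mul_self_sqrt hA0
  have hT3x := htt lam A Dx hC3l hl4 (hcardb Dx hDx3)
  have hT3y := htt lam A Dy hC3l hl4 (hcardb Dy hDy3)
  have hexp : Real.exp (-((lam : ℝ) ^ 2) / C3) ≤ Real.exp (-(lam : ℝ) / C3) := by
    apply Real.exp_le_exp.mpr
    apply div_le_div_of_nonneg_right _ hC3.le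
    nlinarith
  have hT3 : ∑ t ∈ (W (2 * A)).filter (fun t => ¬ Typ q lam A t),
      trW q (2 * A) t * ((cnt (blockStr Dx 0 A) t : ℝ) + cnt (blockStr Dy 0 A) t) ≤
      2 * Real.exp (-(lam : ℝ) / C3) := by
    have : ∑ t ∈ (W (2 * A)).filter (fun t => ¬ Typ q lam A t),
      trW q (2 * A) t * ((cnt (blockStr Dx 0 A) t : ℝ) + cnt (blockStr Dy 0 A) t) =
      ∑ t ∈ (W (2 * A)).filter (fun t => ¬ Typ q lam A t), trW q (2 * A) t * (cnt (blockStr Dx 0 A) t : ℝ) +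
      ∑ t ∈ (W (2 * A)).filter (fun t => ¬ Typ q lam A t), trW q (2 * A) t * (cnt (blockStr Dy 0 A) t : ℝ) := by
      rw [← sum_add_distrib]
      apply sum_congr rfl
      intro t _
      ring
    rw [this]
    linarith
  have hE1 := hLe1 lam hL5
  have hT2' : 2 * c * ∑ t ∈ (W (2 * A)).filter
        (fun t => (cnt (blockStr Dx 0 A) t : ℝ) < c * (cnt (blockStr ∅ 0 A) t : ℝ)),
        trW q (2 * A) t * (cnt (blockStr ∅ 0 A) t : ℝ) ≤ 2 * c * Real.exp (-(lam : ℝ) / C2) := by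
    apply mul_le_mul_of_nonneg_left _ (by positivity)
    convert hT2
  have hX : 0 < 1 / (lam : ℝ) ^ Hh := by positivity
  linarith

open Classical in
/-- The Hellinger distance of the two strings of the core is tiny. -/
theorem hell_small {q : ℝ} (h0 : 0 < q) (h1 : q < 1) {a' pP dlt j V Hh : ℕ}
    (ha4 : 4 ≤ 2 * a') (hd1 : 1 ≤ dlt) (hj : j + 2 ≤ a') (hp : pP + 9 ≤ 2 * a') (hdp : 2 * dlt ≤ pP)
    (hwin : dlt + j < 2 * dlt) (hlt3 : 15 + pP + j ≤ 3 * dlt)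
    (hV : V = Hh + a' + 2) (hcore : CoreStatementB q (2 * a') pP dlt j V) :
    ∃ L : ℕ, ∀ lam A : ℕ, L ≤ lam → lam ^ (2 * a') ≤ A → A ≤ 2 * lam ^ (2 * a') →
      ∃ Dx Dy : Finset ℤ, blockStr Dx 0 A ≠ blockStr Dy 0 A ∧
        Hell q (2 * A) (blockStr Dx 0 A) (blockStr Dy 0 A) ≤ 1 / (lam : ℝ) ^ Hh := by
  obtain ⟨C, Cg, hC, hred⟩ := reduce h0 h1
  obtain ⟨lam₀, hcoreL⟩ := hcore Cg
  obtain ⟨c, C2, hc, hC2, hlt⟩ := lower_tail_B h0 h1
  obtain ⟨C3, hC3, htt⟩ := typical_tail h0 h1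
  obtain ⟨K1, hK1⟩ : ∃ K1 : ℝ, K1 = C / c * 2 * (2 * Cg + 1) := ⟨_, rfl⟩
  have hK10 : 0 < K1 := by rw [hK1]; positivity
  obtain ⟨Le1, hLe1⟩ := exp_small hC2 (show 0 < 6 * c by positivity) Hh
  obtain ⟨Le2, hLe2⟩ := exp_small hC3 (show (0 : ℝ) < 6 by norm_num) Hh
  obtain ⟨Le3, hLe3⟩ := exp_small hC2 (show (0 : ℝ) < 2 by norm_num) pP
  obtain ⟨N₀, hN₀⟩ : ∃ N₀ : ℕ, N₀ = (2 * (dlt + j) + 4) ^ 2 + 6 := ⟨_, rfl⟩
  refine ⟨max lam₀ (max ⌈C⌉₊ (max ⌈C2⌉₊ (max ⌈C3⌉₊ (max N₀ (max Le1 (max Le2 (max Le3 ⌈3 * K1⌉₊))))))), ?_⟩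
  intro lam A hL hA1 hA2
  have hL0 : lam₀ ≤ lam := le_trans (le_max_left _ _) hL
  have hL1 : ⌈C⌉₊ ≤ lam := le_trans (le_trans (le_max_left _ _) (le_max_right _ _)) hL
  have hL2 : ⌈C2⌉₊ ≤ lam :=
    le_trans (le_trans (le_trans (le_max_left _ _) (le_max_right _ _)) (le_max_right _ _)) hL
  have hrest : max ⌈C3⌉₊ (max N₀ (max Le1 (max Le2 (max Le3 ⌈3 * K1⌉₊)))) ≤ lam :=
    le_trans (le_trans (le_max_right _ _) (le_trans (le_max_right _ _) (le_max_right _ _))) hL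
  have hL3 : ⌈C3⌉₊ ≤ lam := le_trans (le_max_left _ _) hrest
  have hrest2 : max N₀ (max Le1 (max Le2 (max Le3 ⌈3 * K1⌉₊))) ≤ lam := le_trans (le_max_right _ _) hrest
  have hL4 : N₀ ≤ lam := le_trans (le_max_left _ _) hrest2
  have hrest3 : max Le1 (max Le2 (max Le3 ⌈3 * K1⌉₊)) ≤ lam := le_trans (le_max_right _ _) hrest2
  have hL5 : Le1 ≤ lam := le_trans (le_max_left _ _) hrest3
  have hrest4 : max Le2 (max Le3 ⌈3 * K1⌉₊) ≤ lam := le_trans (le_max_right _ _) hrest3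
  have hL6 : Le2 ≤ lam := le_trans (le_max_left _ _) hrest4
  have hrest5 : max Le3 ⌈3 * K1⌉₊ ≤ lam := le_trans (le_max_right _ _) hrest4
  have hL6' : Le3 ≤ lam := le_trans (le_max_left _ _) hrest5
  have hL7 : ⌈3 * K1⌉₊ ≤ lam := le_trans (le_max_right _ _) hrest5
  have hCl : C ≤ lam := le_trans (Nat.le_ceil _) (by exact_mod_cast hL1)
  have hC2l : C2 ≤ lam := le_trans (Nat.le_ceil _) (by exact_mod_cast hL2)
  have hC3l : C3 ≤ lam := le_trans (Nat.le_ceil _) (by exact_mod_cast hL3)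
  have hK1l : 3 * K1 ≤ lam := le_trans (Nat.le_ceil _) (by exact_mod_cast hL7)
  have hlam6 : 6 ≤ lam := by omega
  have hlamH : (2 * (dlt + j) + 4) ^ 2 ≤ lam := by omega
  have hlam1n : 1 ≤ lam := by omega
  have hlam6r : (6 : ℝ) ≤ lam := by exact_mod_cast hlam6
  have hlam1 : (1 : ℝ) ≤ lam := by linarith
  have hlam0 : (0 : ℝ) < lam := by linarith
  obtain ⟨Dx, Dy, hne, hDx1, hDy1, hDx2, hDy2, hDx4, hDy4, hDx3, hDy3, hnsq⟩ :=
    hcoreL lam A hL0 hA1 hA2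
  have hAz : (2 : ℤ) * (lam : ℤ) ^ pP ≤ (A : ℤ) := by
    have h3 : 2 * lam ^ pP ≤ lam ^ (2 * a') := by
      calc 2 * lam ^ pP ≤ lam * lam ^ pP := Nat.mul_le_mul_right _ (by omega)
        _ = lam ^ (pP + 1) := by rw [pow_succ, mul_comm]
        _ ≤ lam ^ (2 * a') := Nat.pow_le_pow_right (by omega) (by omega)
    exact_mod_cast le_trans h3 hA1
  have hsite : ∀ i : ℤ, ((lam : ℤ) ^ dlt ≤ i ∧ i ≤ 2 * (lam : ℤ) ^ pP ∧ (lam : ℤ) ^ pP ≤ 2 * i) → 0 < i ∧ i ≤ 0 + (A : ℤ) := by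
    intro i hi
    have h3 : (0 : ℤ) < (lam : ℤ) ^ dlt := by
      have : (0 : ℤ) < lam := by omega
      positivity
    exact ⟨lt_of_lt_of_le h3 hi.1, by linarith [hi.2.1]⟩
  refine ⟨Dx, Dy, ?_, ?_⟩
  · intro heq
    apply hne
    ext i
    constructor
    · intro hi
      have := hsite i (hDx1 i hi)
      exact (blockStr_eq_mem A 0 heq i this.1 this.2).1 hi
    · intro hi
      have := hsite i (hDy1 i hi)
      exact (blockStr_eq_mem A 0 heq i this.1 this.2).2 hi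
  · have hE2 : 6 * Real.exp (-(lam : ℝ) / C3) ≤ 1 / (lam : ℝ) ^ Hh := hLe2 lam hL6
    have hA1' : (lam : ℝ) ^ (2 * a') ≤ A := by exact_mod_cast hA1
    have hT2 := hlt lam A (lam ^ dlt) (2 * lam ^ pP) (3 * lam ^ (dlt + j)) Dx hC2l (one_le_pw hlam1n)
      (by
        intro d hd
        obtain ⟨h3, h4, h5⟩ := hDx1 d hd
        push_cast
        exact ⟨h3, by linarith, h4⟩)
      (by
        intro d hd d' hd' hne'
        have := hDx2 d hd d' hd' hne'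
        push_cast
        exact this)
      (by
        intro d hd d' hd'
        have := hDx4 d hd d' hd'
        push_cast
        exact this)
      (by
        push_cast
        have h3 : (1 : ℝ) ≤ (lam : ℝ) ^ (dlt + j) := one_le_pow₀ hlam1
        have h4 : (lam : ℝ) * (lam : ℝ) ^ (dlt + j) ≤ ((lam : ℝ) ^ dlt) ^ 2 := by
          calc (lam : ℝ) * (lam : ℝ) ^ (dlt + j) = (lam : ℝ) ^ (dlt + j + 1) := by ring
            _ ≤ (lam : ℝ) ^ (2 * dlt) := pow_le_pow_right₀ hlam1 hwin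
            _ = ((lam : ℝ) ^ dlt) ^ 2 := by ring
        have h5 : 6 * (lam : ℝ) ^ (dlt + j) ≤ (lam : ℝ) * (lam : ℝ) ^ (dlt + j) :=
          mul_le_mul_of_nonneg_right hlam6r (by positivity)
        linarith)
      (nc_harm hlamH hlam6)
      (by
        push_cast
        have h3 : (Dx.card : ℝ) ≤ 3 * (lam : ℝ) ^ j := by exact_mod_cast hDx3
        calc (lam : ℝ) ^ 14 * (2 * (lam : ℝ) ^ pP) * (Dx.card : ℝ)
            ≤ (lam : ℝ) ^ 14 * (2 * (lam : ℝ) ^ pP) * (3 * (lam : ℝ) ^ j) :=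
              mul_le_mul_of_nonneg_left h3 (by positivity)
          _ = 6 * ((lam : ℝ) ^ 14 * (lam : ℝ) ^ pP * (lam : ℝ) ^ j) := by ring
          _ ≤ (lam : ℝ) * ((lam : ℝ) ^ 14 * (lam : ℝ) ^ pP * (lam : ℝ) ^ j) :=
              mul_le_mul_of_nonneg_right hlam6r (by positivity)
          _ = (lam : ℝ) ^ (15 + pP + j) := by ring
          _ ≤ (lam : ℝ) ^ (3 * dlt) := pow_le_pow_right₀ hlam1 hlt3
          _ = ((lam : ℝ) ^ dlt) ^ 3 := by ring)
      (by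
        push_cast
        calc ((lam : ℝ) ^ dlt) ^ 2 = (lam : ℝ) ^ (2 * dlt) := by ring
          _ ≤ (lam : ℝ) ^ pP := pow_le_pow_right₀ hlam1 hdp
          _ ≤ 2 * (lam : ℝ) ^ pP := by
              have : 0 ≤ (lam : ℝ) ^ pP := by positivity
              linarith)
      (by
        have h3 := hLe3 lam hL6'
        have h4 : 0 < (lam : ℝ) ^ pP := by positivity
        have h5 : Real.exp (-(lam : ℝ) / C2) = (Real.exp ((lam : ℝ) / C2))⁻¹ := by
          rw [← Real.exp_neg]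
          congr 1
          ring
        rw [h5, ← div_eq_mul_inv, div_le_div_iff₀ (Real.exp_pos _) h4] at h3
        push_cast
        linarith)
      (by
        push_cast
        calc 2 * (lam : ℝ) ^ pP * (lam : ℝ) ^ 8 ≤ (lam : ℝ) * (lam : ℝ) ^ pP * (lam : ℝ) ^ 8 := by
              apply mul_le_mul_of_nonneg_right _ (by positivity)
              exact mul_le_mul_of_nonneg_right (by linarith) (by positivity)
          _ = (lam : ℝ) ^ (pP + 9) := by ring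
          _ ≤ (lam : ℝ) ^ (2 * a') := pow_le_pow_right₀ hlam1 hp
          _ ≤ A := hA1')
    exact hell_core h0 h1 hC hc hC3 hK1 hV ha4 hj hred (by convert hT2) htt hLe1 hL5 hE2 hCl hC3l hK1l (by omega) hA1 hA2
      hDx3 hDy3 hnsq

/-- Main theorem: the analytic core implies the lower bound `c n^α` on the number of traces. -/
theorem main_of_core {q : ℝ} (h0 : 0 < q) (h1 : q < 1) {a a' pP dlt j V Hh : ℕ} {α : ℝ}
    (ha : a = 2 * a') (ha4 : 4 ≤ a) (hd1 : 1 ≤ dlt) (hj : j + 2 ≤ a') (hp : pP + 9 ≤ a) (hdp : 2 * dlt ≤ pP)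
    (hwin : dlt + j < 2 * dlt) (hlt3 : 15 + pP + j ≤ 3 * dlt)
    (hV : V = Hh + a' + 2) (hα0 : 0 ≤ α) (hα : α * a ≤ Hh)
    (hcore : CoreStatementB q a pP dlt j V) :
    ∃ c : ℝ, 0 < c ∧ ∃ n₀ : ℕ, ∀ n ≥ n₀, ∀ m : ℕ, CanReconstruct q n m →
      c * (n : ℝ) ^ α ≤ (m : ℝ) := by
  subst ha
  obtain ⟨L, hL⟩ := hell_small h0 h1 ha4 hd1 hj hp hdp hwin hlt3 hV hcore
  obtain ⟨L', hL'⟩ : ∃ L', L' = max L (max (2 * (2 * a')) 1) := ⟨_, rfl⟩
  have hL'1 : L ≤ L' := by rw [hL']; exact le_max_left _ _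
  have hL'2 : 2 * (2 * a') ≤ L' := by rw [hL']; exact le_trans (le_max_left _ _) (le_max_right _ _)
  have hL'3 : 1 ≤ L' := by rw [hL']; exact le_trans (le_max_right _ _) (le_max_right _ _)
  have h5α : (0 : ℝ) < (5 : ℝ) ^ α := by positivity
  refine ⟨1 / (36 * (5 : ℝ) ^ α), by positivity, 2 * L' ^ (2 * a'), ?_⟩
  intro n hn m ⟨E, hE⟩
  have hA0 : L' ^ (2 * a') ≤ n / 2 := by omega
  obtain ⟨lam, hl1, hl2⟩ := exists_root (a := 2 * a') (by omega) (n / 2)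
  have hlam : L' ≤ lam := by
    by_contra hcon
    have h3 : lam + 1 ≤ L' := by omega
    have h4 : (lam + 1) ^ (2 * a') ≤ L' ^ (2 * a') := Nat.pow_le_pow_left h3 _
    omega
  have hlam2k : 2 * (2 * a') ≤ lam := le_trans hL'2 hlam
  have hlam1 : 1 ≤ lam := le_trans hL'3 hlam
  have hA2 : n / 2 ≤ 2 * lam ^ (2 * a') := le_trans hl2.le (succ_pow_le hlam2k hlam1)
  obtain ⟨Dx, Dy, hne, hH⟩ := hL lam (n / 2) (le_trans hL'1 hlam) hl1 hA2
  have hlam0 : (0 : ℝ) < lam := by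
    have : 0 < lam := by omega
    exact_mod_cast this
  have hHpos : 0 < (lam : ℝ) ^ Hh := by positivity
  -- the two point bound on the (possibly padded) strings
  have hkey : 1 ≤ 36 * (m : ℝ) * (1 / (lam : ℝ) ^ Hh) := by
    rcases Nat.even_or_odd' n with ⟨k, hk | hk⟩
    · have hk2 : n / 2 = k := by omega
      rw [hk2] at hne hH
      obtain ⟨x, hx⟩ := word_ofFn (n := n) (blockStr Dx 0 k) (by rw [length_blockStr]; omega)
      obtain ⟨y, hy⟩ := word_ofFn (n := n) (blockStr Dy 0 k) (by rw [length_blockStr]; omega)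
      have hxy : x ≠ y := by
        intro h
        apply hne
        rw [← hx, ← hy, h]
      have h3 := two_point h0 h1 E x y hxy (hE x) (hE y)
      rw [hx, hy, hk] at h3
      refine le_trans h3 ?_
      exact mul_le_mul_of_nonneg_left hH (by positivity)
    · have hk2 : n / 2 = k := by omega
      rw [hk2] at hne hH
      obtain ⟨x, hx⟩ := word_ofFn (n := n) (blockStr Dx 0 k ++ [false])
        (by rw [List.length_append, length_blockStr]; simp; omega)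
      obtain ⟨y, hy⟩ := word_ofFn (n := n) (blockStr Dy 0 k ++ [false])
        (by rw [List.length_append, length_blockStr]; simp; omega)
      have hxy : x ≠ y := by
        intro h
        apply hne
        have h4 : blockStr Dx 0 k ++ [false] = blockStr Dy 0 k ++ [false] := by
          rw [← hx, ← hy, h]
        exact List.append_cancel_right h4
      have h3 := two_point h0 h1 E x y hxy (hE x) (hE y)
      rw [hx, hy] at h3
      have h5 := Hell_append_le h0 h1 (blockStr Dx 0 k) (blockStr Dy 0 k)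
        (by rw [length_blockStr, length_blockStr]) false
      rw [length_blockStr] at h5
      rw [hk] at h3
      refine le_trans h3 ?_
      exact mul_le_mul_of_nonneg_left (le_trans h5 hH) (by positivity)
  have hm : (lam : ℝ) ^ Hh ≤ 36 * m := by
    have h3 : 36 * (m : ℝ) * (1 / (lam : ℝ) ^ Hh) = 36 * m / (lam : ℝ) ^ Hh := by ring
    rw [h3, le_div_iff₀ hHpos] at hkey
    linarith
  have hn5 : n ≤ 5 * lam ^ (2 * a') := by
    have h3 : 1 ≤ lam ^ (2 * a') := Nat.one_le_pow _ _ (by omega)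
    omega
  have h6 := n_rpow_le hlam1 hn5 hα0 hα
  calc 1 / (36 * (5 : ℝ) ^ α) * (n : ℝ) ^ α ≤ 1 / (36 * (5 : ℝ) ^ α) * ((5 : ℝ) ^ α * (lam : ℝ) ^ Hh) :=
        mul_le_mul_of_nonneg_left h6 (by positivity)
    _ = (lam : ℝ) ^ Hh / 36 := by field_simp
    _ ≤ m := by linarith

end Vale.Agent.Lib.P321B
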